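import Crest.Agent.R113.FD.AGoodDef
import Crest.Agent.R113.FD.OrbitB

/-!
Row 113, S0149, T12 (helper244): the good windows cover almost everything.
-/

set_option autoImplicit false

namespace Crest.Agent.R113.Orb

open Finset

attribute [local irreducible] Mb rb Pib

variable {w : ℕ → ℕ → Bool} {c e : ℕ → ℝ} {g : ℕ → ℕ} {u : ℤ → ℝ} {lev : ℕ → ℤ → ℕ}
  {bad : ℕ → Set ℤ} {q N B J b0 l D K : ℕ}

theorem good_mem (hO : OrbitData w c e g u lev bad) (hb : 1 ≤ b0) (hl : 0 < l)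
    (hlD : D * l = Mb b0) (m : ℕ) (h1 : l ≤ m) (h2 : m + 2 * l ≤ q)
    (h3 : pw lev b0 l (m : ℤ) ≠ 0) (h4 : pw lev b0 l (m : ℤ) ≠ D - 1)
    (h5 : ¬ ∃ i : ℤ, |i| ≤ 2 * (Mb b0 : ℤ) ∧ ((m : ℤ) + i ∈ bad b0)) :
    ∃ s0 ∈ goodW lev bad b0 l D q, s0 ≤ m ∧ m < s0 + l := by
  classical
  have hx : lev b0 (m : ℤ) % l < l := Nat.mod_lt _ hl
  have hx' : lev b0 (m : ℤ) % l ≤ lev b0 (m : ℤ) := Nat.mod_le _ _
  set x := lev b0 (m : ℤ) % l with hxdef
  have hlM := l_le hlD
  have hs : ((m - x : ℕ) : ℤ) = (m : ℤ) - x := by omega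
  have hlev : lev b0 (((m - x : ℕ) : ℤ)) = lev b0 (m : ℤ) - x := by
    rw [hs]; exact lev_sub (steps hO hb) _ _ hx'
  have hdiv : lev b0 (m : ℤ) - x = l * (lev b0 (m : ℤ) / l) := by
    have := Nat.div_add_mod (lev b0 (m : ℤ)) l
    omega
  have hpw : pw lev b0 l (((m - x : ℕ) : ℤ)) = pw lev b0 l (m : ℤ) := by
    rw [pw_eq hlD, pw_eq hlD, hlev, hdiv, Nat.mul_div_cancel_left _ hl]
  have hlt := pw_lt (lev := lev) hlD (m : ℤ)
  refine ⟨m - x, ?_, by omega, by omega⟩
  unfold goodW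
  rw [mem_filter, mem_range]
  refine ⟨by omega, by omega, ?_, ?_, ?_, ?_⟩
  · rw [hlev, hdiv]; exact Nat.mul_mod_right _ _
  · rw [hpw]; omega
  · rw [hpw]; omega
  · intro i hi hbad
    apply h5
    refine ⟨(i : ℤ) - x, ?_, ?_⟩
    · rw [abs_le]; omega
    · rw [hs] at hbad
      have : (m : ℤ) + ((i : ℤ) - x) = (m : ℤ) - x + i := by ring
      rwa [this]

/-- the good windows cover almost everything -/
theorem good_count' (hO : OrbitData w c e g u lev bad) (hC : OrbitCounts q N B J lev bad)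
    (hb : 1 ≤ b0) (hB : B ≤ b0) (hJ : b0 ≤ J) (hN : 2 * (Pib b0 * Mb b0) ≤ N)
    (hq : 4 ^ b0 * (Pib b0 * Mb b0) ≤ q) (hl : 0 < l) (hlD : D * l = Mb b0) :
    (1 - (2 / D + 50 * zb b0)) * q ≤ l * (goodW lev bad b0 l D q).card := by
  classical
  set S0 := (univ : Finset (Fin q)).filter (fun m : Fin q => pw lev b0 l ((m : ℕ) : ℤ) = 0)
  set S1 := (univ : Finset (Fin q)).filter (fun m : Fin q => pw lev b0 l ((m : ℕ) : ℤ) = D - 1)
  set S2 := (univ : Finset (Fin q)).filter (fun m : Fin q => ∃ i : ℤ, |i| ≤ 2 * (Mb b0 : ℤ) ∧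
      (((m : ℕ) : ℤ) + i ∈ bad b0))
  set S3 := (univ : Finset (Fin q)).filter (fun m : Fin q => (m : ℕ) < l)
  set S4 := (univ : Finset (Fin q)).filter (fun m : Fin q => q < (m : ℕ) + 2 * l)
  set G := (goodW lev bad b0 l D q).biUnion
    (fun s0 => (univ : Finset (Fin q)).filter (fun m : Fin q => s0 ≤ (m : ℕ) ∧ (m : ℕ) < s0 + l))
  have hcov : (univ : Finset (Fin q)) ⊆ S0 ∪ (S1 ∪ (S2 ∪ (S3 ∪ (S4 ∪ G)))) := by
    intro m _
    simp only [mem_union]
    by_cases h0 : m ∈ S0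
    · exact Or.inl h0
    by_cases h1 : m ∈ S1
    · exact Or.inr (Or.inl h1)
    by_cases h2 : m ∈ S2
    · exact Or.inr (Or.inr (Or.inl h2))
    by_cases h3 : m ∈ S3
    · exact Or.inr (Or.inr (Or.inr (Or.inl h3)))
    by_cases h4 : m ∈ S4
    · exact Or.inr (Or.inr (Or.inr (Or.inr (Or.inl h4))))
    right; right; right; right; right
    rw [mem_filter] at h0 h1 h2 h3 h4
    simp only [mem_univ, true_and] at h0 h1 h2 h3 h4
    obtain ⟨s0, hs0, h5, h6⟩ := good_mem (q := q) hO hb hl hlD (m : ℕ) (by omega) (by omega)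
      h0 h1 h2
    rw [mem_biUnion]
    exact ⟨s0, hs0, by rw [mem_filter]; exact ⟨mem_univ _, h5, h6⟩⟩
  have c0 : (S0.card : ℝ) ≤ (1 / (D : ℝ) + 16 * zb b0) * q :=
    count_pw hO hC hb hB hJ hN hq hl hlD 0
  have c1 : (S1.card : ℝ) ≤ (1 / (D : ℝ) + 16 * zb b0) * q :=
    count_pw hO hC hb hB hJ hN hq hl hlD (D - 1)
  have c2 : (S2.card : ℝ) ≤ zb b0 * q := count_bad hC hB hJ
  have c3 : S3.card ≤ l := by
    have : S3.card ≤ (range l).card := by
      apply Finset.card_le_card_of_injOn (fun m : Fin q => (m : ℕ))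
      · intro m hm
        have hm' := (mem_filter.mp hm).2
        simpa using hm'
      · intro m _ m' _ h
        exact Fin.ext h
    simpa using this
  have c4 : S4.card ≤ 2 * l := by
    have : S4.card ≤ (Ico (q - 2 * l) q).card := by
      apply Finset.card_le_card_of_injOn (fun m : Fin q => (m : ℕ))
      · intro m hm
        have hm' := (mem_filter.mp hm).2
        have hm2 := m.2
        simp only [coe_Ico, Set.mem_Ico]
        omega
      · intro m _ m' _ h
        exact Fin.ext h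
    rw [Nat.card_Ico] at this
    omega
  have cG : G.card ≤ (goodW lev bad b0 l D q).card * l := by
    apply Finset.card_biUnion_le_card_mul
    intro s0 _
    have : ((univ : Finset (Fin q)).filter
        (fun m : Fin q => s0 ≤ (m : ℕ) ∧ (m : ℕ) < s0 + l)).card ≤ (Ico s0 (s0 + l)).card := by
      apply Finset.card_le_card_of_injOn (fun m : Fin q => (m : ℕ))
      · intro m hm
        have hm' := (mem_filter.mp hm).2
        simp only [coe_Ico, Set.mem_Ico]
        exact hm'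
      · intro m _ m' _ h
        exact Fin.ext h
    simpa using this
  have htot : q ≤ S0.card + (S1.card + (S2.card + (S3.card + (S4.card + G.card)))) := by
    have h := Finset.card_le_card hcov
    rw [Finset.card_univ, Fintype.card_fin] at h
    refine h.trans ((Finset.card_union_le _ _).trans (Nat.add_le_add_left ?_ _))
    refine (Finset.card_union_le _ _).trans (Nat.add_le_add_left ?_ _)
    refine (Finset.card_union_le _ _).trans (Nat.add_le_add_left ?_ _)
    refine (Finset.card_union_le _ _).trans (Nat.add_le_add_left ?_ _)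
    exact Finset.card_union_le _ _
  have hlz : (3 * l : ℝ) ≤ zb b0 * q := by
    have h1 : 1024 ≤ Pib b0 := Pib_ge b0
    have hlM := l_le hlD
    have h2 : 2 ^ b0 * (3 * l) ≤ q := by
      have h3 : 2 ^ b0 ≤ 4 ^ b0 := Nat.pow_le_pow_left (by norm_num) _
      have h4 : 3 * l ≤ Pib b0 * Mb b0 := by
        calc 3 * l ≤ 1024 * Mb b0 := by omega
          _ ≤ Pib b0 * Mb b0 := Nat.mul_le_mul_right _ h1
      exact (Nat.mul_le_mul h3 h4).trans hq
    have h5 : ((2 : ℝ) ^ b0) * (3 * l) ≤ q := by exact_mod_cast h2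
    have h6 : zb b0 * (2 : ℝ) ^ b0 = 1 := by
      unfold zb
      rw [← mul_pow]; norm_num
    have h7 : 0 ≤ zb b0 := by unfold zb; positivity
    calc (3 * l : ℝ) = zb b0 * ((2 : ℝ) ^ b0 * (3 * l)) := by rw [← mul_assoc, h6, one_mul]
      _ ≤ zb b0 * q := mul_le_mul_of_nonneg_left h5 h7
  have htot' : (q : ℝ) ≤ S0.card + (S1.card + (S2.card + (S3.card + (S4.card + G.card)))) := by
    exact_mod_cast htot
  have c3' : (S3.card : ℝ) ≤ l := by exact_mod_cast c3
  have c4' : (S4.card : ℝ) ≤ 2 * l := by exact_mod_cast c4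
  have cG' : (G.card : ℝ) ≤ (goodW lev bad b0 l D q).card * l := by exact_mod_cast cG
  have hz : 0 ≤ zb b0 * q := by
    have : 0 ≤ zb b0 := by unfold zb; positivity
    positivity
  have e1 : (1 - (2 / (D : ℝ) + 50 * zb b0)) * q =
      q - 2 * ((1 / (D : ℝ) + 16 * zb b0) * q) - 18 * (zb b0 * q) := by ring
  rw [e1]
  linarith

end Crest.Agent.R113.Orb
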