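import Crest.Agent.R113.FD.AGoodCW
import Crest.Agent.R113.FD.AGoodCount

/-!
Row 113, S0149, T12: good windows (tiling, windows, colouring).
-/

set_option autoImplicit false

namespace Crest.Agent.R113.Orb

open Finset
open Crest.Agent.R113.FD (Tiling)

variable {w : ℕ → ℕ → Bool} {c e : ℕ → ℝ} {g : ℕ → ℕ} {u : ℤ → ℝ} {lev : ℕ → ℤ → ℕ}
  {bad : ℕ → Set ℤ} {q N B J b0 l D K : ℕ}

theorem goodW_le {s0 : ℕ} (hs : s0 ∈ goodW lev bad b0 l D q) : s0 + 2 * l ≤ q := by
  classical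
  unfold goodW at hs
  rw [Finset.mem_filter] at hs
  exact hs.2.1

theorem goodW_mod {s0 : ℕ} (hs : s0 ∈ goodW lev bad b0 l D q) : lev b0 s0 % l = 0 := by
  classical
  unfold goodW at hs
  rw [Finset.mem_filter] at hs
  exact hs.2.2.1

theorem good_tiling (hO : OrbitData w c e g u lev bad) (hb : 1 ≤ b0) (hl : 0 < l)
    (hlD : D * l = Mb b0) : Tiling q l (goodW lev bad b0 l D q) where
  le s hs := by have := goodW_le hs; omega
  sep s hs t ht hst := by
    by_contra hcon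
    obtain ⟨j, rfl⟩ : ∃ j, t = s + j := ⟨t - s, by omega⟩
    have h1 := (good_lev hO hb hl hlD hs (j := j) (by omega)).1
    have h2 := goodW_mod hs
    have h3 := goodW_mod ht
    push_cast at h3
    rw [h1, Nat.add_mod, h2, zero_add, Nat.mod_mod, Nat.mod_eq_of_lt (by omega)] at h3
    omega

theorem good_win (hO : OrbitData w c e g u lev bad) (hb : 1 ≤ b0) (hl : 0 < l)
    (hlD : D * l = Mb b0) {s0 : ℕ} (hs : s0 ∈ goodW lev bad b0 l D q) : s0 + 2 * l ≤ q ∧
      (∀ i : Fin q, win lev b0 l ((i : ℕ) : ℤ) = s0 ↔ s0 ≤ (i : ℕ) ∧ (i : ℕ) < s0 + l) ∧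
      (∀ i : Fin q, win lev b0 l ((i : ℕ) : ℤ) = (s0 + l : ℕ) ↔
        s0 + l ≤ (i : ℕ) ∧ (i : ℕ) < s0 + 2 * l) := by
  refine ⟨goodW_le hs, fun i => ?_, fun i => ?_⟩
  · constructor
    · intro h
      have := win_le (lev := lev) (b0 := b0) hl ((i : ℕ) : ℤ)
      rw [h] at this
      omega
    · rintro ⟨h1, h2⟩
      obtain ⟨j, hj⟩ : ∃ j, (i : ℕ) = s0 + j := ⟨(i : ℕ) - s0, by omega⟩
      have h3 := (good_lev hO hb hl hlD hs (j := j) (by omega)).1
      have h4 := goodW_mod hs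
      have h7 : lev b0 (((s0 + j : ℕ) : ℤ)) % l = j := by
        push_cast
        rw [h3, Nat.add_mod, h4, zero_add, Nat.mod_mod, Nat.mod_eq_of_lt (by omega)]
      unfold win
      rw [hj, h7]
      push_cast
      ring
  · constructor
    · intro h
      have := win_le (lev := lev) (b0 := b0) hl ((i : ℕ) : ℤ)
      rw [h] at this
      push_cast at this
      omega
    · rintro ⟨h1, h2⟩
      obtain ⟨j, hj⟩ : ∃ j, (i : ℕ) = s0 + (l + j) := ⟨(i : ℕ) - s0 - l, by omega⟩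
      have h3 := (good_lev hO hb hl hlD hs (j := l + j) (by omega)).1
      have h4 := goodW_mod hs
      have h7 : lev b0 (((s0 + (l + j) : ℕ) : ℤ)) % l = j := by
        push_cast at h3 ⊢
        rw [h3, Nat.add_mod, h4, zero_add, Nat.mod_mod, Nat.add_mod_left,
          Nat.mod_eq_of_lt (by omega)]
      unfold win
      rw [hj, h7]
      push_cast
      ring

/-- colouring of windows by the parity of `p` -/
theorem good_col (hO : OrbitData w c e g u lev bad) (hb : 1 ≤ b0) (hl : 0 < l)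
    (hlD : D * l = Mb b0) {s0 : ℕ} (hs : s0 ∈ goodW lev bad b0 l D q) :
    decide (pw lev b0 l ((s0 + l : ℕ) : ℤ) % 2 = 1) ≠ decide (pw lev b0 l (s0 : ℤ) % 2 = 1) := by
  have h1 := (good_lev hO hb hl hlD hs (j := l) (by omega)).2.2.1
  have h2 : pw lev b0 l ((s0 + l : ℕ) : ℤ) = pw lev b0 l (s0 : ℤ) + 1 := by
    unfold pw
    push_cast
    rw [h1, Nat.add_div_right _ hl]
  rw [h2]
  intro h
  rw [decide_eq_decide] at h
  omega

/-- costs inside a good window are at most `e` -/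
theorem good_cost (hO : OrbitData w c e g u lev bad) (hb : 1 ≤ b0) (hl : 0 < l)
    (hlD : D * l = Mb b0) (hg : g b0 ≤ l) {s0 : ℕ} (hs : s0 ∈ goodW lev bad b0 l D q)
    (i : ℕ) (hi : i < l) : u ((s0 : ℤ) + i) ≤ e b0 :=
  good_cost_ hO hb hl hlD hg hs i hi

/-- `g` does not decrease from a good window to the next one -/
theorem good_weight (hO : OrbitData w c e g u lev bad) (hb : 1 ≤ b0) (hl : 0 < l)
    (hlD : D * l = Mb b0) {n : ℕ} (hn : n < l) {s0 : ℕ} (hs : s0 ∈ goodW lev bad b0 l D q)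
    (i : ℕ) (hi : s0 ≤ i) (hi' : i < s0 + l) :
    gfun w lev b0 l K (i : ℤ) ≤ gfun w lev b0 l K ((i : ℤ) + n) :=
  good_weight_ hO hb hl hlD hn hs i hi hi'

end Crest.Agent.R113.Orb
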