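import Crest.Agent.R113.FD.AGoodDef
import Crest.Agent.R113.FD.OrbitB

/-!
Row 113, S0149, T12: costs and weights in good windows (helper205).
-/

set_option autoImplicit false

namespace Crest.Agent.R113.Orb

open Finset

variable {w : ℕ → ℕ → Bool} {c e : ℕ → ℝ} {g : ℕ → ℕ} {u : ℤ → ℝ} {lev : ℕ → ℤ → ℕ}
  {bad : ℕ → Set ℤ} {q N B J b0 l D K : ℕ}

/-- levels in `[s0, s0 + 2l)`, `s0` a good window -/
theorem good_lev (hO : OrbitData w c e g u lev bad) (hb : 1 ≤ b0) (hl : 0 < l)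
    (hlD : D * l = Mb b0) {s0 : ℕ} (hs : s0 ∈ goodW lev bad b0 l D q) {j : ℕ} (hj : j < 2 * l) :
    lev b0 ((s0 : ℤ) + j) = lev b0 s0 + j ∧
      lev b0 ((s0 : ℤ) + j) / Mb b0 = lev b0 s0 / Mb b0 ∧
      lev b0 ((s0 : ℤ) + j) % Mb b0 = lev b0 s0 % Mb b0 + j ∧
      l ≤ lev b0 s0 % Mb b0 ∧ lev b0 s0 % Mb b0 + 2 * l ≤ Mb b0 ∧
      ((s0 : ℤ) + j) ∉ bad b0 := by
  classical
  unfold goodW at hs
  rw [Finset.mem_filter] at hs
  obtain ⟨_, h1, h2, h3, h4, h5⟩ := hs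
  have hbad : ((s0 : ℕ) : ℤ) ∉ bad b0 := by
    have := h5 0 (by omega)
    simpa using this
  have hPM : l ≤ Pib b0 * Mb b0 := (l_le hlD).trans (Nat.le_mul_of_pos_left _ (Pib_pos b0))
  have hlev := lev_good hO hb hbad (m' := (s0 : ℤ) + j) (by
    have : (s0 : ℤ) + j - s0 = j := by ring
    rw [this, abs_of_nonneg (by positivity)]
    have : j ≤ 2 * (Pib b0 * Mb b0) := by omega
    exact_mod_cast this)
  have hlev' : lev b0 ((s0 : ℤ) + j) = lev b0 s0 + j := by omega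
  -- phase of s0
  set L := lev b0 (s0 : ℤ) with hL
  have hph : L % Mb b0 = l * pw lev b0 l (s0 : ℤ) := by
    have hd : l ∣ L % Mb b0 := by
      have hlM : l ∣ Mb b0 := ⟨D, by rw [← hlD]; ring⟩
      exact (Nat.dvd_mod_iff hlM).2 (Nat.dvd_of_mod_eq_zero h2)
    unfold pw
    exact (Nat.mul_div_cancel' hd).symm
  have h6 : l ≤ L % Mb b0 := by
    rw [hph]; exact Nat.le_mul_of_pos_right l (by omega)
  have h7 : L % Mb b0 + 2 * l ≤ Mb b0 := by
    rw [hph, ← hlD]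
    calc l * pw lev b0 l (s0 : ℤ) + 2 * l = (pw lev b0 l (s0 : ℤ) + 2) * l := by ring
      _ ≤ D * l := Nat.mul_le_mul_right _ h4
  have hM := Mb_pos b0
  have e0 := Nat.div_add_mod L (Mb b0)
  have h8 : L % Mb b0 + j < Mb b0 := by omega
  have h9 : L + j = (L % Mb b0 + j) + Mb b0 * (L / Mb b0) := by omega
  refine ⟨hlev', ?_, ?_, h6, h7, h5 j hj⟩
  · rw [hlev', h9, Nat.add_mul_div_left _ _ hM, Nat.div_eq_of_lt h8, zero_add]
  · rw [hlev', h9, Nat.add_mul_mod_self_left, Nat.mod_eq_of_lt h8]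

/-- costs inside a good window are at most `e` -/
theorem good_cost_ (hO : OrbitData w c e g u lev bad) (hb : 1 ≤ b0) (hl : 0 < l)
    (hlD : D * l = Mb b0) (hg : g b0 ≤ l) {s0 : ℕ} (hs : s0 ∈ goodW lev bad b0 l D q)
    (i : ℕ) (hi : i < l) : u ((s0 : ℤ) + i) ≤ e b0 := by
  obtain ⟨a1, a2, a3, a4, a5, a6⟩ := good_lev hO hb hl hlD hs (j := i) (by omega)
  have hM := Mb_pos b0
  set L := lev b0 ((s0 : ℤ) + i) with hL
  have e0 := Nat.div_add_mod L (Mb b0)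
  have h8 : L % Mb b0 + 1 < Mb b0 := by omega
  have h9 : L + 1 = (L % Mb b0 + 1) + Mb b0 * (L / Mb b0) := by omega
  have hdiv : (L + 1) / Mb b0 = L / Mb b0 := by
    rw [h9, Nat.add_mul_div_left _ _ hM, Nat.div_eq_of_lt h8, zero_add]
  have hmod : (L + 1) % Mb b0 = L % Mb b0 + 1 := by
    rw [h9, Nat.add_mul_mod_self_left, Nat.mod_eq_of_lt h8]
  have h1 := hO.cost_high b0 hb ((s0 : ℤ) + i) a6 1 (Nat.mul_pos (rb_pos b0) hM)
    (by rw [← hL]; omega) (by rw [← hL, hmod]; omega)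
  have h2 : wsum u ((s0 : ℤ) + i) 1 = u ((s0 : ℤ) + i) := by
    unfold wsum; simp
  have h3 : idealCost w c b0 L 1 = 0 := by
    unfold idealCost
    rw [hdiv]
    ring
  rw [h2, ← hL, h3, zero_add] at h1
  exact h1

/-- `g` does not decrease from a good window to the next one -/
theorem good_weight_ (hO : OrbitData w c e g u lev bad) (hb : 1 ≤ b0) (hl : 0 < l)
    (hlD : D * l = Mb b0) {n : ℕ} (hn : n < l) {s0 : ℕ} (hs : s0 ∈ goodW lev bad b0 l D q)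
    (i : ℕ) (hi : s0 ≤ i) (hi' : i < s0 + l) :
    gfun w lev b0 l K (i : ℤ) ≤ gfun w lev b0 l K ((i : ℤ) + n) := by
  obtain ⟨j, rfl⟩ := Nat.exists_eq_add_of_le hi
  obtain ⟨a1, a2, _⟩ := good_lev hO hb hl hlD hs (j := j) (by omega)
  obtain ⟨b1, b2, _⟩ := good_lev hO hb hl hlD hs (j := j + n) (by omega)
  have e1 : ((s0 + j : ℕ) : ℤ) = (s0 : ℤ) + j := by push_cast; ring
  have e2 : (s0 : ℤ) + j + n = (s0 : ℤ) + ((j + n : ℕ) : ℤ) := by push_cast; ring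
  rw [e1]
  apply gfun_mono
  · rw [e2, b1, a1]; ring
  · unfold cell
    rw [e2, b2, a2]

end Crest.Agent.R113.Orb
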