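import Crest.Agent.R113.FD.OrbitB

/-!
Row 113, S0149, T12: the good windows cover almost everything (helper205).
-/

set_option autoImplicit false

namespace Crest.Agent.R113.Orb

open Finset

variable {w : ℕ → ℕ → Bool} {c e : ℕ → ℝ} {g : ℕ → ℕ} {u : ℤ → ℝ} {lev : ℕ → ℤ → ℕ}
  {bad : ℕ → Set ℤ} {q N B J b0 l D K : ℕ}

/-- level at the start of the window -/
theorem lev_win (hS : Steps lev b0) (m : ℤ) :
    lev b0 (win lev b0 l m) = l * (lev b0 m / l) := by
  unfold win
  rw [lev_sub hS m _ (Nat.mod_le _ _)]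
  have := Nat.div_add_mod (lev b0 m) l
  omega

theorem pw_win (hS : Steps lev b0) (hl : 0 < l) (hlD : D * l = Mb b0) (m : ℤ) :
    pw lev b0 l (win lev b0 l m) = pw lev b0 l m := by
  unfold pw
  rw [lev_win hS m, ← hlD, mul_comm D l, Nat.mod_mul_right_div_self, Nat.mod_mul_right_div_self,
    Nat.mul_div_cancel_left _ hl]

open Classical in
theorem good_count_raw (hO : OrbitData w c e g u lev bad) (hC : OrbitCounts q N B J lev bad)
    (hb : 1 ≤ b0) (hB : B ≤ b0) (hJ : b0 ≤ J) (hN : 2 * (Pib b0 * Mb b0) ≤ N)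
    (hq : 4 ^ b0 * (Pib b0 * Mb b0) ≤ q) (hl : 0 < l) (hlD : D * l = Mb b0) :
    (1 - (2 / D + 50 * zb b0)) * q ≤ l *
      (((range q).filter (fun s0 : ℕ => s0 + 2 * l ≤ q ∧ lev b0 s0 % l = 0 ∧
        1 ≤ pw lev b0 l s0 ∧ pw lev b0 l s0 + 2 ≤ D ∧
        ∀ i : ℕ, i < 2 * l → ((s0 : ℤ) + i) ∉ bad b0)).card : ℝ) := by
  set G : Finset ℕ := (range q).filter (fun s0 : ℕ => s0 + 2 * l ≤ q ∧ lev b0 s0 % l = 0 ∧
        1 ≤ pw lev b0 l s0 ∧ pw lev b0 l s0 + 2 ≤ D ∧
        ∀ i : ℕ, i < 2 * l → ((s0 : ℤ) + i) ∉ bad b0) with hG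
  have hS := steps hO hb
  have hD1 : 1 ≤ D := by
    rcases Nat.eq_zero_or_pos D with h | h
    · subst h
      have := Mb_pos b0
      omega
    · exact h
  have hlM : l ≤ Mb b0 := by
    rw [← hlD]
    exact Nat.le_mul_of_pos_left l hD1
  set A1 := (univ : Finset (Fin q)).filter (fun m : Fin q => pw lev b0 l ((m : ℕ) : ℤ) = 0)
  set A2 := (univ : Finset (Fin q)).filter (fun m : Fin q => pw lev b0 l ((m : ℕ) : ℤ) = D - 1)
  set A3 := (univ : Finset (Fin q)).filter (fun m : Fin q => ∃ i : ℤ, |i| ≤ 2 * (Mb b0 : ℤ) ∧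
      (((m : ℕ) : ℤ) + i ∈ bad b0))
  set A4 := (univ : Finset (Fin q)).filter (fun m : Fin q => (m : ℕ) < l ∨ q < (m : ℕ) + 2 * l)
  set A0 := G.biUnion (fun s0 => (univ : Finset (Fin q)).filter
    (fun m : Fin q => s0 ≤ (m : ℕ) ∧ (m : ℕ) < s0 + l))
  have hsub : (univ : Finset (Fin q)) ⊆ A0 ∪ (A1 ∪ (A2 ∪ (A3 ∪ A4))) := by
    intro m _
    by_contra hcon
    simp only [Finset.mem_union, not_or] at hcon
    obtain ⟨h0, h1, h2, h3, h4⟩ := hcon
    simp only [A1, Finset.mem_filter, Finset.mem_univ, true_and] at h1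
    simp only [A2, Finset.mem_filter, Finset.mem_univ, true_and] at h2
    simp only [A3, Finset.mem_filter, Finset.mem_univ, true_and, not_exists, not_and] at h3
    simp only [A4, Finset.mem_filter, Finset.mem_univ, true_and, not_or, not_lt] at h4
    apply h0
    have hw := win_le (lev := lev) (b0 := b0) hl ((m : ℕ) : ℤ)
    obtain ⟨s0, hs0⟩ := Int.eq_ofNat_of_zero_le (show 0 ≤ win lev b0 l ((m : ℕ) : ℤ) by omega)
    rw [hs0] at hw
    have hpw : pw lev b0 l (s0 : ℤ) = pw lev b0 l ((m : ℕ) : ℤ) := by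
      rw [← hs0]; exact pw_win hS hl hlD _
    have hlt : pw lev b0 l ((m : ℕ) : ℤ) < D := by
      unfold pw
      rw [Nat.div_lt_iff_lt_mul hl, hlD]
      exact Nat.mod_lt _ (Mb_pos b0)
    simp only [A0, Finset.mem_biUnion, Finset.mem_filter, Finset.mem_univ, true_and]
    refine ⟨s0, ?_, by omega, by omega⟩
    rw [hG, Finset.mem_filter, Finset.mem_range]
    refine ⟨by omega, by omega, ?_, ?_, ?_, ?_⟩
    · rw [← hs0, lev_win hS]
      exact Nat.mul_mod_right _ _
    · rw [hpw]; omega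
    · rw [hpw]; omega
    · intro i hi hbad
      apply h3 ((s0 : ℤ) + i - ((m : ℕ) : ℤ))
      · rw [abs_le]
        constructor <;> omega
      · have : ((m : ℕ) : ℤ) + ((s0 : ℤ) + i - ((m : ℕ) : ℤ)) = (s0 : ℤ) + i := by ring
        rw [this]; exact hbad
  have hcard : q ≤ A0.card + (A1.card + (A2.card + (A3.card + A4.card))) := by
    have h1 := Finset.card_le_card hsub
    rw [Finset.card_univ, Fintype.card_fin] at h1
    refine h1.trans ((Finset.card_union_le _ _).trans (Nat.add_le_add_left ?_ _))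
    refine (Finset.card_union_le _ _).trans (Nat.add_le_add_left ?_ _)
    refine (Finset.card_union_le _ _).trans (Nat.add_le_add_left ?_ _)
    exact Finset.card_union_le _ _
  have c0 : A0.card ≤ l * G.card := by
    refine Finset.card_biUnion_le.trans ?_
    rw [mul_comm, ← smul_eq_mul, ← Finset.sum_const]
    refine Finset.sum_le_sum fun s0 _ => ?_
    calc ((univ : Finset (Fin q)).filter
          (fun m : Fin q => s0 ≤ (m : ℕ) ∧ (m : ℕ) < s0 + l)).card
        ≤ (Finset.Ico s0 (s0 + l)).card := by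
          apply Finset.card_le_card_of_injOn (fun m : Fin q => (m : ℕ))
          · intro m hm
            simpa using hm
          · intro a _ b _ h
            exact Fin.ext h
      _ = l := by rw [Nat.card_Ico]; omega
  have c4 : A4.card ≤ 3 * l := by
    calc A4.card ≤ (Finset.range l ∪ Finset.Ico (q - 2 * l) q).card := by
          apply Finset.card_le_card_of_injOn (fun m : Fin q => (m : ℕ))
          · intro m hm
            have hm2 := m.2
            simp only [A4, Finset.coe_filter, Finset.mem_univ, true_and, Set.mem_ofPred_eq,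
              Finset.coe_union, Set.mem_union, Finset.mem_coe, Finset.mem_range,
              Finset.mem_Ico] at hm ⊢
            omega
          · intro a _ b _ h
            exact Fin.ext h
      _ ≤ l + (q - (q - 2 * l)) := by
          refine (Finset.card_union_le _ _).trans ?_
          rw [Finset.card_range, Nat.card_Ico]
      _ ≤ 3 * l := by omega
  have c1 : (A1.card : ℝ) ≤ (1 / (D : ℝ) + 16 * zb b0) * q :=
    count_pw hO hC hb hB hJ hN hq hl hlD 0
  have c2 : (A2.card : ℝ) ≤ (1 / (D : ℝ) + 16 * zb b0) * q :=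
    count_pw hO hC hb hB hJ hN hq hl hlD (D - 1)
  have c3 : (A3.card : ℝ) ≤ zb b0 * q := count_bad hC hB hJ
  have hq' : (q : ℝ) ≤ l * G.card + (A1.card + (A2.card + (A3.card + 3 * l))) := by
    have : q ≤ l * G.card + (A1.card + (A2.card + (A3.card + 3 * l))) := by omega
    exact_mod_cast this
  have hq0 : (0 : ℝ) ≤ q := by positivity
  have h5 : (1024 : ℝ) * Mb b0 ≤ zb b0 * q := by
    have h3 := (q_facts hq).1
    have h8 : (0 : ℝ) < 4 ^ b0 := by positivity
    have h9 := four_zb b0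
    have h10 : (1 : ℝ) ≤ 2 ^ b0 := one_le_pow₀ (by norm_num)
    have : (4 : ℝ) ^ b0 * (1024 * Mb b0) ≤ 4 ^ b0 * (zb b0 * q) := by
      calc (4 : ℝ) ^ b0 * (1024 * Mb b0) = 1024 * 4 ^ b0 * Mb b0 := by ring
        _ ≤ q := h3
        _ ≤ 2 ^ b0 * q := by nlinarith
        _ = 4 ^ b0 * (zb b0 * q) := by rw [← h9]; ring
    exact le_of_mul_le_mul_left this h8
  have hlM' : (l : ℝ) ≤ Mb b0 := by exact_mod_cast hlM
  have e1 : (1 - (2 / (D : ℝ) + 50 * zb b0)) * q =
      q - 2 * ((1 / (D : ℝ) + 16 * zb b0) * q) - 18 * (zb b0 * q) := by ring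
  have hz := mul_nonneg (zb_pos b0).le hq0
  rw [e1]
  linarith

end Crest.Agent.R113.Orb
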