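import Mathlib

/-!
Row 113, S0149, task T12 (helper244): elementary pieces of the finite-dimensional assembly.
* `tile_sum`: equidistribution on windows of one short length `l2` implies equidistribution on
  every family of disjoint longer intervals;
* `flux_at_E`: the trace over a union of intervals;
* `half_windows`: the final contradiction.
-/

set_option autoImplicit false

namespace Crest.Agent.R113.FD

open Finset

/-- moving window on one interval -/
theorem tile_one (l2 l : ℕ) (hl : l2 ≤ l) (x : ℕ → ℝ) (hx : ∀ m, |x m| ≤ 1) (s : ℕ) :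
    (l2 : ℝ) * |∑ i ∈ range l, x (s + i)| ≤
      ∑ j ∈ range (l - l2), |∑ i ∈ range l2, x (s + j + i)| + (l2 : ℝ) * l2 := by
  have key : ∀ i ∈ range l2, |∑ j ∈ range l, x (s + j) - ∑ j ∈ range (l - l2), x (s + j + i)|
      ≤ (l2 : ℝ) := by
    intro i hi
    have hi' : i < l2 := mem_range.mp hi
    obtain ⟨r, hr⟩ : ∃ r, l = i + ((l - l2) + r) ∧ i + r = l2 := ⟨l2 - i, by omega, by omega⟩
    have h1 : ∑ j ∈ range l, x (s + j) = ∑ j ∈ range i, x (s + j) +
        (∑ j ∈ range (l - l2), x (s + j + i) + ∑ j ∈ range r, x (s + (i + ((l - l2) + j)))) := by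
      conv_lhs => rw [hr.1]
      rw [Finset.sum_range_add, Finset.sum_range_add]
      congr 2
      apply Finset.sum_congr rfl
      intro j _
      congr 1
      omega
    have h2 : |∑ j ∈ range i, x (s + j)| ≤ (i : ℝ) := by
      refine (Finset.abs_sum_le_sum_abs _ _).trans ?_
      refine (Finset.sum_le_sum (fun j _ => hx (s + j))).trans ?_
      simp
    have h3 : |∑ j ∈ range r, x (s + (i + ((l - l2) + j)))| ≤ (r : ℝ) := by
      refine (Finset.abs_sum_le_sum_abs _ _).trans ?_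
      refine (Finset.sum_le_sum (fun j _ => hx _)).trans ?_
      simp
    have h4 : (l2 : ℝ) = i + r := by rw [← hr.2]; push_cast; ring
    rw [h1, h4]
    have : ∑ j ∈ range i, x (s + j) +
        (∑ j ∈ range (l - l2), x (s + j + i) + ∑ j ∈ range r, x (s + (i + ((l - l2) + j))))
        - ∑ j ∈ range (l - l2), x (s + j + i) =
        ∑ j ∈ range i, x (s + j) + ∑ j ∈ range r, x (s + (i + ((l - l2) + j))) := by ring
    rw [this]
    exact (abs_add_le _ _).trans (add_le_add h2 h3)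
  have h5 : (l2 : ℝ) * |∑ i ∈ range l, x (s + i)| = |∑ i ∈ range l2, ∑ j ∈ range l, x (s + j)| := by
    rw [Finset.sum_const, card_range, nsmul_eq_mul, abs_mul, Nat.abs_cast]
  rw [h5]
  have h6 : ∑ i ∈ range l2, ∑ j ∈ range l, x (s + j) =
      ∑ j ∈ range (l - l2), ∑ i ∈ range l2, x (s + j + i) +
      ∑ i ∈ range l2, (∑ j ∈ range l, x (s + j) - ∑ j ∈ range (l - l2), x (s + j + i)) := by
    rw [Finset.sum_sub_distrib, Finset.sum_comm (s := range (l - l2))]
    ring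
  rw [h6]
  refine (abs_add_le _ _).trans (add_le_add (Finset.abs_sum_le_sum_abs _ _) ?_)
  refine (Finset.abs_sum_le_sum_abs _ _).trans ?_
  refine (Finset.sum_le_sum key).trans ?_
  simp

/-- `W` is a set of starts of pairwise disjoint intervals of length `l` inside `[0,q)` -/
structure Tiling (q l : ℕ) (W : Finset ℕ) : Prop where
  le : ∀ s ∈ W, s + l ≤ q
  sep : ∀ s ∈ W, ∀ t ∈ W, s < t → s + l ≤ t

theorem Tiling.sum_le {q l : ℕ} {W : Finset ℕ} (hW : Tiling q l W) (Y : ℕ → ℝ)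
    (hY : ∀ m, 0 ≤ Y m) (l2 : ℕ) (hl : l2 ≤ l) :
    ∑ s ∈ W, ∑ j ∈ range (l - l2), Y (s + j) ≤ ∑ m ∈ range (q - l2), Y m := by
  have h1 : ∀ s : ℕ, ∑ j ∈ range (l - l2), Y (s + j) = ∑ m ∈ Ico s (s + (l - l2)), Y m := by
    intro s
    rw [Finset.sum_Ico_eq_sum_range]
    simp
  simp_rw [h1]
  rw [← Finset.sum_biUnion]
  · apply Finset.sum_le_sum_of_subset_of_nonneg
    · intro m hm
      rw [mem_biUnion] at hm
      obtain ⟨s, hs, hm⟩ := hm
      have := hW.le s hs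
      rw [mem_Ico] at hm
      rw [mem_range]
      omega
    · intro m _ _
      exact hY m
  · intro s hs t ht hst
    have h2 := hW.sep s (by simpa using hs) t (by simpa using ht)
    have h3 := hW.sep t (by simpa using ht) s (by simpa using hs)
    change Disjoint (Ico s (s + (l - l2))) (Ico t (t + (l - l2)))
    rw [Finset.disjoint_left]
    intro m hm hm'
    rw [mem_Ico] at hm hm'
    rcases lt_or_gt_of_ne hst with h | h
    · have := h2 h; omega
    · have := h3 h; omega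

theorem Tiling.card_mul_le {q l : ℕ} {W : Finset ℕ} (hW : Tiling q l W) : W.card * l ≤ q := by
  have := hW.sum_le (fun _ => 1) (fun _ => zero_le_one) 0 (Nat.zero_le _)
  simp only [tsub_zero, sum_const, card_range, nsmul_eq_mul, mul_one] at this
  exact_mod_cast this

/-- equidistribution on windows of length `l2` gives equidistribution on disjoint long intervals -/
theorem tile_sum {q l l2 : ℕ} {W : Finset ℕ} (hW : Tiling q l W) (hl2 : 0 < l2) (hl : l2 ≤ l)
    (x : ℕ → ℝ) (hx : ∀ m, |x m| ≤ 1) (η₁ : ℝ)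
    (hE5 : ∑ m ∈ range (q - l2), |∑ i ∈ range l2, x (m + i)| ≤ η₁ * l2 * q) :
    ∑ s ∈ W, |∑ i ∈ range l, x (s + i)| ≤ η₁ * q + l2 * W.card := by
  have h1 : (l2 : ℝ) * ∑ s ∈ W, |∑ i ∈ range l, x (s + i)| ≤
      ∑ s ∈ W, (∑ j ∈ range (l - l2), |∑ i ∈ range l2, x (s + j + i)| + (l2 : ℝ) * l2) := by
    rw [Finset.mul_sum]
    exact Finset.sum_le_sum (fun s _ => tile_one l2 l hl x hx s)
  have h2 := hW.sum_le (fun m => |∑ i ∈ range l2, x (m + i)|) (fun m => abs_nonneg _) l2 hl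
  rw [Finset.sum_add_distrib, Finset.sum_const, nsmul_eq_mul] at h1
  have h3 : (0 : ℝ) < l2 := by exact_mod_cast hl2
  have h4 : (l2 : ℝ) * ∑ s ∈ W, |∑ i ∈ range l, x (s + i)| ≤ l2 * (η₁ * q + l2 * W.card) := by
    nlinarith [h1, h2, hE5]
  exact le_of_mul_le_mul_left h4 h3

/-- number of points of the tail of length `k` of `[0,l)` which lie in `[0,l')` -/
theorem tail_count (l l' k : ℕ) (hl : l = 2 * l') (hk : k ≤ l) :
    ∑ i ∈ range l', (if l ≤ i + k then (1 : ℝ) else 0) = max 0 ((k : ℝ) - l') := by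
  rw [← Finset.sum_filter, Finset.sum_const, nsmul_eq_mul, mul_one]
  have h1 : (range l').filter (fun i => l ≤ i + k) = Ico (l - k) l' := by
    ext i
    simp only [mem_filter, mem_range, mem_Ico]
    omega
  rw [h1, Nat.card_Ico]
  rcases le_total k l' with h | h
  · have h2 : l' - (l - k) = 0 := by omega
    rw [h2, max_eq_left]
    · simp
    · have : (k : ℝ) ≤ l' := by exact_mod_cast h
      linarith
  · have h2 : l' - (l - k) = k - l' := by omega
    rw [h2, max_eq_right]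
    · rw [Nat.cast_sub h]
    · have : (l' : ℝ) ≤ k := by exact_mod_cast h
      linarith

theorem tail_count' (l k : ℕ) (hk : k ≤ l) :
    ∑ i ∈ range l, (if l ≤ i + k then (1 : ℝ) else 0) = k := by
  rw [← Finset.sum_filter, Finset.sum_const, nsmul_eq_mul, mul_one]
  have h1 : (range l).filter (fun i => l ≤ i + k) = Ico (l - k) l := by
    ext i
    simp only [mem_filter, mem_range, mem_Ico]
    omega
  rw [h1, Nat.card_Ico]
  congr 1
  omega

/-- one window: a function close to the indicator of a tail cannot be equidistributed on the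
window and on its first half -/
theorem half_one (l l' k : ℕ) (hl : l = 2 * l') (hk : k ≤ l) (h : ℕ → ℝ) (ρ μ : ℝ)
    (hμ1 : μ ≤ ρ) (hμ2 : μ ≤ 1 - ρ) (s : ℕ) :
    μ * l' ≤ |∑ i ∈ range l, (h (s + i) - ρ)| + |∑ i ∈ range l', (h (s + i) - ρ)| +
      2 * ∑ i ∈ range l, |h (s + i) - (if l ≤ i + k then (1 : ℝ) else 0)| := by
  have hc1 : |∑ i ∈ range l, (h (s + i) - (if l ≤ i + k then (1 : ℝ) else 0))| ≤
      ∑ i ∈ range l, |h (s + i) - (if l ≤ i + k then (1 : ℝ) else 0)| :=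
    Finset.abs_sum_le_sum_abs _ _
  have hc2 : |∑ i ∈ range l', (h (s + i) - (if l ≤ i + k then (1 : ℝ) else 0))| ≤
      ∑ i ∈ range l, |h (s + i) - (if l ≤ i + k then (1 : ℝ) else 0)| := by
    refine (Finset.abs_sum_le_sum_abs _ _).trans ?_
    apply Finset.sum_le_sum_of_subset_of_nonneg
    · apply Finset.range_subset_range.mpr; omega
    · intro i _ _; exact abs_nonneg _
  rw [Finset.sum_sub_distrib, tail_count' l k hk] at hc1
  rw [Finset.sum_sub_distrib, tail_count l l' k hl hk] at hc2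
  rw [Finset.sum_sub_distrib, Finset.sum_sub_distrib]
  simp only [sum_const, card_range, nsmul_eq_mul]
  have hl2 : (l : ℝ) = 2 * l' := by exact_mod_cast hl
  rw [hl2]
  have hl0 : (0 : ℝ) ≤ l' := Nat.cast_nonneg _
  generalize ∑ i ∈ range l, |h (s + i) - (if l ≤ i + k then (1 : ℝ) else 0)| = c at *
  generalize ∑ i ∈ range l, h (s + i) = A at *
  generalize ∑ i ∈ range l', h (s + i) = B at *
  have hm1 : μ * l' ≤ ρ * l' := mul_le_mul_of_nonneg_right hμ1 hl0
  have hm2 : μ * l' ≤ (1 - ρ) * l' := mul_le_mul_of_nonneg_right hμ2 hl0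
  rw [abs_le] at hc1 hc2
  rcases le_total (k : ℝ) l' with hkl | hkl
  · rw [max_eq_left (by linarith)] at hc2
    have h1 : -(B - l' * ρ) ≤ |B - l' * ρ| := neg_le_abs _
    have h2 : 0 ≤ |A - 2 * l' * ρ| := abs_nonneg _
    linarith
  · rw [max_eq_right (by linarith)] at hc2
    have h1 : -(B - l' * ρ) ≤ |B - l' * ρ| := neg_le_abs _
    have h2 : (A - 2 * l' * ρ) ≤ |A - 2 * l' * ρ| := le_abs_self _
    linarith

theorem Tiling.half {q l l' : ℕ} {W : Finset ℕ} (hW : Tiling q l W) (h : l' ≤ l) :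
    Tiling q l' W where
  le s hs := by have := hW.le s hs; omega
  sep s hs t ht hst := by have := hW.sep s hs t ht hst; omega

/-- **The final contradiction** in quantitative form. -/
theorem half_windows {q l l' l2 : ℕ} {W : Finset ℕ} (hW : Tiling q l W) (hl : l = 2 * l')
    (hl2 : 0 < l2) (hl2' : l2 ≤ l') (h : ℕ → ℝ) (h0 : ∀ m, 0 ≤ h m) (h1 : ∀ m, h m ≤ 1)
    (ρ μ : ℝ) (hμ0 : 0 ≤ μ) (hμ1 : μ ≤ ρ) (hμ2 : μ ≤ 1 - ρ) (kk : ℕ → ℕ)
    (hkk : ∀ s ∈ W, kk s ≤ l) (η₁ ε₂ ε₃ : ℝ)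
    (hΩ : ∑ s ∈ W, ∑ i ∈ range l, |h (s + i) - (if l ≤ i + kk s then (1 : ℝ) else 0)| ≤ ε₂ * q)
    (hE5 : ∑ m ∈ range (q - l2), |∑ i ∈ range l2, (h (m + i) - ρ)| ≤ η₁ * l2 * q)
    (hcount : (1 - ε₃) * q ≤ l * W.card) :
    μ * (1 - ε₃) / 2 * q ≤ 2 * (η₁ + l2 / l + ε₂) * q := by
  have hx : ∀ m, |h m - ρ| ≤ 1 := by
    intro m
    rw [abs_le]
    constructor <;> linarith [h0 m, h1 m]
  have hA := tile_sum hW hl2 (by omega) (fun m => h m - ρ) hx η₁ hE5
  have hB := tile_sum (hW.half (l' := l') (by omega)) hl2 hl2' (fun m => h m - ρ) hx η₁ hE5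
  have hC := Finset.sum_le_sum (fun s hs =>
    half_one l l' (kk s) hl (hkk s hs) h ρ μ hμ1 hμ2 s)
  rw [Finset.sum_add_distrib, Finset.sum_add_distrib, Finset.sum_const,
    nsmul_eq_mul] at hC
  have hC' : ∑ x ∈ W, 2 * ∑ i ∈ range l, |h (x + i) - (if l ≤ i + kk x then (1 : ℝ) else 0)| =
      2 * ∑ x ∈ W, ∑ i ∈ range l, |h (x + i) - (if l ≤ i + kk x then (1 : ℝ) else 0)| := by
    rw [Finset.mul_sum]
  have hcard : (W.card : ℝ) * l ≤ q := by exact_mod_cast hW.card_mul_le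
  have hlpos : (0 : ℝ) < l := by
    have : 0 < l := by omega
    exact_mod_cast this
  have hcard' : (l2 : ℝ) * W.card ≤ l2 / l * q := by
    rw [div_mul_eq_mul_div, le_div_iff₀ hlpos]
    have : (0 : ℝ) ≤ l2 := Nat.cast_nonneg _
    nlinarith
  have hll : (l : ℝ) = 2 * l' := by exact_mod_cast hl
  have h5 : μ * (1 - ε₃) / 2 * q ≤ W.card * (μ * l') := by
    rw [hll] at hcount
    nlinarith
  rw [hC'] at hC
  nlinarith [hA, hB, hC, hΩ, hcard', h5]

/-- `ℓ¹` distance of a density to the indicator of the tail of the same mass -/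
theorem tail_l1 (l k : ℕ) (hk : k ≤ l) (h : ℕ → ℝ) (h0 : ∀ m, 0 ≤ h m) (h1 : ∀ m, h m ≤ 1)
    (s : ℕ) (hs : ∑ i ∈ range l, h (s + i) = k) :
    ∑ i ∈ range l, |h (s + i) - (if l ≤ i + k then (1 : ℝ) else 0)| =
      2 * (k - ∑ i ∈ range l, (if l ≤ i + k then h (s + i) else 0)) := by
  have e1 : ∀ i ∈ range l, |h (s + i) - (if l ≤ i + k then (1 : ℝ) else 0)| =
      h (s + i) + (if l ≤ i + k then (1 : ℝ) else 0) -
        2 * (if l ≤ i + k then h (s + i) else 0) := by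
    intro i _
    split_ifs with hi
    · rw [abs_of_nonpos (by linarith [h1 (s + i)])]
      ring
    · rw [abs_of_nonneg (by linarith [h0 (s + i)])]
      ring
  rw [Finset.sum_congr rfl e1, Finset.sum_sub_distrib, Finset.sum_add_distrib, hs,
    tail_count' l k hk, ← Finset.mul_sum]
  ring

theorem sum_sqrt_le {ι : Type*} (W : Finset ι) (I : ι → ℝ) (hI : ∀ s ∈ W, 0 ≤ I s) :
    ∑ s ∈ W, Real.sqrt (I s) ≤ Real.sqrt (W.card * ∑ s ∈ W, I s) := by
  apply Real.le_sqrt_of_sq_le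
  refine (sq_sum_le_card_mul_sum_sq (s := W) (f := fun s => Real.sqrt (I s))).trans ?_
  apply mul_le_mul_of_nonneg_left _ (Nat.cast_nonneg _)
  apply Finset.sum_le_sum
  intro s hs
  rw [Real.sq_sqrt (hI s hs)]

/-- aggregation of the window lemma over all good windows -/
theorem agg_windows {q l : ℕ} {W : Finset ℕ} (hW : Tiling q l W) (hl : 0 < l)
    (h : ℕ → ℝ) (h0 : ∀ m, 0 ≤ h m) (h1 : ∀ m, h m ≤ 1) (kk : ℕ → ℕ) (I : ℕ → ℝ) (ω₃ : ℝ)
    (hkk : ∀ s ∈ W, kk s ≤ l) (hI : ∀ s ∈ W, 0 ≤ I s)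
    (hs : ∀ s ∈ W, ∑ i ∈ range l, h (s + i) = kk s)
    (hWL : ∀ s ∈ W, (kk s : ℝ) - ∑ i ∈ range l, (if l ≤ i + kk s then h (s + i) else 0) ≤
      Real.sqrt (I s) + 1 / 8)
    (hsum : ∑ s ∈ W, I s ≤ 2 * ω₃ * q * l) :
    ∑ s ∈ W, ∑ i ∈ range l, |h (s + i) - (if l ≤ i + kk s then (1 : ℝ) else 0)| ≤
      (2 * Real.sqrt (2 * ω₃) + 1 / (4 * l)) * q := by
  have e1 : ∀ s ∈ W, ∑ i ∈ range l, |h (s + i) - (if l ≤ i + kk s then (1 : ℝ) else 0)| ≤
      2 * Real.sqrt (I s) + 1 / 4 := by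
    intro s hs'
    rw [tail_l1 l (kk s) (hkk s hs') h h0 h1 s (hs s hs')]
    linarith [hWL s hs']
  refine (Finset.sum_le_sum e1).trans ?_
  rw [Finset.sum_add_distrib, ← Finset.mul_sum, Finset.sum_const, nsmul_eq_mul]
  have hlpos : (0 : ℝ) < l := by exact_mod_cast hl
  have hcard : (W.card : ℝ) * l ≤ q := by exact_mod_cast hW.card_mul_le
  have hcard' : (W.card : ℝ) ≤ q / l := by
    rw [le_div_iff₀ hlpos]; exact hcard
  have hq0 : (0 : ℝ) ≤ q := Nat.cast_nonneg _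
  have hsI : 0 ≤ ∑ s ∈ W, I s := Finset.sum_nonneg hI
  have hw3 : 0 ≤ 2 * ω₃ * q * l := hsI.trans hsum
  have e2 : ∑ s ∈ W, Real.sqrt (I s) ≤ Real.sqrt (2 * ω₃) * q := by
    refine (sum_sqrt_le W I hI).trans ?_
    have : (W.card : ℝ) * ∑ s ∈ W, I s ≤ 2 * ω₃ * (q * q) := by
      calc (W.card : ℝ) * ∑ s ∈ W, I s ≤ q / l * (2 * ω₃ * q * l) :=
            mul_le_mul hcard' hsum hsI (by positivity)
        _ = 2 * ω₃ * (q * q) := by field_simp
    refine (Real.sqrt_le_sqrt this).trans ?_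
    rw [Real.sqrt_mul' _ (by positivity), Real.sqrt_mul_self hq0]
  have e3 : (W.card : ℝ) * (1 / 4) ≤ 1 / (4 * l) * q := by
    calc (W.card : ℝ) * (1 / 4) ≤ q / l * (1 / 4) := by gcongr
      _ = 1 / (4 * l) * q := by field_simp
  linarith

/-- the same, for a second density `h'` close to `h` -/
theorem agg_windows' {q l : ℕ} {W : Finset ℕ} (hW : Tiling q l W)
    (h h' : ℕ → ℝ) (kk : ℕ → ℕ) (ε ε' : ℝ)
    (hh : ∑ m ∈ range q, |h' m - h m| ≤ ε * q)
    (hΩ : ∑ s ∈ W, ∑ i ∈ range l, |h (s + i) - (if l ≤ i + kk s then (1 : ℝ) else 0)| ≤ ε' * q) :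
    ∑ s ∈ W, ∑ i ∈ range l, |h' (s + i) - (if l ≤ i + kk s then (1 : ℝ) else 0)| ≤
      (ε + ε') * q := by
  have e1 := hW.sum_le (fun m => |h' m - h m|) (fun m => abs_nonneg _) 0 (Nat.zero_le _)
  simp only [tsub_zero] at e1
  have e2 : ∑ s ∈ W, ∑ i ∈ range l, |h' (s + i) - (if l ≤ i + kk s then (1 : ℝ) else 0)| ≤
      ∑ s ∈ W, ∑ i ∈ range l, |h' (s + i) - h (s + i)| +
      ∑ s ∈ W, ∑ i ∈ range l, |h (s + i) - (if l ≤ i + kk s then (1 : ℝ) else 0)| := by
    rw [← Finset.sum_add_distrib]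
    refine Finset.sum_le_sum (fun s _ => ?_)
    rw [← Finset.sum_add_distrib]
    refine Finset.sum_le_sum (fun i _ => ?_)
    have := abs_add_le (h' (s + i) - h (s + i)) (h (s + i) - (if l ≤ i + kk s then (1 : ℝ) else 0))
    simpa using this
  nlinarith

/-- trace over a union of intervals -/
theorem trace_union {q l l2 : ℕ} {W : Finset ℕ} (hW : Tiling q l W) (hl2 : 0 < l2)
    (hl : l2 ≤ l) (h : ℕ → ℝ) (h0 : ∀ m, 0 ≤ h m) (h1 : ∀ m, h m ≤ 1) (ρ : ℝ)
    (hρ0 : 0 ≤ ρ) (hρ1 : ρ ≤ 1) (η₁ : ℝ)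
    (hE5 : ∑ m ∈ range (q - l2), |∑ i ∈ range l2, (h (m + i) - ρ)| ≤ η₁ * l2 * q)
    (A : Finset ℕ) (hA : ∀ s ∈ W, ∀ i < l, s + i ∈ A) :
    |∑ m ∈ A, h m - ρ * A.card| ≤ η₁ * q + l2 * W.card + (A.card - l * W.card) := by
  have hx : ∀ m, |h m - ρ| ≤ 1 := by
    intro m
    rw [abs_le]
    constructor <;> linarith [h0 m, h1 m]
  have hT := tile_sum hW hl2 hl (fun m => h m - ρ) hx η₁ hE5
  set B : Finset ℕ := W.biUnion (fun s => Ico s (s + l)) with hB
  have hdis : (W : Set ℕ).PairwiseDisjoint (fun s => Ico s (s + l)) := by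
    intro s hs t ht hst
    have h2 := hW.sep s (by simpa using hs) t (by simpa using ht)
    have h3 := hW.sep t (by simpa using ht) s (by simpa using hs)
    change Disjoint (Ico s (s + l)) (Ico t (t + l))
    rw [Finset.disjoint_left]
    intro m hm hm'
    rw [mem_Ico] at hm hm'
    rcases lt_or_gt_of_ne hst with h | h
    · have := h2 h; omega
    · have := h3 h; omega
  have hBA : B ⊆ A := by
    intro m hm
    rw [hB, mem_biUnion] at hm
    obtain ⟨s, hs, hm⟩ := hm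
    rw [mem_Ico] at hm
    have := hA s hs (m - s) (by omega)
    rwa [show s + (m - s) = m by omega] at this
  have hBc : B.card = W.card * l := by
    rw [hB, Finset.card_biUnion]
    · simp
    · exact hdis
  have hBs : ∑ m ∈ B, (h m - ρ) = ∑ s ∈ W, ∑ i ∈ range l, (h (s + i) - ρ) := by
    rw [hB, Finset.sum_biUnion hdis]
    refine Finset.sum_congr rfl (fun s _ => ?_)
    rw [Finset.sum_Ico_eq_sum_range]
    simp
  have e1 : ∑ m ∈ A, h m - ρ * A.card = ∑ m ∈ B, (h m - ρ) + ∑ m ∈ A \ B, (h m - ρ) := by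
    rw [add_comm, Finset.sum_sdiff hBA, Finset.sum_sub_distrib, Finset.sum_const, nsmul_eq_mul]
    ring
  have e2 : |∑ m ∈ B, (h m - ρ)| ≤ η₁ * q + l2 * W.card := by
    rw [hBs]
    exact (Finset.abs_sum_le_sum_abs _ _).trans hT
  have e3 : |∑ m ∈ A \ B, (h m - ρ)| ≤ A.card - l * W.card := by
    refine (Finset.abs_sum_le_sum_abs _ _).trans ?_
    refine (Finset.sum_le_sum (fun m _ => hx m)).trans ?_
    rw [Finset.sum_const, nsmul_eq_mul, mul_one, Finset.card_sdiff_of_subset hBA,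
      Nat.cast_sub (Finset.card_le_card hBA), hBc]
    push_cast
    linarith
  rw [e1]
  exact (abs_add_le _ _).trans (add_le_add e2 e3)

end Crest.Agent.R113.FD
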