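import Crest.Agent.R113.Defs
import Crest.Agent.R113.FD.Orbit
import Crest.Agent.R113.FD.Final

/-!
Row 113, S0149, T12: good windows (definition).
A window `[s0, s0+l)` is good if it starts at a level divisible by `l`, its number `p` in the cell
satisfies `1 ≤ p ≤ D-2`, and `[s0, s0+2l) ⊂ [0,q)` is free of `bad b0`.
-/

set_option autoImplicit false

namespace Crest.Agent.R113.Orb

open Finset

open Classical in
/-- starts of the good windows -/
noncomputable def goodW (lev : ℕ → ℤ → ℕ) (bad : ℕ → Set ℤ) (b0 l D q : ℕ) : Finset ℕ :=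
  (range q).filter (fun s0 => s0 + 2 * l ≤ q ∧ lev b0 s0 % l = 0 ∧ 1 ≤ pw lev b0 l s0 ∧
    pw lev b0 l s0 + 2 ≤ D ∧ ∀ i : ℕ, i < 2 * l → ((s0 : ℤ) + i) ∉ bad b0)

end Crest.Agent.R113.Orb
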