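import Mathlib

/-!
# Row 113, finite dimensional toolbox (helper600)

Subspaces of `EuclideanSpace ℂ ι`, their orthogonal projections, Hilbert-Schmidt norms,
diagonals, cuts.
-/

set_option autoImplicit false
set_option linter.unusedSectionVars false

namespace Crest.Agent.R113.FD

open Finset
open scoped InnerProductSpace

/-- the Euclidean space -/
abbrev Ev (ι : Type*) [Fintype ι] := EuclideanSpace ℂ ι
/-- operators -/
abbrev Op (ι : Type*) [Fintype ι] := EuclideanSpace ℂ ι →L[ℂ] EuclideanSpace ℂ ι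

section
variable {ι : Type*} [Fintype ι]

/-- diagonal operator -/
noncomputable def dg (d : ι → ℂ) : Op ι :=
  LinearMap.toContinuousLinearMap
    { toFun := fun v => WithLp.toLp 2 (fun m => d m * v m)
      map_add' := by intro v w; ext m; simp [mul_add]
      map_smul' := by intro c v; ext m; simp; ring }

@[simp] lemma dg_apply (d : ι → ℂ) (v : Ev ι) (m : ι) : (dg d v) m = d m * v m := rfl

lemma norm_sq_eq_sum (v : Ev ι) : ‖v‖ ^ 2 = ∑ m, ‖v m‖ ^ 2 := EuclideanSpace.norm_sq_eq v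

lemma inner_eq_sum (v w : Ev ι) : ⟪v, w⟫_ℂ = ∑ m, w m * star (v m) := by
  rw [PiLp.inner_apply]; rfl

/-- orthogonal projection on `X` as an endomorphism -/
noncomputable abbrev pj (X : Submodule ℂ (Ev ι)) : Op ι := X.starProjection

lemma pj_mem (X : Submodule ℂ (Ev ι)) (v : Ev ι) : pj X v ∈ X := X.starProjection_apply_mem v

lemma pj_eq_self {X : Submodule ℂ (Ev ι)} {v : Ev ι} (hv : v ∈ X) : pj X v = v :=
  Submodule.starProjection_eq_self_iff.2 hv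

lemma pj_pj (X : Submodule ℂ (Ev ι)) (v : Ev ι) : pj X (pj X v) = pj X v := pj_eq_self (pj_mem X v)

lemma pj_mul_self (X : Submodule ℂ (Ev ι)) : pj X * pj X = pj X := by
  ext v; simp [pj_pj]

lemma inner_pj_left (X : Submodule ℂ (Ev ι)) (v w : Ev ι) : ⟪pj X v, w⟫_ℂ = ⟪v, pj X w⟫_ℂ :=
  X.inner_starProjection_left_eq_right v w

lemma inner_pj_left_of_mem {X : Submodule ℂ (Ev ι)} (v : Ev ι) {w : Ev ι} (hw : w ∈ X) :
    ⟪pj X v, w⟫_ℂ = ⟪v, w⟫_ℂ := by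
  rw [inner_pj_left, pj_eq_self hw]

lemma norm_pj_le (X : Submodule ℂ (Ev ι)) (v : Ev ι) : ‖pj X v‖ ≤ ‖v‖ :=
  X.norm_starProjection_apply_le v

lemma adjoint_pj (X : Submodule ℂ (Ev ι)) : ContinuousLinearMap.adjoint (pj X) = pj X :=
  (ContinuousLinearMap.isSelfAdjoint_iff'.1 (isSelfAdjoint_starProjection X))

lemma norm_sq_pj_add (X : Submodule ℂ (Ev ι)) (v : Ev ι) :
    ‖pj X v‖ ^ 2 + ‖v - pj X v‖ ^ 2 = ‖v‖ ^ 2 := by
  have h : ⟪pj X v, v - pj X v⟫_ℂ = 0 := by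
    rw [inner_pj_left, map_sub, pj_pj, sub_self, inner_zero_right]
  have := norm_add_sq_eq_norm_sq_add_norm_sq_of_inner_eq_zero _ _ h
  rw [add_sub_cancel] at this
  nlinarith [this]

end

section
variable {ι : Type*} [Fintype ι] [DecidableEq ι]

/-- coordinate vector -/
noncomputable def dl (m : ι) : Ev ι := EuclideanSpace.single m (1 : ℂ)

@[simp] lemma dl_apply (m m' : ι) : (dl m : Ev ι) m' = if m' = m then 1 else 0 := by
  simp [dl]

@[simp] lemma norm_dl (m : ι) : ‖(dl m : Ev ι)‖ = 1 := by simp [dl]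

lemma inner_dl_left (m : ι) (v : Ev ι) : ⟪dl m, v⟫_ℂ = v m := by
  simp [dl, EuclideanSpace.inner_single_left]

lemma inner_dl_right (m : ι) (v : Ev ι) : ⟪v, dl m⟫_ℂ = star (v m) := by
  simp [dl, EuclideanSpace.inner_single_right]

lemma dg_dl (d : ι → ℂ) (m : ι) : dg d (dl m) = d m • dl m := by
  ext m'; simp only [dg_apply, dl_apply, PiLp.smul_apply, smul_eq_mul]
  split_ifs with h <;> simp [h]

/-- Coordinate projection onto `A`. -/
noncomputable def cp (A : Finset ι) : Op ι := dg (fun m => if m ∈ A then 1 else 0)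

@[simp] lemma cp_apply (A : Finset ι) (v : Ev ι) (m : ι) : (cp A v) m = if m ∈ A then v m else 0 := by
  simp [cp]

lemma cp_dl (A : Finset ι) (m : ι) : cp A (dl m) = if m ∈ A then dl m else 0 := by
  ext m'
  by_cases h : m ∈ A
  · simp only [cp_apply, dl_apply, h, if_true]
    by_cases h' : m' = m
    · subst h'; simp [h]
    · simp [h']
  · simp only [cp_apply, dl_apply, h, if_false, PiLp.zero_apply]
    by_cases h' : m' = m
    · subst h'; simp [h]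
    · simp [h']

lemma cp_add_compl (A : Finset ι) (v : Ev ι) : cp A v + cp Aᶜ v = v := by
  ext m; by_cases h : m ∈ A <;> simp [h]

lemma cp_cp (A : Finset ι) (v : Ev ι) : cp A (cp A v) = cp A v := by
  ext m; by_cases h : m ∈ A <;> simp [h]

lemma inner_cp (A : Finset ι) (v w : Ev ι) : ⟪v, cp A w⟫_ℂ = ∑ m ∈ A, w m * star (v m) := by
  rw [inner_eq_sum]
  simp only [cp_apply, ite_mul, zero_mul]
  rw [Finset.sum_ite_mem, Finset.univ_inter]

lemma inner_cp_left (A : Finset ι) (v w : Ev ι) : ⟪cp A v, w⟫_ℂ = ⟪v, cp A w⟫_ℂ := by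
  rw [inner_eq_sum, inner_eq_sum]
  refine Finset.sum_congr rfl fun m _ => ?_
  by_cases h : m ∈ A <;> simp [h]

lemma norm_sq_cp (A : Finset ι) (v : Ev ι) : ‖cp A v‖ ^ 2 = ∑ m ∈ A, ‖v m‖ ^ 2 := by
  rw [norm_sq_eq_sum]
  have : ∀ m, ‖(cp A v) m‖ ^ 2 = if m ∈ A then ‖v m‖ ^ 2 else 0 := by
    intro m; by_cases h : m ∈ A <;> simp [h]
  simp_rw [this]
  rw [Finset.sum_ite_mem, Finset.univ_inter]

lemma norm_sq_cp_add (A : Finset ι) (v : Ev ι) : ‖cp A v‖ ^ 2 + ‖cp Aᶜ v‖ ^ 2 = ‖v‖ ^ 2 := by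
  rw [norm_sq_cp, norm_sq_cp, norm_sq_eq_sum, Finset.sum_add_sum_compl]

lemma norm_cp_le (A : Finset ι) (v : Ev ι) : ‖cp A v‖ ≤ ‖v‖ := by
  have h := norm_sq_cp_add A v
  exact abs_le_of_sq_le_sq' (by nlinarith [sq_nonneg ‖cp Aᶜ v‖]) (norm_nonneg _) |>.2

lemma inner_cp_self (A : Finset ι) (v : Ev ι) : ⟪v, cp A v⟫_ℂ = ((‖cp A v‖ ^ 2 : ℝ) : ℂ) := by
  rw [inner_cp, norm_sq_cp]
  push_cast
  refine Finset.sum_congr rfl fun m _ => ?_
  rw [← Complex.conj_mul', mul_comm]; rfl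

/-! ### Hilbert-Schmidt norm (squared) -/

/-- squared Hilbert-Schmidt norm -/
noncomputable def hs (T : Op ι) : ℝ := ∑ m, ‖T (dl m)‖ ^ 2

lemma hs_nonneg (T : Op ι) : 0 ≤ hs T := Finset.sum_nonneg fun _ _ => by positivity

lemma hs_eq_entries (T : Op ι) : hs T = ∑ m, ∑ m', ‖(T (dl m)) m'‖ ^ 2 := by
  unfold hs; exact Finset.sum_congr rfl fun m _ => norm_sq_eq_sum _

lemma adjoint_dl_apply (T : Op ι) (m m' : ι) :
    (ContinuousLinearMap.adjoint T (dl m)) m' = star ((T (dl m')) m) := by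
  rw [← inner_dl_left m', ContinuousLinearMap.adjoint_inner_right, inner_dl_right]

lemma hs_adjoint (T : Op ι) : hs (ContinuousLinearMap.adjoint T) = hs T := by
  rw [hs_eq_entries, hs_eq_entries, Finset.sum_comm]
  simp_rw [adjoint_dl_apply, norm_star]

lemma sum_norm_inner_basis {κ : Type*} [Fintype κ] {X : Submodule ℂ (Ev ι)}
    (b : OrthonormalBasis κ ℂ X) (v : Ev ι) :
    ∑ i, ‖⟪v, (b i : Ev ι)⟫_ℂ‖ ^ 2 = ‖pj X v‖ ^ 2 := by
  have h := b.sum_sq_norm_inner_left (⟨pj X v, pj_mem X v⟩ : X)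
  have e : ‖(⟨pj X v, pj_mem X v⟩ : X)‖ = ‖pj X v‖ := rfl
  rw [e] at h
  rw [← h]
  refine Finset.sum_congr rfl fun i _ => ?_
  rw [Submodule.coe_inner]
  simp only [inner_pj_left_of_mem v (b i).2]

/-- **Basis formula**: for an orthonormal basis `b` of `X`, `∑ ‖T bᵢ‖² = hs (T P_X)`. -/
lemma sum_basis {κ : Type*} [Fintype κ] {X : Submodule ℂ (Ev ι)}
    (b : OrthonormalBasis κ ℂ X) (T : Op ι) :
    ∑ i, ‖T (b i : Ev ι)‖ ^ 2 = hs (T * pj X) := by
  have h1 : ∀ i, ‖T (b i : Ev ι)‖ ^ 2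
      = ∑ m, ‖⟪ContinuousLinearMap.adjoint T (dl m), (b i : Ev ι)⟫_ℂ‖ ^ 2 := by
    intro i
    rw [norm_sq_eq_sum]
    refine Finset.sum_congr rfl fun m _ => ?_
    rw [ContinuousLinearMap.adjoint_inner_left, inner_dl_left]
  simp_rw [h1]
  rw [Finset.sum_comm]
  simp_rw [sum_norm_inner_basis b]
  rw [← hs_adjoint (T * pj X)]
  unfold hs
  refine Finset.sum_congr rfl fun m _ => ?_
  have : ContinuousLinearMap.adjoint (T * pj X) = pj X * ContinuousLinearMap.adjoint T := by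
    rw [ContinuousLinearMap.mul_def, ContinuousLinearMap.adjoint_comp, adjoint_pj]; rfl
  rw [this]; rfl

/-- Basis independence of `hs`. -/
lemma sum_basis_univ {κ : Type*} [Fintype κ] (b : OrthonormalBasis κ ℂ (Ev ι)) (T : Op ι) :
    ∑ i, ‖T (b i)‖ ^ 2 = hs T := by
  have h1 : ∀ i, ‖T (b i)‖ ^ 2
      = ∑ m, ‖⟪ContinuousLinearMap.adjoint T (dl m), (b i)⟫_ℂ‖ ^ 2 := by
    intro i
    rw [norm_sq_eq_sum]
    refine Finset.sum_congr rfl fun m _ => ?_
    rw [ContinuousLinearMap.adjoint_inner_left, inner_dl_left]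
  simp_rw [h1]
  rw [Finset.sum_comm]
  simp_rw [b.sum_sq_norm_inner_left]
  rw [← hs_adjoint T]
  rfl

lemma hs_mul_le (S T : Op ι) : hs (S * T) ≤ ‖S‖ ^ 2 * hs T := by
  unfold hs
  rw [Finset.mul_sum]
  refine Finset.sum_le_sum fun m _ => ?_
  have : ‖(S * T) (dl m)‖ ≤ ‖S‖ * ‖T (dl m)‖ := S.le_opNorm _
  calc ‖(S * T) (dl m)‖ ^ 2 ≤ (‖S‖ * ‖T (dl m)‖) ^ 2 := by gcongr
    _ = _ := by ring

lemma adjoint_mul' (S T : Op ι) : ContinuousLinearMap.adjoint (S * T)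
    = ContinuousLinearMap.adjoint T * ContinuousLinearMap.adjoint S := by
  rw [ContinuousLinearMap.mul_def, ContinuousLinearMap.adjoint_comp]; rfl

lemma hs_mul_le' (S T : Op ι) : hs (S * T) ≤ ‖T‖ ^ 2 * hs S := by
  rw [← hs_adjoint, adjoint_mul', ← hs_adjoint S]
  have h := hs_mul_le (ContinuousLinearMap.adjoint T) (ContinuousLinearMap.adjoint S)
  rwa [LinearIsometryEquiv.norm_map] at h

lemma hs_neg (T : Op ι) : hs (-T) = hs T := by simp [hs]

lemma hs_sub_comm (S T : Op ι) : hs (S - T) = hs (T - S) := by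
  rw [← hs_neg, neg_sub]

lemma hs_smul (c : ℂ) (T : Op ι) : hs (c • T) = ‖c‖ ^ 2 * hs T := by
  unfold hs; rw [Finset.mul_sum]
  refine Finset.sum_congr rfl fun m _ => ?_
  show ‖c • T (dl m)‖ ^ 2 = _
  rw [norm_smul]; ring

/-- `sqrt hs` is a norm. -/
lemma sqrt_hs_add_le (S T : Op ι) : √(hs (S + T)) ≤ √(hs S) + √(hs T) := by
  have key := norm_add_le
    (WithLp.toLp 2 (fun m => S (dl m)) : PiLp 2 (fun _ : ι => Ev ι))
    (WithLp.toLp 2 (fun m => T (dl m)))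
  rw [PiLp.norm_eq_of_L2, PiLp.norm_eq_of_L2, PiLp.norm_eq_of_L2] at key
  simpa [hs] using key

lemma sqrt_hs_sub_le (S T : Op ι) : √(hs (S - T)) ≤ √(hs S) + √(hs T) := by
  rw [sub_eq_add_neg, ← hs_neg T]; exact sqrt_hs_add_le _ _

lemma sqrt_hs_sub_triangle (R S T : Op ι) : √(hs (R - T)) ≤ √(hs (R - S)) + √(hs (S - T)) := by
  have := sqrt_hs_add_le (R - S) (S - T)
  rwa [sub_add_sub_cancel] at this

/-- a convenient form of the triangle inequality -/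
lemma hs_add_le_two (S T : Op ι) : hs (S + T) ≤ 2 * hs S + 2 * hs T := by
  unfold hs
  rw [Finset.mul_sum, Finset.mul_sum, ← Finset.sum_add_distrib]
  refine Finset.sum_le_sum fun m _ => ?_
  have := norm_add_le (S (dl m)) (T (dl m))
  have h1 : ‖(S + T) (dl m)‖ ^ 2 ≤ (‖S (dl m)‖ + ‖T (dl m)‖) ^ 2 := by
    gcongr; exact this
  nlinarith [sq_nonneg (‖S (dl m)‖ - ‖T (dl m)‖)]

/-- Pythagoras for left multiplication by a projection. -/
lemma hs_pj_add (X : Submodule ℂ (Ev ι)) (T : Op ι) :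
    hs (pj X * T) + hs ((1 - pj X) * T) = hs T := by
  unfold hs
  rw [← Finset.sum_add_distrib]
  refine Finset.sum_congr rfl fun m _ => ?_
  exact norm_sq_pj_add X (T (dl m))

/-- Pythagoras for right multiplication by a projection. -/
lemma hs_mul_pj_add (X : Submodule ℂ (Ev ι)) (T : Op ι) :
    hs (T * pj X) + hs (T * (1 - pj X)) = hs T := by
  rw [← hs_adjoint (T * pj X), ← hs_adjoint (T * (1 - pj X)), ← hs_adjoint T, adjoint_mul',
    adjoint_mul', adjoint_pj, map_sub, adjoint_pj]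
  have : ContinuousLinearMap.adjoint (1 : Op ι) = 1 := by
    ext1 v; refine ext_inner_left ℂ fun w => ?_
    rw [ContinuousLinearMap.adjoint_inner_right]; rfl
  rw [this]
  exact hs_pj_add X _

lemma hs_cp_add (A : Finset ι) (T : Op ι) : hs (cp A * T) + hs (cp Aᶜ * T) = hs T := by
  unfold hs
  rw [← Finset.sum_add_distrib]
  refine Finset.sum_congr rfl fun m _ => ?_
  exact norm_sq_cp_add A (T (dl m))

lemma adjoint_cp (A : Finset ι) : ContinuousLinearMap.adjoint (cp A) = cp A := by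
  ext1 v; refine ext_inner_left ℂ fun w => ?_
  rw [ContinuousLinearMap.adjoint_inner_right, inner_cp_left]

lemma cp_mul_self (A : Finset ι) : cp A * cp A = cp A := by ext v m; simp [cp_cp]

/-! ### trace -/

/-- the trace -/
noncomputable def tr (U : Op ι) : ℂ := ∑ m, ⟪dl m, U (dl m)⟫_ℂ

lemma tr_eq_trace (U : Op ι) : tr U = LinearMap.trace ℂ (Ev ι) (U : Ev ι →ₗ[ℂ] Ev ι) := by
  rw [LinearMap.trace_eq_sum_inner _ (EuclideanSpace.basisFun ι ℂ)]
  refine Finset.sum_congr rfl fun m _ => ?_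
  simp [dl, EuclideanSpace.basisFun_apply]

lemma tr_mul_comm (S T : Op ι) : tr (S * T) = tr (T * S) := by
  rw [tr_eq_trace, tr_eq_trace]
  have e : ((S * T : Op ι) : Ev ι →ₗ[ℂ] Ev ι) = (S : Ev ι →ₗ[ℂ] Ev ι) * (T : Ev ι →ₗ[ℂ] Ev ι) := rfl
  have e' : ((T * S : Op ι) : Ev ι →ₗ[ℂ] Ev ι) = (T : Ev ι →ₗ[ℂ] Ev ι) * (S : Ev ι →ₗ[ℂ] Ev ι) := rfl
  rw [e, e', LinearMap.trace_mul_comm]

lemma tr_add (S T : Op ι) : tr (S + T) = tr S + tr T := by
  unfold tr; rw [← Finset.sum_add_distrib]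
  exact Finset.sum_congr rfl fun m _ => inner_add_right _ _ _

lemma tr_sub (S T : Op ι) : tr (S - T) = tr S - tr T := by
  unfold tr; rw [← Finset.sum_sub_distrib]
  exact Finset.sum_congr rfl fun m _ => inner_sub_right _ _ _

lemma tr_smul (c : ℂ) (T : Op ι) : tr (c • T) = c * tr T := by
  unfold tr; rw [Finset.mul_sum]
  exact Finset.sum_congr rfl fun m _ => inner_smul_right _ _ _

lemma tr_one : tr (1 : Op ι) = Fintype.card ι := by
  unfold tr
  have : ∀ m : ι, ⟪dl m, (1 : Op ι) (dl m)⟫_ℂ = 1 := by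
    intro m
    show ⟪dl m, dl m⟫_ℂ = 1
    rw [inner_self_eq_norm_sq_to_K]; simp
  rw [Finset.sum_congr rfl fun m _ => this m]; simp

lemma hs_eq_tr (T : Op ι) : (hs T : ℂ) = tr (ContinuousLinearMap.adjoint T * T) := by
  unfold hs tr
  push_cast
  refine Finset.sum_congr rfl fun m _ => ?_
  show _ = ⟪dl m, ContinuousLinearMap.adjoint T (T (dl m))⟫_ℂ
  rw [ContinuousLinearMap.adjoint_inner_right, inner_self_eq_norm_sq_to_K]
  norm_cast

lemma tr_basis {κ : Type*} [Fintype κ] (b : OrthonormalBasis κ ℂ (Ev ι)) (T : Op ι) :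
    ∑ i, ⟪b i, T (b i)⟫_ℂ = tr T := by
  rw [tr_eq_trace, LinearMap.trace_eq_sum_inner _ b]; rfl

/-! ### diagonal entries of the projection -/

/-- `h_X(m) = P_X(m,m) = ‖P_X δ_m‖²`. -/
noncomputable def hh (X : Submodule ℂ (Ev ι)) (m : ι) : ℝ := ‖pj X (dl m)‖ ^ 2

/-- `tr (P_X 1_A)` -/
noncomputable def trA (X : Submodule ℂ (Ev ι)) (A : Finset ι) : ℝ := ∑ m ∈ A, hh X m

/-- `∑_{m∈A, m'∉A} |P_X(m,m')|²` -/
noncomputable def cut (X : Submodule ℂ (Ev ι)) (A : Finset ι) : ℝ :=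
  ∑ m ∈ A, ∑ m' ∈ Aᶜ, ‖(pj X (dl m)) m'‖ ^ 2

lemma hh_nonneg (X : Submodule ℂ (Ev ι)) (m : ι) : 0 ≤ hh X m := by unfold hh; positivity

lemma hh_le_one (X : Submodule ℂ (Ev ι)) (m : ι) : hh X m ≤ 1 := by
  unfold hh
  have := norm_pj_le X (dl m)
  rw [norm_dl] at this
  nlinarith [norm_nonneg (pj X (dl m))]

lemma pj_dl_self (X : Submodule ℂ (Ev ι)) (m : ι) : (pj X (dl m)) m = (hh X m : ℂ) := by
  rw [← inner_dl_left m, ← pj_pj, ← inner_pj_left, inner_self_eq_norm_sq_to_K]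
  simp [hh]

lemma trA_nonneg (X : Submodule ℂ (Ev ι)) (A : Finset ι) : 0 ≤ trA X A :=
  Finset.sum_nonneg fun m _ => hh_nonneg X m

lemma trA_mono (X : Submodule ℂ (Ev ι)) {A B : Finset ι} (h : A ⊆ B) : trA X A ≤ trA X B :=
  Finset.sum_le_sum_of_subset_of_nonneg h fun m _ _ => hh_nonneg X m

lemma trA_le_card (X : Submodule ℂ (Ev ι)) (A : Finset ι) : trA X A ≤ A.card := by
  calc trA X A ≤ ∑ m ∈ A, (1 : ℝ) := Finset.sum_le_sum fun m _ => hh_le_one X m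
    _ = _ := by simp

lemma cut_nonneg (X : Submodule ℂ (Ev ι)) (A : Finset ι) : 0 ≤ cut X A :=
  Finset.sum_nonneg fun m _ => Finset.sum_nonneg fun m' _ => by positivity

/-- symmetry of the entries -/
lemma norm_entry_comm (X : Submodule ℂ (Ev ι)) (m m' : ι) :
    ‖(pj X (dl m)) m'‖ = ‖(pj X (dl m')) m‖ := by
  have h := adjoint_dl_apply (pj X) m m'
  rw [adjoint_pj] at h
  rw [h, norm_star]

lemma hh_eq_row (X : Submodule ℂ (Ev ι)) (m : ι) : hh X m = ∑ m', ‖(pj X (dl m)) m'‖ ^ 2 :=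
  norm_sq_eq_sum _

lemma hs_pj (X : Submodule ℂ (Ev ι)) : hs (pj X) = ∑ m, hh X m := rfl

/-- `tr P_X = dim X`. -/
lemma sum_hh (X : Submodule ℂ (Ev ι)) : ∑ m, hh X m = Module.finrank ℂ X := by
  have h := sum_basis (stdOrthonormalBasis ℂ X) (1 : Op ι)
  rw [one_mul, hs_pj] at h
  rw [← h]
  have : ∀ i, ‖(1 : Op ι) ((stdOrthonormalBasis ℂ X i : X) : Ev ι)‖ ^ 2 = 1 := by
    intro i
    have h1 : ‖((stdOrthonormalBasis ℂ X i : X) : Ev ι)‖ = 1 :=
      (stdOrthonormalBasis ℂ X).norm_eq_one i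
    show ‖((stdOrthonormalBasis ℂ X i : X) : Ev ι)‖ ^ 2 = 1
    rw [h1]; norm_num
  rw [Finset.sum_congr rfl fun i _ => this i]
  simp

lemma trA_univ (X : Submodule ℂ (Ev ι)) : trA X Finset.univ = Module.finrank ℂ X := sum_hh X

lemma trA_add_compl (X : Submodule ℂ (Ev ι)) (A : Finset ι) :
    trA X A + trA X Aᶜ = Module.finrank ℂ X := by
  unfold trA; rw [Finset.sum_add_sum_compl, sum_hh]

lemma hs_mul_cp (T : Op ι) (A : Finset ι) : hs (T * cp A) = ∑ m ∈ A, ‖T (dl m)‖ ^ 2 := by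
  unfold hs
  have : ∀ m, ‖(T * cp A) (dl m)‖ ^ 2 = if m ∈ A then ‖T (dl m)‖ ^ 2 else 0 := by
    intro m
    show ‖T (cp A (dl m))‖ ^ 2 = _
    rw [cp_dl]
    split_ifs <;> simp
  simp_rw [this]
  rw [Finset.sum_ite_mem, Finset.univ_inter]

lemma trA_eq_hs' (X : Submodule ℂ (Ev ι)) (A : Finset ι) : trA X A = hs (pj X * cp A) := by
  rw [hs_mul_cp]; rfl

lemma trA_eq_hs (X : Submodule ℂ (Ev ι)) (A : Finset ι) : trA X A = hs (cp A * pj X) := by
  rw [trA_eq_hs', ← hs_adjoint, adjoint_mul', adjoint_pj, adjoint_cp]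

/-- `tr(P_X 1_A) = ∑ ‖1_A bᵢ‖²`. -/
lemma trA_eq_basis {κ : Type*} [Fintype κ] {X : Submodule ℂ (Ev ι)}
    (b : OrthonormalBasis κ ℂ X) (A : Finset ι) :
    trA X A = ∑ i, ‖cp A (b i : Ev ι)‖ ^ 2 := by
  rw [trA_eq_hs, sum_basis]

lemma hh_eq_basis {κ : Type*} [Fintype κ] {X : Submodule ℂ (Ev ι)}
    (b : OrthonormalBasis κ ℂ X) (m : ι) : hh X m = ∑ i, ‖(b i : Ev ι) m‖ ^ 2 := by
  have h := trA_eq_basis b {m}
  simpa [trA, norm_sq_cp] using h

/-- the cut as a Hilbert-Schmidt norm -/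
lemma cut_eq_hs0 (X : Submodule ℂ (Ev ι)) (A : Finset ι) : cut X A = hs (cp Aᶜ * pj X * cp A) := by
  rw [hs_mul_cp]
  unfold cut
  refine Finset.sum_congr rfl fun m _ => ?_
  show _ = ‖cp Aᶜ (pj X (dl m))‖ ^ 2
  rw [norm_sq_cp]

lemma cut_compl (X : Submodule ℂ (Ev ι)) (A : Finset ι) : cut X Aᶜ = cut X A := by
  unfold cut
  rw [compl_compl, Finset.sum_comm]
  refine Finset.sum_congr rfl fun m _ => Finset.sum_congr rfl fun m' _ => ?_
  rw [norm_entry_comm]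

/-- `cut_A(X) = tr(P 1_A) - ‖1_A P 1_A‖₂²`. -/
lemma cut_eq_sub (X : Submodule ℂ (Ev ι)) (A : Finset ι) :
    cut X A = trA X A - hs (cp A * pj X * cp A) := by
  rw [cut_eq_hs0, trA_eq_hs']
  have := hs_cp_add A (pj X * cp A)
  rw [← mul_assoc, ← mul_assoc] at this
  linarith

/-- `cut_A(X) = ‖(1-P) 1_A P‖₂²`. -/
lemma cut_eq_hs (X : Submodule ℂ (Ev ι)) (A : Finset ι) :
    cut X A = hs ((1 - pj X) * cp A * pj X) := by
  have h1 := hs_pj_add X (cp A * pj X)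
  rw [← mul_assoc, ← mul_assoc, ← trA_eq_hs] at h1
  have h2 : hs (pj X * cp A * pj X) = hs (cp A * pj X * cp A) := by
    have h3 : (hs (pj X * cp A * pj X) : ℂ) = hs (cp A * pj X * cp A) := by
      rw [hs_eq_tr, hs_eq_tr]
      simp only [adjoint_mul', adjoint_pj, adjoint_cp]
      have e1 : pj X * (cp A * pj X) * (pj X * cp A * pj X)
          = pj X * (cp A * pj X * cp A * pj X) := by
        calc pj X * (cp A * pj X) * (pj X * cp A * pj X)
            = pj X * cp A * (pj X * pj X) * cp A * pj X := by simp only [mul_assoc]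
          _ = _ := by rw [pj_mul_self]; simp only [mul_assoc]
      have e2 : cp A * (pj X * cp A) * (cp A * pj X * cp A)
          = cp A * (pj X * cp A * pj X * cp A) := by
        calc cp A * (pj X * cp A) * (cp A * pj X * cp A)
            = cp A * pj X * (cp A * cp A) * pj X * cp A := by simp only [mul_assoc]
          _ = _ := by rw [cp_mul_self]; simp only [mul_assoc]
      rw [e1, e2, tr_mul_comm, tr_mul_comm (cp A)]
      have e3 : cp A * pj X * cp A * pj X * pj X = cp A * (pj X * cp A * pj X) := by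
        rw [mul_assoc _ (pj X) (pj X), pj_mul_self]; simp only [mul_assoc]
      have e4 : pj X * cp A * pj X * cp A * cp A = (pj X * cp A * pj X) * cp A := by
        rw [mul_assoc _ (cp A) (cp A), cp_mul_self]
      rw [e3, e4, tr_mul_comm]
    exact_mod_cast h3
  rw [h2] at h1
  rw [cut_eq_sub]
  linarith

lemma cut_eq_basis {κ : Type*} [Fintype κ] {X : Submodule ℂ (Ev ι)}
    (b : OrthonormalBasis κ ℂ X) (A : Finset ι) :
    cut X A = ∑ i, ‖cp A (b i : Ev ι) - pj X (cp A (b i : Ev ι))‖ ^ 2 := by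
  rw [cut_eq_hs, ← sum_basis b]
  rfl

/-! ### Comparing subspaces -/

lemma pj_mul_pj_of_le {X Y : Submodule ℂ (Ev ι)} (h : Y ≤ X) : pj X * pj Y = pj Y := by
  ext1 v; exact pj_eq_self (h (pj_mem Y v))

lemma pj_mul_pj_of_le' {X Y : Submodule ℂ (Ev ι)} (h : Y ≤ X) : pj Y * pj X = pj Y := by
  have := congrArg ContinuousLinearMap.adjoint (pj_mul_pj_of_le h)
  rwa [adjoint_mul', adjoint_pj, adjoint_pj] at this

/-- Pythagoras for `Y ≤ X`. -/
lemma hs_mul_pj_of_le {X Y : Submodule ℂ (Ev ι)} (h : Y ≤ X) (T : Op ι) :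
    hs (T * pj X) = hs (T * pj Y) + hs (T * (pj X - pj Y)) := by
  have := hs_mul_pj_add Y (T * pj X)
  rw [mul_assoc, pj_mul_pj_of_le h, mul_assoc, mul_sub, mul_one, pj_mul_pj_of_le h] at this
  exact this.symm

lemma hs_mul_pj_mono {X Y : Submodule ℂ (Ev ι)} (h : Y ≤ X) (T : Op ι) :
    hs (T * pj Y) ≤ hs (T * pj X) := by
  rw [hs_mul_pj_of_le h]; linarith [hs_nonneg (T * (pj X - pj Y))]

lemma hs_pj_eq (X : Submodule ℂ (Ev ι)) : hs (pj X) = Module.finrank ℂ X := by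
  rw [hs_pj, sum_hh]

lemma hh_mono {X Y : Submodule ℂ (Ev ι)} (h : Y ≤ X) (m : ι) : hh Y m ≤ hh X m := by
  have e : ∀ Z : Submodule ℂ (Ev ι), hh Z m = hs (cp {m} * pj Z) := fun Z => by
    rw [← trA_eq_hs]; simp [trA]
  rw [e, e]; exact hs_mul_pj_mono h _

lemma trA_mono_left {X Y : Submodule ℂ (Ev ι)} (h : Y ≤ X) (A : Finset ι) :
    trA Y A ≤ trA X A := Finset.sum_le_sum fun m _ => hh_mono h m

/-- An operator bounded by `c` on `Y` has `‖T P_Y‖₂² ≤ c² dim Y`. -/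
lemma hs_mul_pj_le {Y : Submodule ℂ (Ev ι)} {T : Op ι} {c : ℝ}
    (h : ∀ v ∈ Y, ‖T v‖ ≤ c * ‖v‖) : hs (T * pj Y) ≤ c ^ 2 * Module.finrank ℂ Y := by
  rw [← hs_pj_eq]
  unfold hs
  rw [Finset.mul_sum]
  refine Finset.sum_le_sum fun m _ => ?_
  have := h (pj Y (dl m)) (pj_mem Y _)
  calc ‖(T * pj Y) (dl m)‖ ^ 2 ≤ (c * ‖pj Y (dl m)‖) ^ 2 := by
        have h0 : ‖(T * pj Y) (dl m)‖ = ‖T (pj Y (dl m))‖ := rfl
        rw [h0]
        gcongr
    _ = _ := by ring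

/-- lower bound for `tr(P_X 1_A)` from a subspace almost supported in `A`. -/
lemma le_trA_of_subspace {X Y : Submodule ℂ (Ev ι)} (h : Y ≤ X) {A : Finset ι} {c : ℝ}
    (hc : ∀ v ∈ Y, ‖cp Aᶜ v‖ ≤ c * ‖v‖) : (1 - c ^ 2) * Module.finrank ℂ Y ≤ trA X A := by
  have h1 := hs_cp_add A (pj Y)
  rw [hs_pj_eq, ← trA_eq_hs] at h1
  have h2 := hs_mul_pj_le hc
  have h3 := trA_mono_left h A
  linarith

/-- `‖P_X - P_Y‖₂² = dim X + dim Y - 2 ‖P_Y P_X‖₂²`. -/
lemma hs_pj_sub_pj (X Y : Submodule ℂ (Ev ι)) :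
    hs (pj X - pj Y) = Module.finrank ℂ X + Module.finrank ℂ Y - 2 * hs (pj Y * pj X) := by
  have h : (hs (pj X - pj Y) : ℂ)
      = Module.finrank ℂ X + Module.finrank ℂ Y - 2 * hs (pj Y * pj X) := by
    rw [hs_eq_tr, hs_eq_tr, map_sub, adjoint_pj, adjoint_pj, adjoint_mul', adjoint_pj, adjoint_pj]
    have e1 : (pj X - pj Y) * (pj X - pj Y) = pj X * pj X + pj Y * pj Y - pj X * pj Y
        - pj Y * pj X := by rw [sub_mul, mul_sub, mul_sub]; abel
    have e2 : pj X * pj Y * (pj Y * pj X) = pj X * (pj Y * pj X) := by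
      rw [mul_assoc, ← mul_assoc (pj Y) (pj Y), pj_mul_self]
    have e3 : pj Y * pj X * pj X = pj Y * pj X := by rw [mul_assoc, pj_mul_self]
    have hX : ∀ Z : Submodule ℂ (Ev ι), tr (pj Z * pj Z) = Module.finrank ℂ Z := by
      intro Z
      have := hs_eq_tr (pj Z)
      rw [adjoint_pj] at this
      rw [← this, hs_pj_eq]; norm_cast
    rw [e1, e2, tr_sub, tr_sub, tr_add, hX, hX, tr_mul_comm (pj X) (pj Y * pj X), e3,
      tr_mul_comm (pj X) (pj Y)]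
    ring
  exact_mod_cast h

/-- same dimension: `‖P_X - P_Y‖₂² = 2 ‖(1-P_Y) P_X‖₂²`. -/
lemma hs_pj_sub_pj_eq {X Y : Submodule ℂ (Ev ι)} (h : Module.finrank ℂ X = Module.finrank ℂ Y) :
    hs (pj X - pj Y) = 2 * hs ((1 - pj Y) * pj X) := by
  have h1 := hs_pj_add Y (pj X)
  rw [hs_pj_eq] at h1
  rw [hs_pj_sub_pj, ← h]; linarith

/-- weighted diagonal sums as traces -/
lemma sum_mul_hh (X : Submodule ℂ (Ev ι)) (f : ι → ℝ) :
    ((∑ m, f m * hh X m : ℝ) : ℂ) = tr (dg (fun m => (f m : ℂ)) * pj X) := by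
  unfold tr
  push_cast
  refine Finset.sum_congr rfl fun m _ => ?_
  rw [inner_dl_left, ← pj_dl_self]
  rfl

/-- `|h_X - h_Y|` in `ℓ¹` is controlled by the Hilbert-Schmidt distance. -/
lemma sum_abs_hh_sub_le (X Y : Submodule ℂ (Ev ι)) (A : Finset ι) :
    ∑ m ∈ A, |hh X m - hh Y m| ≤ √(A.card) * √(hs (pj X - pj Y)) := by
  have h1 : ∀ m, |hh X m - hh Y m| ≤ ‖(pj X - pj Y) (dl m)‖ := by
    intro m
    have e : ((hh X m - hh Y m : ℝ) : ℂ) = ((pj X - pj Y) (dl m)) m := by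
      push_cast
      rw [← pj_dl_self, ← pj_dl_self]; rfl
    have e2 : |hh X m - hh Y m| = ‖((pj X - pj Y) (dl m)) m‖ := by
      rw [← e, Complex.norm_real, Real.norm_eq_abs]
    rw [e2]
    exact PiLp.norm_apply_le _ _
  calc ∑ m ∈ A, |hh X m - hh Y m| ≤ ∑ m ∈ A, 1 * ‖(pj X - pj Y) (dl m)‖ :=
        Finset.sum_le_sum fun m _ => by rw [one_mul]; exact h1 m
    _ ≤ √(∑ m ∈ A, (1:ℝ) ^ 2) * √(∑ m ∈ A, ‖(pj X - pj Y) (dl m)‖ ^ 2) :=
        Real.sum_mul_le_sqrt_mul_sqrt _ _ _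
    _ ≤ _ := by
        have h2 : ∑ m ∈ A, ‖(pj X - pj Y) (dl m)‖ ^ 2 ≤ hs (pj X - pj Y) :=
          Finset.sum_le_sum_of_subset_of_nonneg (Finset.subset_univ _) fun _ _ _ => by positivity
        have h3 : ∑ m ∈ A, (1:ℝ) ^ 2 = A.card := by simp
        rw [h3]
        gcongr

end

end Crest.Agent.R113.FD
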