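import Crest.Agent.R113.Basic
import Crest.Agent.R113.FluxLA
import Crest.Agent.R113.NearInv
import Crest.Agent.R113.FD.Final

/-!
Row 113, S0149, T12 (helper244): linear algebra used in the assembly.
-/

set_option autoImplicit false

namespace Crest.Agent.R113.FD

open Finset

/-- If `E2 ≤ E1` has small codimension and consists of vectors close to `F`, and `dim F` is not
much larger than `dim E1`, then the diagonals of the projections are `ℓ¹`-close. -/
theorem l1_of_near {q : ℕ} (E1 E2 F : Submodule ℂ (EuclideanSpace ℂ (Fin q))) (W ω : ℝ)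
    (hle : E2 ≤ E1) (hF : (Module.finrank ℂ F : ℝ) ≤ Module.finrank ℂ E1 + ω)
    (hE2 : (Module.finrank ℂ E1 : ℝ) ≤ Module.finrank ℂ E2 + ω)
    (h : ∀ v ∈ E2, ‖v - F.starProjection v‖ ≤ Real.exp (-W) * ‖F.starProjection v‖) :
    ∑ m, |Crest.Agent.R113.dg E1 m - Crest.Agent.R113.dg F m| ≤
      Real.sqrt q * Real.sqrt (3 * ω + 2 * Real.exp (-(2 * W)) * q) := by
  have h0 := abs_dg_sub_le E1 F (Finset.univ : Finset (Fin q))
  rw [Finset.card_univ, Fintype.card_fin] at h0
  refine h0.trans (mul_le_mul_of_nonneg_left (Real.sqrt_le_sqrt ?_) (Real.sqrt_nonneg _))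
  rw [hsd_eq_hs, hs_pj_sub_pj]
  have h1 : hs (pj F * pj E2) ≤ hs (pj F * pj E1) := hs_mul_pj_mono hle _
  have h2 := hs_pj_add F (pj E2)
  rw [hs_pj_eq] at h2
  have h3 : hs ((1 - pj F) * pj E2) ≤ Real.exp (-W) ^ 2 * Module.finrank ℂ E2 := by
    refine hs_mul_pj_le fun v hv => ?_
    refine (h v hv).trans (mul_le_mul_of_nonneg_left ?_ (Real.exp_pos _).le)
    exact norm_pj_le F v
  have h4 : (Module.finrank ℂ E2 : ℝ) ≤ q := by
    have := Submodule.finrank_le E2
    rw [finrank_euclideanSpace_fin] at this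
    exact_mod_cast this
  have h5 : Real.exp (-W) ^ 2 = Real.exp (-(2 * W)) := by
    rw [← Real.exp_nat_mul]; congr 1; push_cast; ring
  rw [h5] at h3
  have h6 : Real.exp (-(2 * W)) * Module.finrank ℂ E2 ≤ Real.exp (-(2 * W)) * q :=
    mul_le_mul_of_nonneg_left h4 (Real.exp_pos _).le
  linarith

/-- the projection onto a block subspace, inside one window -/
theorem dg_winSub {q l s0 : ℕ} (win : Fin q → ℤ) (F : Submodule ℂ (EuclideanSpace ℂ (Fin q)))
    (hF : BlockSub win F) (hs : s0 + l ≤ q)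
    (hwin : ∀ i : Fin q, win i = s0 ↔ s0 ≤ (i : ℕ) ∧ (i : ℕ) < s0 + l) (i : Fin l) :
    Crest.Agent.R113.dg (winSub l s0 F) i = Crest.Agent.R113.dg F ⟨s0 + i, by omega⟩ := by
  classical
  have hcut : ∀ x ∈ F, NI.cutw q l s0 x ∈ F := by
    intro x hx
    have h1 := (BlockSub_eqna win F ▸ hF) (s0 : ℤ) x hx
    have h2 : NI.cutw q l s0 x = restr {i | win i = (s0 : ℤ)} x := by
      ext m
      rw [NI.cutw_apply, restr_apply]
      have := hwin m
      by_cases h : s0 ≤ (m : ℕ) ∧ (m : ℕ) < s0 + l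
      · rw [if_pos h, if_pos (show m ∈ {i | win i = (s0 : ℤ)} from this.2 h)]
      · rw [if_neg h, if_neg (show ¬ m ∈ {i | win i = (s0 : ℤ)} from fun h' => h (this.1 h'))]
    rw [h2]
    exact h1
  have hi := i.2
  set k : Fin q := ⟨s0 + i, by omega⟩ with hk
  have h1 : NI.resw q l s0 (ev k) = ev i := by
    ext j
    have hj := j.2
    rw [NI.resw_apply, dif_pos (by omega)]
    unfold ev
    rw [PiLp.single_apply, PiLp.single_apply]
    congr 1
    rw [hk, Fin.mk.injEq, Fin.ext_iff]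
    apply propext
    omega
  have h2 : NI.cutw q l s0 (ev k) = ev k := by
    ext m
    rw [NI.cutw_apply]
    by_cases h : s0 ≤ (m : ℕ) ∧ (m : ℕ) < s0 + l
    · rw [if_pos h]
    · rw [if_neg h]
      unfold ev
      rw [PiLp.single_apply, if_neg]
      rintro rfl
      apply h
      rw [hk]
      simp
  have h3 := NI.starProjection_resw hs F hcut (ev k)
  rw [h1] at h3
  have h4 := NI.starProjection_cutw F hcut (ev k)
  rw [h2] at h4
  unfold Crest.Agent.R113.dg
  rw [← h3, ← NI.norm_embw q l s0 hs, NI.embw_resw, ← h4]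

end Crest.Agent.R113.FD
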