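import Crest.Agent.R113.FD.OrbitB
import Crest.Agent.R113.Bes

/-!
Row 113, S0149, task T10 (P1): the Bessel selection for one distance class.  (helper205)
-/

set_option autoImplicit false

namespace Crest.Agent.R113.Orb

open Finset

variable {w : ℕ → ℕ → Bool} {c e : ℕ → ℝ} {g : ℕ → ℕ} {u : ℤ → ℝ} {lev : ℕ → ℤ → ℕ}
  {bad : ℕ → Set ℤ} {q N B J b0 l D K : ℕ}

theorem Pib_mono {b b' : ℕ} (h : b ≤ b') : Pib b ≤ Pib b' := by
  unfold Pib
  apply Nat.pow_le_pow_right (by norm_num)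
  have : b ^ 2 ≤ b' ^ 2 := Nat.pow_le_pow_left h 2
  omega

/-- total variation of the word of block `b` along the orbit -/
theorem word_tv (hO : OrbitData w c e g u lev bad) (hC : OrbitCounts q N B J lev bad) {b : ℕ}
    (hb : 1 ≤ b) (hB : B ≤ b) (hJ : b ≤ J) (hN : 2 * (Pib b * Mb b) ≤ N)
    (hq : 4 ^ b * (Pib b * Mb b) ≤ q) :
    ∑ m ∈ range (q + 2 * (rb b * Mb b)),
      |bv (w b (cell lev b (0 - rb b * Mb b + m + 1))) -
        bv (w b (cell lev b (0 - rb b * Mb b + m)))| ≤ 2 * q / Mb b := by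
  classical
  have hMpos : (0 : ℝ) < Mb b := by exact_mod_cast Mb_pos b
  have hterm : ∀ m : ℤ, |bv (w b (cell lev b (m + 1))) - bv (w b (cell lev b m))| ≤
      if lev b (m + 1) % Mb b = 0 then 1 else 0 := by
    intro m
    split_ifs with hm
    · have h1 := bv_nonneg (w b (cell lev b (m + 1)))
      have h2 := bv_le_one (w b (cell lev b (m + 1)))
      have h3 := bv_nonneg (w b (cell lev b m))
      have h4 := bv_le_one (w b (cell lev b m))
      rw [abs_le]; constructor <;> linarith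
    · have : cell lev b m = cell lev b (m + 1) := by
        by_contra hcon
        obtain ⟨t, ht1, ht2, ht3⟩ := exists_start (steps hO hb) (by omega) hcon
        have : t = m + 1 := by omega
        exact hm (this ▸ ht3)
      rw [this]; simp
  have h1 : ∑ m ∈ range (q + 2 * (rb b * Mb b)),
      |bv (w b (cell lev b (0 - rb b * Mb b + m + 1))) -
        bv (w b (cell lev b (0 - rb b * Mb b + m)))| ≤
      (((Finset.Ico (1 - (rb b * Mb b : ℕ) : ℤ) (1 - (rb b * Mb b : ℕ) + (q + 2 * (rb b * Mb b) : ℕ))).filter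
        (fun m => lev b m % Mb b = 0)).card : ℝ) := by
    calc _ ≤ ∑ m ∈ range (q + 2 * (rb b * Mb b)),
          (if lev b ((0 - rb b * Mb b + m : ℤ) + 1) % Mb b = 0 then (1 : ℝ) else 0) :=
          Finset.sum_le_sum fun m _ => hterm _
      _ = (((range (q + 2 * (rb b * Mb b))).filter
          (fun m : ℕ => lev b ((0 - rb b * Mb b + m : ℤ) + 1) % Mb b = 0)).card : ℝ) := by
          rw [Finset.sum_boole]
      _ ≤ _ := by
          refine Nat.cast_le.2 ?_
          apply Finset.card_le_card_of_injOn (fun m : ℕ => (0 - rb b * Mb b + m : ℤ) + 1)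
          · intro m hm
            simp only [Finset.coe_filter, Set.mem_ofPred_eq, Finset.mem_range, Finset.mem_Ico] at hm ⊢
            refine ⟨?_, hm.2⟩
            push_cast
            constructor
            · omega
            · have := hm.1
              have : (m : ℤ) < ((q + 2 * (rb b * Mb b) : ℕ) : ℤ) := by exact_mod_cast this
              push_cast at this
              linarith
          · intro m _ m' _ hmm
            simp only at hmm
            omega
  have hP1024 : 1024 * (rb b * Mb b) ≤ Pib b * Mb b := by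
    calc 1024 * (rb b * Mb b) = (1024 * rb b) * Mb b := by ring
      _ ≤ _ := Nat.mul_le_mul_right _ (rb_le_Pib b)
  have hrM : 1 ≤ rb b * Mb b := Nat.mul_pos (rb_pos b) (Mb_pos b)
  have h2 := starts_total hO hC hb hB hJ (a0 := (1 - (rb b * Mb b : ℕ) : ℤ))
    (L := q + 2 * (rb b * Mb b)) (by push_cast; push_cast at *; omega)
    (by push_cast; push_cast at *; omega)
  rw [le_div_iff₀ hMpos]
  refine (mul_le_mul_of_nonneg_right h1 hMpos.le).trans (h2.trans ?_)
  obtain ⟨q1, q2⟩ := q_facts hq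
  have h4 : (1 : ℝ) ≤ 4 ^ b := one_le_pow₀ (by norm_num)
  have hM : (0 : ℝ) ≤ Mb b := by positivity
  have h5 : (1024 : ℝ) * Mb b ≤ q := by nlinarith
  have hrM0 : (0 : ℝ) ≤ rb b * Mb b := by positivity
  have h6 : (1024 : ℝ) * (rb b * Mb b) ≤ q := by nlinarith
  have h7 : zb b * q / Pib b ≤ q / 1024 := by
    have hP : (1024 : ℝ) ≤ Pib b := by exact_mod_cast Pib_ge b
    have hz := zb_le_half hb
    have hz0 := zb_pos b
    have hq0 : (0 : ℝ) ≤ q := by positivity
    rw [div_le_div_iff₀ (by positivity) (by norm_num)]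
    nlinarith [mul_nonneg hq0 hz0.le]
  have hq0 : (0 : ℝ) ≤ q := by positivity
  push_cast
  linarith

/-- inner product of the far flux functions of two blocks `b < b'` -/
theorem farPhi_class (hO : OrbitData w c e g u lev bad) (hC : OrbitCounts q N B J lev bad)
    {b b' : ℕ} (hb : 1 ≤ b) (hbb : b < b') (hB : B ≤ b') (hJ : b' ≤ J)
    (hN : 2 * (Pib b' * Mb b') ≤ N) (hq : 4 ^ b' * (Pib b' * Mb b') ≤ q) :
    |∑ m ∈ range q, Bes.farPhi (rb b) (Mb b) (fun x => bv (w b (cell lev b x))) (0 + m) *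
      Bes.farPhi (rb b') (Mb b') (fun x => bv (w b' (cell lev b' x))) (0 + m)| ≤
      q / (4 * 4 ^ b) := by
  have hMpos : (0 : ℝ) < Mb b' := by exact_mod_cast Mb_pos b'
  have h1 := Bes.farPhi_inner (rb b) (Mb b) (rb b') (Mb b')
    (fun x => bv (w b (cell lev b x))) (fun x => bv (w b' (cell lev b' x)))
    (fun _ => bv_nonneg _) (fun _ => bv_le_one _) (fun _ => bv_nonneg _) (fun _ => bv_le_one _)
    0 q (2 * q / Mb b') (word_tv hO hC (by omega) hB hJ hN hq)
  refine h1.trans ?_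
  have hq' : 4 ^ b * (Pib b * Mb b) ≤ q :=
    (Nat.mul_le_mul (Nat.pow_le_pow_right (by norm_num) hbb.le)
      (Nat.mul_le_mul (Pib_mono hbb.le) (Mb_mono hbb.le))).trans hq
  obtain ⟨_, q2⟩ := q_facts hq'
  have h2 : (100 : ℝ) * 4 ^ b * (rb b * Mb b) ≤ Mb b' := by
    have : 100 * 4 ^ b * (rb b * Mb b) ≤ Mb b' := (Mb_succ b).trans (Mb_mono hbb)
    exact_mod_cast this
  have h4 : (0 : ℝ) < 4 ^ b := by positivity
  have hrM0 : (0 : ℝ) ≤ rb b * Mb b := by positivity
  have hq0 : (0 : ℝ) ≤ q := by positivity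
  have e1 : 2 * (rb b : ℝ) * Mb b * (2 + 4 * (2 * q / Mb b')) =
      4 * (rb b * Mb b) + 16 * ((rb b * Mb b) / Mb b') * q := by
    field_simp; ring
  rw [e1]
  have h5 : (rb b * Mb b : ℝ) / Mb b' ≤ 1 / (100 * 4 ^ b) := by
    rw [div_le_div_iff₀ hMpos (by positivity)]
    linarith
  have h6 : 16 * ((rb b * Mb b : ℝ) / Mb b') * q ≤ 16 * (1 / (100 * 4 ^ b)) * q := by
    gcongr
  have h7 : 4 * (rb b * Mb b : ℝ) ≤ q / (256 * 4 ^ b) := by
    rw [le_div_iff₀ (by positivity)]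
    linarith
  have e2 : 16 * (1 / (100 * (4 : ℝ) ^ b)) * q = (16 / 100) * (q / 4 ^ b) := by
    field_simp
  have e3 : (q : ℝ) / (256 * 4 ^ b) = (1 / 256) * (q / 4 ^ b) := by field_simp
  have e4 : (q : ℝ) / (4 * 4 ^ b) = (1 / 4) * (q / 4 ^ b) := by field_simp
  have h8 : (0 : ℝ) ≤ q / 4 ^ b := by positivity
  rw [e4]
  rw [e2] at h6
  rw [e3] at h7
  linarith

theorem three_mul_le_pow (a : ℕ) : 3 * a ≤ 4 ^ a * 3 := by
  have : a < 4 ^ a := Nat.lt_pow_self (by norm_num)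
  omega

/-- (P1): the Bessel selection for one distance class -/
theorem bes_class {w : ℕ → ℕ → Bool} {c e : ℕ → ℝ} {g : ℕ → ℕ} {u : ℤ → ℝ} {lev : ℕ → ℤ → ℕ}
    {bad : ℕ → Set ℤ} {q N B J : ℕ} (hO : OrbitData w c e g u lev bad)
    (hC : OrbitCounts q N B J lev bad) {a : ℕ} (ha : 1 ≤ a) (hB : B ≤ a) (hJ : 4 * a ≤ J)
    (hN : 2 * (Pib (4 * a) * Mb (4 * a)) ≤ N) (hq : 4 ^ (4 * a) * (Pib (4 * a) * Mb (4 * a)) ≤ q)
    (h : Fin q → ℝ) (h0 : ∀ m, 0 ≤ h m) (h1 : ∀ m, h m ≤ 1) :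
    ∃ β, a + 1 ≤ β ∧ β ≤ 4 * a ∧
      ∑ m : Fin q, h m *
        Bes.farPhi (rb β) (Mb β) (fun x => bv (w β (cell lev β x))) ((m : ℕ) : ℤ) ≤
        q * Real.sqrt (5 / (3 * a)) := by
  classical
  have ha0 : (0 : ℝ) < a := by exact_mod_cast ha
  have : Nonempty (Fin (3 * a)) := ⟨⟨0, by omega⟩⟩
  have hN' : ∀ b, b ≤ 4 * a → 2 * (Pib b * Mb b) ≤ N := fun b hb =>
    (Nat.mul_le_mul_left _ (Nat.mul_le_mul (Pib_mono hb) (Mb_mono hb))).trans hN
  have hq' : ∀ b, b ≤ 4 * a → 4 ^ b * (Pib b * Mb b) ≤ q := fun b hb =>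
    (Nat.mul_le_mul (Nat.pow_le_pow_right (by norm_num) hb)
      (Nat.mul_le_mul (Pib_mono hb) (Mb_mono hb))).trans hq
  have hsum : ∀ F : ℤ → ℝ, ∑ m : Fin q, F ((m : ℕ) : ℤ) = ∑ m ∈ range q, F (0 + m) := by
    intro F
    rw [Finset.sum_range]
    simp
  have key : ∀ b b' : ℕ, a + 1 ≤ b → b < b' → b' ≤ 4 * a →
      |∑ m : Fin q, Bes.farPhi (rb b) (Mb b) (fun x => bv (w b (cell lev b x))) ((m : ℕ) : ℤ) *
        Bes.farPhi (rb b') (Mb b') (fun x => bv (w b' (cell lev b' x))) ((m : ℕ) : ℤ)| ≤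
        1 / (3 * a) * q := by
    intro b b' hb hbb hb'
    rw [hsum (fun x => Bes.farPhi (rb b) (Mb b) (fun x => bv (w b (cell lev b x))) x *
        Bes.farPhi (rb b') (Mb b') (fun x => bv (w b' (cell lev b' x))) x)]
    refine (farPhi_class hO hC (by omega) hbb (by omega) (by omega) (hN' b' hb')
      (hq' b' hb')).trans ?_
    have h5 : (3 * a : ℝ) ≤ 4 * 4 ^ b := by
      have h6 : 3 * a ≤ 4 * 4 ^ b := by
        have := three_mul_le_pow b
        omega
      exact_mod_cast h6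
    rw [div_mul_eq_mul_div, one_mul]
    gcongr
  obtain ⟨β, hβ⟩ := Bes.bes (β := Fin (3 * a)) (Finset.univ : Finset (Fin q))
    (fun β m => Bes.farPhi (rb (a + 1 + β)) (Mb (a + 1 + β))
      (fun x => bv (w (a + 1 + β) (cell lev (a + 1 + β) x))) ((m : ℕ) : ℤ))
    (fun β m _ => Bes.farPhi_abs_le _ _ _ (fun _ => bv_nonneg _) (fun _ => bv_le_one _) _)
    (1 / (3 * a)) (by positivity)
    (by
      intro b b' hbb
      rw [Finset.card_univ, Fintype.card_fin]
      have hb1 := b.2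
      have hb2 := b'.2
      rcases lt_or_gt_of_ne (Fin.val_ne_of_ne hbb) with hlt | hlt
      · exact key _ _ (by omega) (by omega) (by omega)
      · have := key (a + 1 + b') (a + 1 + b) (by omega) (by omega) (by omega)
        simpa only [mul_comm] using this)
    h (fun m _ => h0 m) (fun m _ => h1 m)
  refine ⟨a + 1 + β, by omega, by have := β.2; omega, ?_⟩
  rw [Finset.card_univ, Fintype.card_fin, Fintype.card_fin] at hβ
  refine hβ.trans (le_of_eq ?_)
  congr 2
  push_cast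
  field_simp
  norm_num

end Crest.Agent.R113.Orb
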