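import Crest.Agent.R113.FD.OffBase
import Crest.Agent.R113.Bes

/-!
Row 113, S0149, task T10 (P3): far flux of a block against `Bes.farPhi`. (helper292)
-/

set_option autoImplicit false

namespace Crest.Agent.R113.Orb

open Finset

variable {w : ℕ → ℕ → Bool} {c e : ℕ → ℝ} {g : ℕ → ℕ} {u : ℤ → ℝ} {lev : ℕ → ℤ → ℕ}
  {bad : ℕ → Set ℤ} {q N B J b0 l D K : ℕ}

theorem farPhi_eq_good (hO : OrbitData w c e g u lev bad) {b k : ℕ} (hb : 1 ≤ b) (hk : k ≤ rb b)
    {m : ℤ} (hm : m ∉ bad b) :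
    farPhi w lev b k m = 2 * bv (w b (cell lev b m)) - bv (w b (cell lev b (m + k * Mb b))) -
      bv (w b (cell lev b (m - k * Mb b))) := by
  have hM := Mb_pos b
  have h1 := level_big hO hb hm hk
  have h2 : k * Mb b ≤ 2 * Pib b * Mb b := by
    have := rb_le_Pib b
    exact Nat.mul_le_mul_right _ (by omega)
  have h3 := hO.run b hb m hm (k * Mb b) h2
  have h4 := lev_sub (steps hO hb) m (k * Mb b) h1
  have h5 : cell lev b (m + k * Mb b) = cell lev b m + k := by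
    unfold cell
    have : m + (k : ℤ) * (Mb b : ℤ) = m + ((k * Mb b : ℕ) : ℤ) := by push_cast; ring
    rw [this, h3]
    exact Nat.add_mul_div_right _ _ hM
  have h6 : cell lev b (m - k * Mb b) = cell lev b m - k := by
    unfold cell
    have : m - (k : ℤ) * (Mb b : ℤ) = m - ((k * Mb b : ℕ) : ℤ) := by push_cast; ring
    rw [this, h4, mul_comm k, Nat.sub_mul_div]
  rw [h5, h6]
  unfold farPhi
  exact far_phi (steps hO hb) k m h1

open Classical in
theorem far_flux_le' (hO : OrbitData w c e g u lev bad) {b : ℕ} (hb : 1 ≤ b) (h : Fin q → ℝ)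
    (h0 : ∀ m, 0 ≤ h m) (h1 : ∀ m, h m ≤ 1) :
    (1 / (rb b : ℝ)) * ∑ k ∈ Finset.Icc 1 (rb b), (flux h (far w lev b k true) (k * Mb b) +
      flux h (far w lev b k false) (k * Mb b)) ≤
      (∑ m : Fin q, h m * Bes.farPhi (rb b) (Mb b) (fun x => bv (w b (cell lev b x)))
        ((m : ℕ) : ℤ)) +
      4 * (((univ : Finset (Fin q)).filter (fun m : Fin q => ((m : ℕ) : ℤ) ∈ bad b)).card : ℝ) := by
  rw [far_flux_sum]
  have key := sum_bad (q := q) (fun m : Fin q => ((m : ℕ) : ℤ) ∈ bad b)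
    (fun m => h m * ((1 / (rb b : ℝ)) * ∑ k ∈ Finset.Icc 1 (rb b), farPhi w lev b k ((m : ℕ) : ℤ))
      - h m * Bes.farPhi (rb b) (Mb b) (fun x => bv (w b (cell lev b x))) ((m : ℕ) : ℤ))
    0 4 le_rfl ?_ ?_
  · rw [Finset.sum_sub_distrib] at key
    linarith
  · intro m hm
    have : (1 / (rb b : ℝ)) * ∑ k ∈ Finset.Icc 1 (rb b), farPhi w lev b k ((m : ℕ) : ℤ) =
        Bes.farPhi (rb b) (Mb b) (fun x => bv (w b (cell lev b x))) ((m : ℕ) : ℤ) := by
      unfold Bes.farPhi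
      congr 1
      refine Finset.sum_congr rfl fun k hk => ?_
      exact farPhi_eq_good hO hb (Finset.mem_Icc.1 hk).2 hm
    rw [this, sub_self]
  · intro m _
    have e1 := farPhi_avg_abs (w := w) (lev := lev) (b0 := b) (K := rb b) ((m : ℕ) : ℤ)
    have e2 := Bes.farPhi_abs_le (rb b) (Mb b) (fun x => bv (w b (cell lev b x)))
      (fun _ => bv_nonneg _) (fun _ => bv_le_one _) ((m : ℕ) : ℤ)
    rw [abs_le] at e1 e2
    rw [← mul_sub]
    have e4 : (1 / (rb b : ℝ)) * ∑ k ∈ Finset.Icc 1 (rb b), farPhi w lev b k ((m : ℕ) : ℤ) -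
      Bes.farPhi (rb b) (Mb b) (fun x => bv (w b (cell lev b x))) ((m : ℕ) : ℤ) ≤ 4 := by
      linarith [e1.1, e1.2, e2.1, e2.2]
    calc _ ≤ h m * 4 := mul_le_mul_of_nonneg_left e4 (h0 m)
      _ ≤ 1 * 4 := mul_le_mul_of_nonneg_right (h1 m) (by positivity)
      _ = 4 := one_mul _

end Crest.Agent.R113.Orb
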