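import Crest.Agent.R113.FD.OrbitB

/-!
Row 113, S0149, task T10 (P2): the separation lemma for the cells.  (helper600)
-/

set_option autoImplicit false

namespace Crest.Agent.R113.Orb

open Finset

variable {w : ℕ → ℕ → Bool} {c e : ℕ → ℝ} {g : ℕ → ℕ} {u : ℤ → ℝ} {lev : ℕ → ℤ → ℕ}
  {bad : ℕ → Set ℤ} {q N B J b0 l D K : ℕ}

/-- number of the ordered separations of `m, m'` by `A` -/
noncomputable def sepN (A : Set ℤ) (m m' : ℤ) : ℝ :=
  ind A m * (1 - ind A m') + (1 - ind A m) * ind A m'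

theorem sepN_nonneg (A : Set ℤ) (m m' : ℤ) : 0 ≤ sepN A m m' := by
  unfold sepN
  have h1 := ind_nonneg A m
  have h2 := ind_nonneg A m'
  have h3 := ind_le_one A m
  have h4 := ind_le_one A m'
  have h5 := mul_nonneg h1 (sub_nonneg.2 h4)
  have h6 := mul_nonneg (sub_nonneg.2 h3) h2
  linarith

theorem sepN_of_ne {A : Set ℤ} {m m' : ℤ} (h : ¬ (m ∈ A ↔ m' ∈ A)) : sepN A m m' = 1 := by
  unfold sepN
  by_cases h1 : m ∈ A
  · have h2 : m' ∉ A := fun h2 => h ⟨fun _ => h2, fun _ => h1⟩
    rw [ind_of_mem h1, ind_of_not_mem h2]; norm_num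
  · have h2 : m' ∈ A := by
      by_contra h2
      exact h ⟨fun h3 => absurd h3 h1, fun h3 => absurd h3 h2⟩
    rw [ind_of_not_mem h1, ind_of_mem h2]; norm_num

/-- the sum of the separations against a symmetric mass is twice the cut -/
theorem sum_sepN {μ : Fin q → Fin q → ℝ} {h : Fin q → ℝ} (hμ : Mass μ h) (A : Set ℤ) :
    ∑ m : Fin q, ∑ m' : Fin q, sepN A ((m : ℕ) : ℤ) ((m' : ℕ) : ℤ) * μ m m' = 2 * cutM μ A := by
  classical
  have h1 : ∑ m : Fin q, ∑ m' : Fin q,
      ind A ((m : ℕ) : ℤ) * (1 - ind A ((m' : ℕ) : ℤ)) * μ m m' = cutM μ A := by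
    unfold cutM
    refine Finset.sum_congr rfl fun m _ => Finset.sum_congr rfl fun m' _ => ?_
    by_cases hm : ((m : ℕ) : ℤ) ∈ A <;> by_cases hm' : ((m' : ℕ) : ℤ) ∈ A
    · rw [if_neg (by tauto), ind_of_mem hm, ind_of_mem hm']; ring
    · rw [if_pos ⟨hm, hm'⟩, ind_of_mem hm, ind_of_not_mem hm']; ring
    · rw [if_neg (by tauto), ind_of_not_mem hm]; ring
    · rw [if_neg (by tauto), ind_of_not_mem hm]; ring
  have h2 : ∑ m : Fin q, ∑ m' : Fin q,
      (1 - ind A ((m : ℕ) : ℤ)) * ind A ((m' : ℕ) : ℤ) * μ m m' = cutM μ A := by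
    rw [Finset.sum_comm, ← h1]
    refine Finset.sum_congr rfl fun m _ => Finset.sum_congr rfl fun m' _ => ?_
    rw [hμ.symm m' m]; ring
  have h3 : ∑ m : Fin q, ∑ m' : Fin q, sepN A ((m : ℕ) : ℤ) ((m' : ℕ) : ℤ) * μ m m' =
      ∑ m : Fin q, ∑ m' : Fin q,
        ind A ((m : ℕ) : ℤ) * (1 - ind A ((m' : ℕ) : ℤ)) * μ m m' +
      ∑ m : Fin q, ∑ m' : Fin q,
        (1 - ind A ((m : ℕ) : ℤ)) * ind A ((m' : ℕ) : ℤ) * μ m m' := by
    rw [← Finset.sum_add_distrib]
    refine Finset.sum_congr rfl fun m _ => ?_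
    rw [← Finset.sum_add_distrib]
    refine Finset.sum_congr rfl fun m' _ => ?_
    unfold sepN
    ring
  rw [h3, h1, h2]; ring

/-- the two far sets number `k` separate two cells if exactly one of `ε(a) = ε(a')`,
`ε(a+k) = ε(a'+k)` holds -/
theorem far_sep (b k : ℕ) (m m' : ℤ)
    (h : (w b (cell lev b m) = w b (cell lev b m') ∧
        w b (cell lev b m + k) ≠ w b (cell lev b m' + k)) ∨
      (w b (cell lev b m) ≠ w b (cell lev b m') ∧
        w b (cell lev b m + k) = w b (cell lev b m' + k))) :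
    1 ≤ sepN (far w lev b k true) m m' + sepN (far w lev b k false) m m' := by
  have key : ¬ (m ∈ far w lev b k true ↔ m' ∈ far w lev b k true) ∨
      ¬ (m ∈ far w lev b k false ↔ m' ∈ far w lev b k false) := by
    rw [mem_far_true, mem_far_true, mem_far_false, mem_far_false]
    revert h
    generalize w b (cell lev b m) = x
    generalize w b (cell lev b m') = x'
    generalize w b (cell lev b m + k) = y
    generalize w b (cell lev b m' + k) = y'
    revert x x' y y'
    decide
  have h1 := sepN_nonneg (far w lev b k true) m m'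
  have h2 := sepN_nonneg (far w lev b k false) m m'
  rcases key with h3 | h3
  · rw [sepN_of_ne h3]; linarith
  · rw [sepN_of_ne h3]; linarith

/-- two cells, different modulo `Π`, are separated by at least `r/64` of the far sets -/
theorem far_sep_count (hw : IsWords w) {b : ℕ} (hb : 1 ≤ b) (m m' : ℤ)
    (h : ¬ cell lev b m ≡ cell lev b m' [MOD Pib b]) :
    (rb b : ℝ) ≤ 64 * ∑ k ∈ Finset.Icc 1 (rb b),
      (sepN (far w lev b k true) m m' + sepN (far w lev b k false) m m') := by
  classical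
  have h' : ¬ cell lev b m + 1 ≡ cell lev b m' + 1 [MOD Pib b] :=
    fun h1 => h (Nat.ModEq.add_right_cancel' 1 h1)
  -- the good indices
  have key : ∀ (P : ℕ → Prop) [DecidablePred P],
      rb b ≤ 64 * ((Finset.range (rb b)).filter P).card →
      (∀ t, P t → 1 ≤ sepN (far w lev b (t + 1) true) m m' +
        sepN (far w lev b (t + 1) false) m m') →
      (rb b : ℝ) ≤ 64 * ∑ k ∈ Finset.Icc 1 (rb b),
        (sepN (far w lev b k true) m m' + sepN (far w lev b k false) m m') := by
    intro P _ hc hP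
    have e1 : ∑ k ∈ Finset.Icc 1 (rb b),
        (sepN (far w lev b k true) m m' + sepN (far w lev b k false) m m') =
        ∑ t ∈ Finset.range (rb b),
        (sepN (far w lev b (t + 1) true) m m' + sepN (far w lev b (t + 1) false) m m') := by
      rw [Finset.range_eq_Ico, Finset.sum_Ico_add' (fun k =>
        (sepN (far w lev b k true) m m' + sepN (far w lev b k false) m m')) 0 (rb b) 1]
      rfl
    rw [e1]
    have e2 : (((Finset.range (rb b)).filter P).card : ℝ) ≤ ∑ t ∈ Finset.range (rb b),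
        (sepN (far w lev b (t + 1) true) m m' + sepN (far w lev b (t + 1) false) m m') := by
      rw [Finset.card_eq_sum_ones, Nat.cast_sum, Finset.sum_filter]
      refine Finset.sum_le_sum fun t _ => ?_
      by_cases ht : P t
      · rw [if_pos ht, Nat.cast_one]; exact hP t ht
      · rw [if_neg ht]
        exact add_nonneg (sepN_nonneg _ _ _) (sepN_nonneg _ _ _)
    have e3 : (rb b : ℝ) ≤ 64 * (((Finset.range (rb b)).filter P).card : ℝ) := by
      exact_mod_cast hc
    linarith
  have comm1 : ∀ a t : ℕ, a + 1 + t = a + (t + 1) := fun a t => by ring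
  by_cases he : w b (cell lev b m) = w b (cell lev b m')
  · refine key _ (hw.sep_ne b hb _ _ h') fun t ht => far_sep b (t + 1) m m' (Or.inl ⟨he, ?_⟩)
    rwa [comm1, comm1] at ht
  · refine key _ (hw.sep_eq b hb _ _ h') fun t ht => far_sep b (t + 1) m m' (Or.inr ⟨he, ?_⟩)
    rwa [comm1, comm1] at ht

/-- (P2) the separation lemma -/
theorem sep_mass (hw : IsWords w) {b : ℕ} (hb : 1 ≤ b) {μ : Fin q → Fin q → ℝ} {h : Fin q → ℝ}
    (hμ : Mass μ h) (R : Fin q → Fin q → Prop) [∀ m m', Decidable (R m m')]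
    (hR : ∀ m m', R m m' → ¬ cell lev b ((m : ℕ) : ℤ) ≡ cell lev b ((m' : ℕ) : ℤ) [MOD Pib b]) :
    (rb b : ℝ) * ∑ m, ∑ m', (if R m m' then μ m m' else 0) ≤
      128 * ∑ k ∈ Finset.Icc 1 (rb b),
        (cutM μ (far w lev b k true) + cutM μ (far w lev b k false)) := by
  have e1 : 128 * ∑ k ∈ Finset.Icc 1 (rb b),
        (cutM μ (far w lev b k true) + cutM μ (far w lev b k false)) =
      ∑ m : Fin q, ∑ m' : Fin q, (64 * ∑ k ∈ Finset.Icc 1 (rb b),
        (sepN (far w lev b k true) ((m : ℕ) : ℤ) ((m' : ℕ) : ℤ) +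
          sepN (far w lev b k false) ((m : ℕ) : ℤ) ((m' : ℕ) : ℤ))) * μ m m' := by
    have e2 : ∀ k, 128 * (cutM μ (far w lev b k true) + cutM μ (far w lev b k false)) =
        ∑ m : Fin q, ∑ m' : Fin q, (64 *
        (sepN (far w lev b k true) ((m : ℕ) : ℤ) ((m' : ℕ) : ℤ) +
          sepN (far w lev b k false) ((m : ℕ) : ℤ) ((m' : ℕ) : ℤ))) * μ m m' := by
      intro k
      have e3 := sum_sepN hμ (far w lev b k true)
      have e4 := sum_sepN hμ (far w lev b k false)
      have e5 : (128 : ℝ) * (cutM μ (far w lev b k true) + cutM μ (far w lev b k false)) =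
        64 * (2 * cutM μ (far w lev b k true)) + 64 * (2 * cutM μ (far w lev b k false)) := by ring
      rw [e5, ← e3, ← e4, Finset.mul_sum, Finset.mul_sum, ← Finset.sum_add_distrib]
      refine Finset.sum_congr rfl fun m _ => ?_
      rw [Finset.mul_sum, Finset.mul_sum, ← Finset.sum_add_distrib]
      refine Finset.sum_congr rfl fun m' _ => ?_
      ring
    rw [Finset.mul_sum, Finset.sum_congr rfl fun k _ => e2 k, Finset.sum_comm]
    refine Finset.sum_congr rfl fun m _ => ?_
    rw [Finset.sum_comm]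
    refine Finset.sum_congr rfl fun m' _ => ?_
    rw [Finset.mul_sum, Finset.sum_mul]
  rw [e1, Finset.mul_sum]
  refine Finset.sum_le_sum fun m _ => ?_
  rw [Finset.mul_sum]
  refine Finset.sum_le_sum fun m' _ => ?_
  by_cases hRm : R m m'
  · rw [if_pos hRm]
    exact mul_le_mul_of_nonneg_right (far_sep_count hw hb _ _ (hR m m' hRm)) (hμ.nonneg m m')
  · rw [if_neg hRm, mul_zero]
    refine mul_nonneg (mul_nonneg (by norm_num) (Finset.sum_nonneg fun k _ => ?_)) (hμ.nonneg m m')
    exact add_nonneg (sepN_nonneg _ _ _) (sepN_nonneg _ _ _)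

end Crest.Agent.R113.Orb
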