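import Crest.Agent.R113.FD.OffA
import Crest.Agent.R113.FD.OffBes
import Crest.Agent.R113.FD.OffSep
import Crest.Agent.R113.FD.OffFarB

/-!
Row 113, S0149, task T10: the Off bound. (helper292)
-/

set_option autoImplicit false

namespace Crest.Agent.R113.Orb

open Finset

variable {w : ℕ → ℕ → Bool} {c e : ℕ → ℝ} {g : ℕ → ℕ} {u : ℤ → ℝ} {lev : ℕ → ℤ → ℕ}
  {bad : ℕ → Set ℤ} {q N B J b0 l D K : ℕ}

/-- far flux of a block, averaged -/
noncomputable def farFlux (w : ℕ → ℕ → Bool) (lev : ℕ → ℤ → ℕ) {q : ℕ} (h : Fin q → ℝ)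
    (b r : ℕ) : ℝ :=
  ∑ k ∈ Finset.Icc 1 r, (flux h (far w lev b k true) (k * Mb b) +
    flux h (far w lev b k false) (k * Mb b))

open Classical in
/-- the pairs in incongruent cells of block `b` -/
theorem blk_le (hw : IsWords w) {b : ℕ} (hb : 1 ≤ b) {μ : Fin q → Fin q → ℝ} {h : Fin q → ℝ}
    (hμ : Mass μ h) {E : ℝ}
    (hfar : ∀ k, 1 ≤ k → k ≤ rb b → ∀ s,
      cutM μ (far w lev b k s) ≤ flux h (far w lev b k s) (k * Mb b) + E) :
    ∑ m : Fin q, ∑ m' : Fin q, (if ¬ cell lev b ((m : ℕ) : ℤ) ≡ cell lev b ((m' : ℕ) : ℤ)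
      [MOD Pib b] then μ m m' else 0) ≤
      128 * ((1 / (rb b : ℝ)) * farFlux w lev h b (rb b) + 2 * E) := by
  have hr : (0 : ℝ) < rb b := by exact_mod_cast rb_pos b
  have h1 := sep_mass (w := w) (lev := lev) hw hb hμ
    (fun m m' => ¬ cell lev b ((m : ℕ) : ℤ) ≡ cell lev b ((m' : ℕ) : ℤ) [MOD Pib b])
    (fun _ _ h => h)
  have h2 : ∑ k ∈ Finset.Icc 1 (rb b), (cutM μ (far w lev b k true) + cutM μ (far w lev b k false))
      ≤ farFlux w lev h b (rb b) + rb b * (2 * E) := by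
    unfold farFlux
    calc _ ≤ ∑ k ∈ Finset.Icc 1 (rb b), ((flux h (far w lev b k true) (k * Mb b) +
        flux h (far w lev b k false) (k * Mb b)) + 2 * E) := by
          refine Finset.sum_le_sum fun k hk => ?_
          have hk' := Finset.mem_Icc.1 hk
          have a1 := hfar k hk'.1 hk'.2 true
          have a2 := hfar k hk'.1 hk'.2 false
          linarith
      _ = _ := by
          rw [Finset.sum_add_distrib, Finset.sum_const, Nat.card_Icc, nsmul_eq_mul]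
          simp
  have h3 : (rb b : ℝ) * (∑ m : Fin q, ∑ m' : Fin q, (if ¬ cell lev b ((m : ℕ) : ℤ) ≡
      cell lev b ((m' : ℕ) : ℤ) [MOD Pib b] then μ m m' else 0)) ≤
      rb b * (128 * ((1 / (rb b : ℝ)) * farFlux w lev h b (rb b) + 2 * E)) := by
    refine h1.trans ?_
    have : (rb b : ℝ) * (128 * ((1 / (rb b : ℝ)) * farFlux w lev h b (rb b) + 2 * E)) =
        128 * (farFlux w lev h b (rb b) + rb b * (2 * E)) := by
      field_simp
    rw [this]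
    linarith
  exact le_of_mul_le_mul_left h3 hr

open Classical in
/-- one far class -/
theorem class_le (hw : IsWords w) (hO : OrbitData w c e g u lev bad)
    (hC : OrbitCounts q N B J lev bad) {b : ℕ} (hb : 1 ≤ b) (hB : B ≤ b) (hJ : b ≤ J)
    {μ : Fin q → Fin q → ℝ} {h : Fin q → ℝ}
    (hμ : Mass μ h) {E : ℝ}
    (hfar : ∀ k, 1 ≤ k → k ≤ rb b → ∀ s,
      cutM μ (far w lev b k s) ≤ flux h (far w lev b k s) (k * Mb b) + E) {Φ : ℝ}
    (hΦ : ∑ m : Fin q, h m * Bes.farPhi (rb b) (Mb b) (fun x => bv (w b (cell lev b x)))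
      ((m : ℕ) : ℤ) ≤ Φ) :
    ∑ m : Fin q, ∑ m' : Fin q, (if ¬ cell lev b ((m : ℕ) : ℤ) ≡ cell lev b ((m' : ℕ) : ℤ)
      [MOD Pib b] then μ m m' else 0) ≤ 128 * (Φ + 4 * zb b * q + 2 * E) := by
  have h1 := blk_le (lev := lev) hw hb hμ hfar
  have h2 := far_flux_le' (w := w) hO hb h hμ.h_nonneg hμ.le_one
  have h3 := count_bad' hC hB hJ
  refine h1.trans ?_
  have h4 : (1 / (rb b : ℝ)) * farFlux w lev h b (rb b) ≤ Φ + 4 * zb b * q := by
    refine h2.trans ?_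
    linarith
  linarith

theorem pow_lin (b0 i : ℕ) (hb : 1 ≤ b0) : b0 + i ≤ 4 ^ i * b0 := by
  induction i with
  | zero => simp
  | succ i ih =>
    have : 4 ^ (i + 1) * b0 = 4 * (4 ^ i * b0) := by ring
    omega

/-- classification of pairs in different windows -/
theorem classify (hO : OrbitData w c e g u lev bad) (hb : 1 ≤ b0) (hlD : D * l = Mb b0)
    (β : ℕ → ℕ) {J' : ℕ} (hβ1 : ∀ i < J', 4 ^ i * b0 + 1 ≤ β i)
    (hβ2 : ∀ i < J', β i ≤ 4 ^ (i + 1) * b0) {m m' : ℤ}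
    (hw : win lev b0 l m ≠ win lev b0 l m') :
    pw lev b0 l m ≠ pw lev b0 l m' ∨
    ((m ∈ bad b0 ∨ m' ∈ bad b0) ∨ ¬ cell lev b0 m ≡ cell lev b0 m' [MOD Pib b0]) ∨
    (∃ i < J', (m ∈ bad (β i) ∨ m' ∈ bad (β i)) ∨
      ¬ cell lev (β i) m ≡ cell lev (β i) m' [MOD Pib (β i)]) ∨
    2 * (Mb (4 ^ (J' + 1) * b0) : ℤ) < |m - m'| := by
  rcases le_total m m' with h | h
  · rcases classify_aux hO hb hlD β hβ1 hβ2 h hw with h1 | (h1 | h1) | ⟨i, hi, h1 | h1⟩ | h1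
    · exact Or.inl h1
    · exact Or.inr (Or.inl (Or.inl (Or.inl h1)))
    · exact Or.inr (Or.inl (Or.inr h1))
    · exact Or.inr (Or.inr (Or.inl ⟨i, hi, Or.inl (Or.inl h1)⟩))
    · exact Or.inr (Or.inr (Or.inl ⟨i, hi, Or.inr h1⟩))
    · refine Or.inr (Or.inr (Or.inr ?_))
      rw [abs_sub_comm]
      exact lt_of_lt_of_le h1 (le_abs_self _)
  · rcases classify_aux hO hb hlD β hβ1 hβ2 h hw.symm with h1 | (h1 | h1) | ⟨i, hi, h1 | h1⟩ | h1
    · exact Or.inl h1.symm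
    · exact Or.inr (Or.inl (Or.inl (Or.inr h1)))
    · exact Or.inr (Or.inl (Or.inr fun h' => h1 h'.symm))
    · exact Or.inr (Or.inr (Or.inl ⟨i, hi, Or.inl (Or.inr h1)⟩))
    · exact Or.inr (Or.inr (Or.inl ⟨i, hi, Or.inr fun h' => h1 h'.symm⟩))
    · exact Or.inr (Or.inr (Or.inr (lt_of_lt_of_le h1 (le_abs_self _))))

set_option maxHeartbeats 1000000 in
open Classical in
/-- the Off bound; blocks up to `4^J' b0` are used -/
theorem off_le (hw : IsWords w) (hO : OrbitData w c e g u lev bad)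
    (hC : OrbitCounts q N B J lev bad)
    {J' : ℕ} (hb : 1 ≤ b0) (hB : B ≤ b0) (hJ : 4 ^ J' * b0 ≤ J)
    (hN : 2 * (Pib (4 ^ J' * b0) * Mb (4 ^ J' * b0)) ≤ N)
    (hq : 4 ^ (4 ^ J' * b0) * (Pib (4 ^ J' * b0) * Mb (4 ^ J' * b0)) ≤ q)
    (hl : 0 < l) (hlD : D * l = Mb b0) (hK1 : 1 ≤ K) (hK : K ≤ rb b0)
    (μ : Fin q → Fin q → ℝ) (h : Fin q → ℝ) (hμ : Mass μ h) (ωb tl E0 : ℝ) (hE0 : 0 ≤ E0)
    (hnear : ∀ j : BIdx D K, cutM μ (bset w lev b0 l D K j) ≤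
      flux h (bset w lev b0 l D K j) (bshift b0 l D K j) + E0 * zb b0 * q)
    (hfar : ∀ b, b0 ≤ b → b ≤ 4 ^ J' * b0 → ∀ k, 1 ≤ k → k ≤ rb b → ∀ s,
      cutM μ (far w lev b k s) ≤ flux h (far w lev b k s) (k * Mb b) + E0 * zb b * q)
    (hbase : ∑ j : BIdx D K, bcoef D K j * flux h (bset w lev b0 l D K j) (bshift b0 l D K j)
      ≤ ωb * q)
    (htail : ∑ m : Fin q, ∑ m' : Fin q,
      (if 2 * (Mb (4 ^ (J' + 1) * b0) : ℤ) < |((m : ℕ) : ℤ) - ((m' : ℕ) : ℤ)| then μ m m' else 0) ≤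
        tl * q) :
    ∑ m : Fin q, ∑ m' : Fin q,
      (if win lev b0 l ((m : ℕ) : ℤ) = win lev b0 l ((m' : ℕ) : ℤ) then 0 else μ m m') ≤
      (130 * ωb + 512 / K + 400 / Real.sqrt b0 + (130 * (D + 1) * E0 + 256 * E0 + 1100) *
        zb b0 + tl) * q := by
  have hq0 : (0 : ℝ) ≤ q := by positivity
  have hz := zb_pos b0
  have hKr : (0 : ℝ) < K := by exact_mod_cast hK1
  have hb0J : b0 ≤ 4 ^ J' * b0 := Nat.le_mul_of_pos_left _ (by positivity)
  have hJ0 : b0 ≤ J := hb0J.trans hJ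
  have hmu := hμ.nonneg
  have cut_nonneg : ∀ A : Set ℤ, 0 ≤ cutM μ A := by
    intro A
    unfold cutM
    refine Finset.sum_nonneg fun m _ => Finset.sum_nonneg fun m' _ => ?_
    split_ifs
    · exact hmu _ _
    · exact le_rfl
  -- split of the base flux
  set FK := farFlux w lev h b0 K with hFK
  set FN := ∑ i : Fin (D - 1), flux h (near lev b0 l D ((i : ℕ) + 1)) (((i : ℕ) + 1) * l) with hFN
  have hsplit : FN + (1 / (K : ℝ)) * FK ≤ ωb * q := by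
    refine le_trans (le_of_eq ?_) hbase
    rw [sum_bidx, hFN, hFK]
    congr 1
    · refine Finset.sum_congr rfl fun i _ => ?_
      simp [bcoef, bset, bshift]
    · unfold farFlux
      rw [sum_Icc_eq_fin K (fun k => flux h (far w lev b0 k true) (k * Mb b0) +
        flux h (far w lev b0 k false) (k * Mb b0)), Finset.mul_sum]
      refine Finset.sum_congr rfl fun k _ => ?_
      simp only [bcoef, bset, bshift]
      ring
  have hE : 0 ≤ E0 * zb b0 * q := by positivity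
  -- near fluxes are bounded below
  have hFNlow : -((D : ℝ) - 1) * (E0 * zb b0 * q) ≤ FN := by
    have h1 : ∑ _i : Fin (D - 1), -(E0 * zb b0 * q) ≤ FN := by
      rw [hFN]
      refine Finset.sum_le_sum fun i _ => ?_
      have := hnear (Sum.inl i)
      have h2 := cut_nonneg (bset w lev b0 l D K (Sum.inl i))
      simp only [bset, bshift] at this h2
      linarith
    rw [Finset.sum_const, Finset.card_univ, Fintype.card_fin, nsmul_eq_mul,
      Nat.cast_sub (D_pos hlD)] at h1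
    push_cast at h1
    linarith
  have hFKlow : -(2 : ℝ) * (E0 * zb b0 * q) ≤ (1 / (K : ℝ)) * FK := by
    have h1 : ∑ _k ∈ Finset.Icc 1 K, -(2 * (E0 * zb b0 * q)) ≤ FK := by
      rw [hFK]
      unfold farFlux
      refine Finset.sum_le_sum fun k hk => ?_
      have hk' := Finset.mem_Icc.1 hk
      have a1 := hfar b0 le_rfl hb0J k hk'.1 (hk'.2.trans hK) true
      have a2 := hfar b0 le_rfl hb0J k hk'.1 (hk'.2.trans hK) false
      have c1 := cut_nonneg (far w lev b0 k true)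
      have c2 := cut_nonneg (far w lev b0 k false)
      linarith
    rw [Finset.sum_const, Nat.card_Icc, nsmul_eq_mul, Nat.add_sub_cancel] at h1
    rw [one_div, le_inv_mul_iff₀ hKr]
    linarith
  -- (near)
  have hNear : ∑ m : Fin q, ∑ m' : Fin q,
      (if pw lev b0 l ((m : ℕ) : ℤ) ≠ pw lev b0 l ((m' : ℕ) : ℤ) then μ m m' else 0) ≤
      2 * (ωb * q + (D + 1) * (E0 * zb b0 * q)) := by
    refine (near_mass hμ hlD).trans ?_
    have h1 : ∑ i : Fin (D - 1), cutM μ (near lev b0 l D ((i : ℕ) + 1)) ≤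
        FN + (D - 1) * (E0 * zb b0 * q) := by
      have h2 : ∑ i : Fin (D - 1), cutM μ (near lev b0 l D ((i : ℕ) + 1)) ≤
          ∑ i : Fin (D - 1), (flux h (near lev b0 l D ((i : ℕ) + 1)) (((i : ℕ) + 1) * l) +
            E0 * zb b0 * q) := Finset.sum_le_sum fun i _ => hnear (Sum.inl i)
      refine h2.trans (le_of_eq ?_)
      rw [Finset.sum_add_distrib, Finset.sum_const, Finset.card_univ, Fintype.card_fin,
        nsmul_eq_mul, Nat.cast_sub (D_pos hlD), hFN]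
      push_cast
      ring
    linarith
  -- (base far)
  have hBase : ∑ m : Fin q, ∑ m' : Fin q, (if ¬ cell lev b0 ((m : ℕ) : ℤ) ≡
      cell lev b0 ((m' : ℕ) : ℤ) [MOD Pib b0] then μ m m' else 0) ≤
      128 * (ωb * q + (D + 1) * (E0 * zb b0 * q) + 4 / K * q + 4 * zb b0 * q) := by
    refine (blk_le (lev := lev) hw hb hμ (hfar b0 le_rfl hb0J)).trans ?_
    have h1 := base_far_compare (K := K) hw hO hb hK1 hK h hμ.h_nonneg hμ.le_one
    have h2 := count_bad' hC hB hJ0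
    have h3 : (1 / (rb b0 : ℝ)) * farFlux w lev h b0 (rb b0) ≤
        (1 / (K : ℝ)) * FK + 4 / K * q + 4 * (zb b0 * q) := by
      refine h1.trans ?_
      rw [hFK]
      unfold farFlux
      linarith
    linarith
  have hBad0 : ∑ m : Fin q, ∑ m' : Fin q, (if ((m : ℕ) : ℤ) ∈ bad b0 ∨ ((m' : ℕ) : ℤ) ∈ bad b0
      then μ m m' else 0) ≤ 2 * (zb b0 * q) := by
    refine (mass_either hμ (fun m : Fin q => ((m : ℕ) : ℤ) ∈ bad b0)).trans ?_
    have := count_bad' hC hB hJ0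
    linarith
  -- the classes
  have hcls : ∀ i : ℕ, ∃ β : ℕ, i < J' → (4 ^ i * b0 + 1 ≤ β ∧ β ≤ 4 ^ (i + 1) * b0 ∧
      ∑ m : Fin q, h m * Bes.farPhi (rb β) (Mb β) (fun x => bv (w β (cell lev β x)))
        ((m : ℕ) : ℤ) ≤ q * Real.sqrt (5 / (3 * (4 ^ i * b0 : ℕ)))) := by
    intro i
    by_cases hi : i < J'
    · have hpow : 4 * (4 ^ i * b0) ≤ 4 ^ J' * b0 := by
        have : 4 ^ (i + 1) ≤ 4 ^ J' := Nat.pow_le_pow_right (by norm_num) hi
        calc 4 * (4 ^ i * b0) = 4 ^ (i + 1) * b0 := by ring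
          _ ≤ _ := Nat.mul_le_mul_right _ this
      have hb0i : b0 ≤ 4 ^ i * b0 := Nat.le_mul_of_pos_left _ (by positivity)
      have hmono : Pib (4 * (4 ^ i * b0)) * Mb (4 * (4 ^ i * b0)) ≤
          Pib (4 ^ J' * b0) * Mb (4 ^ J' * b0) := by
        apply Nat.mul_le_mul
        · unfold Pib
          apply Nat.pow_le_pow_right (by norm_num)
          have := Nat.pow_le_pow_left hpow 2
          omega
        · exact Mb_mono hpow
      obtain ⟨β, h1, h2, h3⟩ := bes_class (w := w) hO hC (a := 4 ^ i * b0) (by omega) (by omega)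
        (by omega) ((Nat.mul_le_mul_left _ hmono).trans hN)
        (le_trans (Nat.mul_le_mul (Nat.pow_le_pow_right (by norm_num) hpow) hmono) hq)
        h hμ.h_nonneg hμ.le_one
      refine ⟨β, fun _ => ⟨h1, ?_, h3⟩⟩
      calc β ≤ 4 * (4 ^ i * b0) := h2
        _ = 4 ^ (i + 1) * b0 := by ring
    · exact ⟨0, fun h => absurd h hi⟩
  choose β hβ using hcls
  have hClass : ∀ i < J', ∑ m : Fin q, ∑ m' : Fin q, (if ¬ cell lev (β i) ((m : ℕ) : ℤ) ≡
      cell lev (β i) ((m' : ℕ) : ℤ) [MOD Pib (β i)] then μ m m' else 0) +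
      ∑ m : Fin q, ∑ m' : Fin q, (if ((m : ℕ) : ℤ) ∈ bad (β i) ∨ ((m' : ℕ) : ℤ) ∈ bad (β i)
      then μ m m' else 0) ≤
      ((200 / Real.sqrt b0) * (1 / 2 : ℝ) ^ i + (514 + 256 * E0) * zb b0 * (1 / 2 : ℝ) ^ (i + 1)) *
        q := by
    intro i hi
    obtain ⟨h1, h2, h3⟩ := hβ i hi
    have hpow : 4 ^ (i + 1) * b0 ≤ 4 ^ J' * b0 :=
      Nat.mul_le_mul_right _ (Nat.pow_le_pow_right (by norm_num) hi)
    have hb0i : b0 + i ≤ 4 ^ i * b0 := pow_lin b0 i hb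
    have hβ0 : b0 ≤ β i := by omega
    have h4 := class_le hw hO hC (hb.trans hβ0) (hB.trans hβ0) (by omega) hμ
      (hfar (β i) hβ0 (by omega)) h3
    have h5 : ∑ m : Fin q, ∑ m' : Fin q, (if ((m : ℕ) : ℤ) ∈ bad (β i) ∨ ((m' : ℕ) : ℤ) ∈ bad (β i)
      then μ m m' else 0) ≤ 2 * (zb (β i) * q) := by
      refine (mass_either hμ (fun m : Fin q => ((m : ℕ) : ℤ) ∈ bad (β i))).trans ?_
      have := count_bad' hC (hB.trans hβ0) (b := β i) (by omega)
      linarith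
    have h6 : zb (β i) ≤ zb b0 * (1 / 2 : ℝ) ^ (i + 1) := by
      unfold zb
      rw [← pow_add]
      exact pow_le_pow_of_le_one (by norm_num) (by norm_num) (by omega)
    have h7 : Real.sqrt (5 / (3 * (4 ^ i * b0 : ℕ))) ≤
        (3 / 2) * (1 / Real.sqrt b0) * (1 / 2 : ℝ) ^ i := by
      have hb0r : (0 : ℝ) < b0 := by exact_mod_cast hb
      have hsq : Real.sqrt b0 ^ 2 = b0 := Real.sq_sqrt hb0r.le
      have hs0 : 0 < Real.sqrt b0 := Real.sqrt_pos.2 hb0r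
      apply Real.sqrt_le_iff.2
      refine ⟨by positivity, ?_⟩
      have e1 : ((3 / 2 : ℝ) * (1 / Real.sqrt b0) * (1 / 2 : ℝ) ^ i) ^ 2 =
          (9 / 4) / (b0 * 4 ^ i) := by
        have e2 : (1 / Real.sqrt b0) ^ 2 = 1 / (b0 : ℝ) := by rw [div_pow, one_pow, hsq]
        rw [mul_pow, mul_pow, e2, ← pow_mul, mul_comm i 2, pow_mul]
        have : ((1 / 2 : ℝ) ^ 2) ^ i = 1 / 4 ^ i := by
          rw [← one_div_pow]; norm_num
        rw [this]
        field_simp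
        norm_num
      rw [e1]
      push_cast
      rw [div_le_div_iff₀ (by positivity) (by positivity)]
      have : (0 : ℝ) < 4 ^ i := by positivity
      nlinarith [mul_pos this hb0r]
    have h8 := zb_pos (β i)
    have h9 : (q : ℝ) * Real.sqrt (5 / (3 * (4 ^ i * b0 : ℕ))) ≤
        q * ((3 / 2) * (1 / Real.sqrt b0) * (1 / 2 : ℝ) ^ i) :=
      mul_le_mul_of_nonneg_left h7 hq0
    have h10 : (zb (β i)) * q ≤ zb b0 * (1 / 2 : ℝ) ^ (i + 1) * q :=
      mul_le_mul_of_nonneg_right h6 hq0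
    have h11 : (E0 * (zb (β i)) * q) ≤ E0 * (zb b0 * (1 / 2 : ℝ) ^ (i + 1) * q) := by
      rw [mul_assoc]
      exact mul_le_mul_of_nonneg_left h10 hE0
    have h12 : 0 ≤ (1 / Real.sqrt b0) * (1 / 2 : ℝ) ^ i * q := by positivity
    calc _ ≤ 128 * (q * Real.sqrt (5 / (3 * (4 ^ i * b0 : ℕ))) + 4 * zb (β i) * q +
          2 * (E0 * zb (β i) * q)) + 2 * (zb (β i) * q) := add_le_add h4 h5
      _ ≤ 128 * (q * ((3 / 2) * (1 / Real.sqrt b0) * (1 / 2 : ℝ) ^ i)) +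
          514 * (zb b0 * (1 / 2 : ℝ) ^ (i + 1) * q) +
          256 * (E0 * (zb b0 * (1 / 2 : ℝ) ^ (i + 1) * q)) := by linarith
      _ = 192 * ((1 / Real.sqrt b0) * (1 / 2 : ℝ) ^ i * q) +
          (514 + 256 * E0) * zb b0 * (1 / 2 : ℝ) ^ (i + 1) * q := by ring
      _ ≤ 200 * ((1 / Real.sqrt b0) * (1 / 2 : ℝ) ^ i * q) +
          (514 + 256 * E0) * zb b0 * (1 / 2 : ℝ) ^ (i + 1) * q := by linarith
      _ = _ := by ring
  -- final sum
  have hpt : ∀ m m' : Fin q,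
      (if win lev b0 l ((m : ℕ) : ℤ) = win lev b0 l ((m' : ℕ) : ℤ) then 0 else μ m m') ≤
      (if pw lev b0 l ((m : ℕ) : ℤ) ≠ pw lev b0 l ((m' : ℕ) : ℤ) then μ m m' else 0) +
      ((if ¬ cell lev b0 ((m : ℕ) : ℤ) ≡ cell lev b0 ((m' : ℕ) : ℤ) [MOD Pib b0] then μ m m' else 0)
      + (if ((m : ℕ) : ℤ) ∈ bad b0 ∨ ((m' : ℕ) : ℤ) ∈ bad b0 then μ m m' else 0)) +
      ∑ i ∈ Finset.range J', ((if ¬ cell lev (β i) ((m : ℕ) : ℤ) ≡
        cell lev (β i) ((m' : ℕ) : ℤ) [MOD Pib (β i)] then μ m m' else 0) +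
        (if ((m : ℕ) : ℤ) ∈ bad (β i) ∨ ((m' : ℕ) : ℤ) ∈ bad (β i) then μ m m' else 0)) +
      (if 2 * (Mb (4 ^ (J' + 1) * b0) : ℤ) < |((m : ℕ) : ℤ) - ((m' : ℕ) : ℤ)| then μ m m' else 0) := by
    intro m m'
    have hm := hmu m m'
    have ite_nn : ∀ (P : Prop) [Decidable P], (0 : ℝ) ≤ if P then μ m m' else 0 := by
      intro P _
      split_ifs
      · exact hm
      · exact le_rfl
    have hsum : 0 ≤ ∑ i ∈ Finset.range J', ((if ¬ cell lev (β i) ((m : ℕ) : ℤ) ≡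
        cell lev (β i) ((m' : ℕ) : ℤ) [MOD Pib (β i)] then μ m m' else 0) +
        (if ((m : ℕ) : ℤ) ∈ bad (β i) ∨ ((m' : ℕ) : ℤ) ∈ bad (β i) then μ m m' else 0)) :=
      Finset.sum_nonneg fun i _ => add_nonneg (ite_nn _) (ite_nn _)
    by_cases hwin : win lev b0 l ((m : ℕ) : ℤ) = win lev b0 l ((m' : ℕ) : ℤ)
    · rw [if_pos hwin]
      have a1 := ite_nn (pw lev b0 l ((m : ℕ) : ℤ) ≠ pw lev b0 l ((m' : ℕ) : ℤ))
      have a2 := ite_nn (¬ cell lev b0 ((m : ℕ) : ℤ) ≡ cell lev b0 ((m' : ℕ) : ℤ) [MOD Pib b0])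
      have a3 := ite_nn (((m : ℕ) : ℤ) ∈ bad b0 ∨ ((m' : ℕ) : ℤ) ∈ bad b0)
      have a4 := ite_nn (2 * (Mb (4 ^ (J' + 1) * b0) : ℤ) < |((m : ℕ) : ℤ) - ((m' : ℕ) : ℤ)|)
      linarith
    · rw [if_neg hwin]
      have hcl := classify hO hb hlD β (fun i hi => (hβ i hi).1) (fun i hi => (hβ i hi).2.1) hwin
      have a1 := ite_nn (pw lev b0 l ((m : ℕ) : ℤ) ≠ pw lev b0 l ((m' : ℕ) : ℤ))
      have a2 := ite_nn (¬ cell lev b0 ((m : ℕ) : ℤ) ≡ cell lev b0 ((m' : ℕ) : ℤ) [MOD Pib b0])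
      have a3 := ite_nn (((m : ℕ) : ℤ) ∈ bad b0 ∨ ((m' : ℕ) : ℤ) ∈ bad b0)
      have a4 := ite_nn (2 * (Mb (4 ^ (J' + 1) * b0) : ℤ) < |((m : ℕ) : ℤ) - ((m' : ℕ) : ℤ)|)
      rcases hcl with hc | (hc | hc) | ⟨i, hi, hc⟩ | hc
      · rw [if_pos hc] at a1 ⊢
        linarith
      · rw [if_pos hc] at a3 ⊢
        linarith
      · rw [if_pos hc] at a2 ⊢
        linarith
      · have h1 := Finset.single_le_sum
          (f := fun i => ((if ¬ cell lev (β i) ((m : ℕ) : ℤ) ≡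
            cell lev (β i) ((m' : ℕ) : ℤ) [MOD Pib (β i)] then μ m m' else 0) +
            (if ((m : ℕ) : ℤ) ∈ bad (β i) ∨ ((m' : ℕ) : ℤ) ∈ bad (β i) then μ m m' else 0)))
          (fun i _ => add_nonneg (ite_nn _) (ite_nn _)) (Finset.mem_range.2 hi)
        have b1 := ite_nn (¬ cell lev (β i) ((m : ℕ) : ℤ) ≡
            cell lev (β i) ((m' : ℕ) : ℤ) [MOD Pib (β i)])
        have b2 := ite_nn (((m : ℕ) : ℤ) ∈ bad (β i) ∨ ((m' : ℕ) : ℤ) ∈ bad (β i))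
        rcases hc with hc | hc
        · rw [if_pos hc] at h1
          linarith
        · rw [if_pos hc] at h1
          linarith
      · rw [if_pos hc] at a4 ⊢
        linarith
  have hsumall : ∑ m : Fin q, ∑ m' : Fin q,
      (if win lev b0 l ((m : ℕ) : ℤ) = win lev b0 l ((m' : ℕ) : ℤ) then 0 else μ m m') ≤
      ∑ m : Fin q, ∑ m' : Fin q,
        (if pw lev b0 l ((m : ℕ) : ℤ) ≠ pw lev b0 l ((m' : ℕ) : ℤ) then μ m m' else 0) +
      (∑ m : Fin q, ∑ m' : Fin q, (if ¬ cell lev b0 ((m : ℕ) : ℤ) ≡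
        cell lev b0 ((m' : ℕ) : ℤ) [MOD Pib b0] then μ m m' else 0)
      + ∑ m : Fin q, ∑ m' : Fin q,
        (if ((m : ℕ) : ℤ) ∈ bad b0 ∨ ((m' : ℕ) : ℤ) ∈ bad b0 then μ m m' else 0)) +
      ∑ i ∈ Finset.range J', (∑ m : Fin q, ∑ m' : Fin q, (if ¬ cell lev (β i) ((m : ℕ) : ℤ) ≡
        cell lev (β i) ((m' : ℕ) : ℤ) [MOD Pib (β i)] then μ m m' else 0) +
        ∑ m : Fin q, ∑ m' : Fin q,
        (if ((m : ℕ) : ℤ) ∈ bad (β i) ∨ ((m' : ℕ) : ℤ) ∈ bad (β i) then μ m m' else 0)) +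
      ∑ m : Fin q, ∑ m' : Fin q,
      (if 2 * (Mb (4 ^ (J' + 1) * b0) : ℤ) < |((m : ℕ) : ℤ) - ((m' : ℕ) : ℤ)| then μ m m' else 0) := by
    have hswap : ∑ i ∈ Finset.range J', (∑ m : Fin q, ∑ m' : Fin q,
        (if ¬ cell lev (β i) ((m : ℕ) : ℤ) ≡
        cell lev (β i) ((m' : ℕ) : ℤ) [MOD Pib (β i)] then μ m m' else 0) +
        ∑ m : Fin q, ∑ m' : Fin q,
        (if ((m : ℕ) : ℤ) ∈ bad (β i) ∨ ((m' : ℕ) : ℤ) ∈ bad (β i) then μ m m' else 0)) =
        ∑ m : Fin q, ∑ m' : Fin q, ∑ i ∈ Finset.range J', ((if ¬ cell lev (β i) ((m : ℕ) : ℤ) ≡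
        cell lev (β i) ((m' : ℕ) : ℤ) [MOD Pib (β i)] then μ m m' else 0) +
        (if ((m : ℕ) : ℤ) ∈ bad (β i) ∨ ((m' : ℕ) : ℤ) ∈ bad (β i) then μ m m' else 0)) := by
      rw [Finset.sum_congr rfl fun m _ => Finset.sum_comm, Finset.sum_comm]
      refine Finset.sum_congr rfl fun i _ => ?_
      rw [← Finset.sum_add_distrib]
      refine Finset.sum_congr rfl fun m _ => ?_
      rw [← Finset.sum_add_distrib]
    rw [hswap]
    simp only [← Finset.sum_add_distrib]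
    refine Finset.sum_le_sum fun m _ => Finset.sum_le_sum fun m' _ => ?_
    exact hpt m m'
  refine hsumall.trans ?_
  have hgeo : ∀ n : ℕ, ∑ i ∈ Finset.range n, (1 / 2 : ℝ) ^ i ≤ 2 := by
    intro n
    rw [geom_sum_eq (by norm_num)]
    have : (0 : ℝ) ≤ (1 / 2) ^ n := by positivity
    rw [div_le_iff_of_neg (by norm_num)]
    linarith
  have hclsum : ∑ i ∈ Finset.range J', (∑ m : Fin q, ∑ m' : Fin q,
        (if ¬ cell lev (β i) ((m : ℕ) : ℤ) ≡
        cell lev (β i) ((m' : ℕ) : ℤ) [MOD Pib (β i)] then μ m m' else 0) +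
        ∑ m : Fin q, ∑ m' : Fin q,
        (if ((m : ℕ) : ℤ) ∈ bad (β i) ∨ ((m' : ℕ) : ℤ) ∈ bad (β i) then μ m m' else 0)) ≤
      (400 / Real.sqrt b0 + (514 + 256 * E0) * zb b0) * q := by
    calc _ ≤ ∑ i ∈ Finset.range J', ((200 / Real.sqrt b0) * (1 / 2 : ℝ) ^ i +
          (514 + 256 * E0) * zb b0 * (1 / 2 : ℝ) ^ (i + 1)) * q :=
          Finset.sum_le_sum fun i hi => hClass i (Finset.mem_range.1 hi)
      _ = ((200 / Real.sqrt b0) * q + (514 + 256 * E0) * zb b0 * (1 / 2) * q) *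
          ∑ i ∈ Finset.range J', (1 / 2 : ℝ) ^ i := by
          rw [Finset.mul_sum]
          refine Finset.sum_congr rfl fun i _ => ?_
          rw [pow_succ]
          ring
      _ ≤ ((200 / Real.sqrt b0) * q + (514 + 256 * E0) * zb b0 * (1 / 2) * q) * 2 :=
          mul_le_mul_of_nonneg_left (hgeo J') (by positivity)
      _ = _ := by ring
  have hfin : (2 * (ωb * q + (D + 1) * (E0 * zb b0 * q))) +
      (128 * (ωb * q + (D + 1) * (E0 * zb b0 * q) + 4 / K * q + 4 * zb b0 * q) +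
        2 * (zb b0 * q)) + (400 / Real.sqrt b0 + (514 + 256 * E0) * zb b0) * q + tl * q ≤
      (130 * ωb + 512 / K + 400 / Real.sqrt b0 + (130 * (D + 1) * E0 + 256 * E0 + 1100) *
        zb b0 + tl) * q := by
    have hzq : 0 ≤ zb b0 * q := by positivity
    have e1 : (130 * ωb + 512 / K + 400 / Real.sqrt b0 + (130 * (D + 1) * E0 + 256 * E0 + 1100) *
        zb b0 + tl) * q = (2 * (ωb * q + (D + 1) * (E0 * zb b0 * q))) +
      (128 * (ωb * q + (D + 1) * (E0 * zb b0 * q) + 4 / K * q + 4 * zb b0 * q) +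
        2 * (zb b0 * q)) + (400 / Real.sqrt b0 + (514 + 256 * E0) * zb b0) * q + tl * q +
        72 * (zb b0 * q) := by ring
    rw [e1]
    linarith
  linarith

end Crest.Agent.R113.Orb
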