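import Crest.Agent.R113.FD.OrbitB

/-!
Row 113, S0149, task T10, parts (P5), (P5b): the flux of the base sets. (helper909)
-/

set_option autoImplicit false

namespace Crest.Agent.R113.Orb

open Finset

variable {w : ℕ → ℕ → Bool} {c e : ℕ → ℝ} {g : ℕ → ℕ} {u : ℤ → ℝ} {lev : ℕ → ℤ → ℕ}
  {bad : ℕ → Set ℤ} {q N B J b0 l D K : ℕ}

/-- pointwise flux function of the two far sets number `k` -/
noncomputable def farPhi (w : ℕ → ℕ → Bool) (lev : ℕ → ℤ → ℕ) (b k : ℕ) (m : ℤ) : ℝ :=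
  (ind (far w lev b k true) m - ind (far w lev b k true) (m - ((k * Mb b : ℕ) : ℤ))) +
    (ind (far w lev b k false) m - ind (far w lev b k false) (m - ((k * Mb b : ℕ) : ℤ)))

theorem farPhi_abs (b k : ℕ) (m : ℤ) : |farPhi w lev b k m| ≤ 2 := by
  unfold farPhi
  have h1 := ind_nonneg (far w lev b k true) m
  have h2 := ind_nonneg (far w lev b k true) (m - ((k * Mb b : ℕ) : ℤ))
  have h3 := ind_nonneg (far w lev b k false) m
  have h4 := ind_nonneg (far w lev b k false) (m - ((k * Mb b : ℕ) : ℤ))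
  have h5 := ind_le_one (far w lev b k true) m
  have h6 := ind_le_one (far w lev b k true) (m - ((k * Mb b : ℕ) : ℤ))
  have h7 := ind_le_one (far w lev b k false) m
  have h8 := ind_le_one (far w lev b k false) (m - ((k * Mb b : ℕ) : ℤ))
  rw [abs_le]
  constructor <;> linarith

theorem sum_fwd {f : ℕ → Bool} (hf : ∀ s, f (2 * s + 1) = !(f (2 * s))) (a K : ℕ) :
    |∑ k ∈ Finset.Icc 1 K, bv (f (a + k)) - K / 2| ≤ 1 := by
  have h := bal_avg hf (a + 1) K
  have h1 : ∑ k ∈ Finset.Icc 1 K, bv (f (a + k)) = ∑ k ∈ Finset.range K, bv (f (a + 1 + k)) := by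
    rw [sum_Icc_eq_fin K (fun k => bv (f (a + k)))]
    rw [Fin.sum_univ_eq_sum_range (fun i => bv (f (a + (i + 1)))) K]
    refine Finset.sum_congr rfl fun k _ => ?_
    rw [show a + (k + 1) = a + 1 + k by ring]
  rw [h1]
  exact h

theorem sum_bwd {f : ℕ → Bool} (hf : ∀ s, f (2 * s + 1) = !(f (2 * s))) (a K : ℕ) (hK : K ≤ a) :
    |∑ k ∈ Finset.Icc 1 K, bv (f (a - k)) - K / 2| ≤ 1 := by
  have h := bal_avg hf (a - K) K
  have h1 : ∑ k ∈ Finset.Icc 1 K, bv (f (a - k)) = ∑ k ∈ Finset.range K, bv (f (a - K + k)) := by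
    rw [sum_Icc_eq_fin K (fun k => bv (f (a - k)))]
    rw [Fin.sum_univ_eq_sum_range (fun i => bv (f (a - (i + 1)))) K]
    rw [← Finset.sum_range_reflect (fun j => bv (f (a - K + j))) K]
    refine Finset.sum_congr rfl fun k hk => ?_
    have := Finset.mem_range.1 hk
    rw [show a - (k + 1) = a - K + (K - 1 - k) by omega]
  rw [h1]
  exact h

theorem level_big (hO : OrbitData w c e g u lev bad) (hb : 1 ≤ b0) {m : ℤ} (hm : m ∉ bad b0)
    {k : ℕ} (hk : k ≤ rb b0) : k * Mb b0 ≤ lev b0 m := by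
  have h1 := hO.run_low b0 hb m hm
  have h2 := rb_le_Pib b0
  refine le_trans (Nat.mul_le_mul_right _ ?_) h1
  omega

/-- the averages of the far flux functions -/
theorem farPhi_avg (hw : IsWords w) (hO : OrbitData w c e g u lev bad) (hb : 1 ≤ b0) {m : ℤ}
    (hm : m ∉ bad b0) (hK1 : 1 ≤ K) (hK : K ≤ rb b0) :
    |(1 / (K : ℝ)) * ∑ k ∈ Finset.Icc 1 K, farPhi w lev b0 k m -
      (2 * bv (w b0 (cell lev b0 m)) - 1)| ≤ 2 / K ∧
    |(1 / (K : ℝ)) * ∑ k ∈ Finset.Icc 1 K, farPhi w lev b0 k m -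
      (2 * ((1 / (K : ℝ)) * ∑ k ∈ Finset.Icc 1 K, (1 + bv (w b0 (cell lev b0 m)) -
        bv (w b0 (cell lev b0 m + k)))) - 2)| ≤ 2 / K := by
  set a := cell lev b0 m with ha
  have hK0 : (0 : ℝ) < K := by exact_mod_cast hK1
  have haK : K ≤ a := by
    rw [ha]
    unfold cell
    rw [Nat.le_div_iff_mul_le (Mb_pos b0)]
    exact level_big hO hb hm hK
  have h1 : ∑ k ∈ Finset.Icc 1 K, farPhi w lev b0 k m =
      2 * K * bv (w b0 a) - ∑ k ∈ Finset.Icc 1 K, bv (w b0 (a + k)) -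
        ∑ k ∈ Finset.Icc 1 K, bv (w b0 (a - k)) := by
    have : ∀ k ∈ Finset.Icc 1 K, farPhi w lev b0 k m =
        2 * bv (w b0 a) - bv (w b0 (a + k)) - bv (w b0 (a - k)) := by
      intro k hk
      have hk' := (Finset.mem_Icc.1 hk).2
      exact far_phi (steps hO hb) k m (level_big hO hb hm (hk'.trans hK))
    rw [Finset.sum_congr rfl this, Finset.sum_sub_distrib, Finset.sum_sub_distrib,
      Finset.sum_const, Nat.card_Icc, nsmul_eq_mul]
    simp only [Nat.add_sub_cancel]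
    ring
  have h2 := sum_fwd (hw.bal b0) a K
  have h3 := sum_bwd (hw.bal b0) a K haK
  set S1 := ∑ k ∈ Finset.Icc 1 K, bv (w b0 (a + k)) with hS1
  set S2 := ∑ k ∈ Finset.Icc 1 K, bv (w b0 (a - k)) with hS2
  have h4 : ∑ k ∈ Finset.Icc 1 K, (1 + bv (w b0 a) - bv (w b0 (a + k))) =
      K * (1 + bv (w b0 a)) - S1 := by
    rw [Finset.sum_sub_distrib, Finset.sum_const, Nat.card_Icc, nsmul_eq_mul]
    simp only [Nat.add_sub_cancel]
    rfl
  rw [h1, h4]
  rw [abs_le] at h2 h3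
  constructor
  · have e1 : (1 / (K : ℝ)) * (2 * K * bv (w b0 a) - S1 - S2) - (2 * bv (w b0 a) - 1) =
        (1 / (K : ℝ)) * ((K : ℝ) - S1 - S2) := by
      field_simp
      ring
    rw [e1, abs_mul, abs_of_pos (by positivity : (0 : ℝ) < 1 / K), div_eq_mul_one_div (2 : ℝ),
      mul_comm (2 : ℝ)]
    apply mul_le_mul_of_nonneg_left _ (by positivity)
    rw [abs_le]
    constructor <;> linarith [h2.1, h2.2, h3.1, h3.2]
  · have e1 : (1 / (K : ℝ)) * (2 * K * bv (w b0 a) - S1 - S2) -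
        (2 * ((1 / (K : ℝ)) * (K * (1 + bv (w b0 a)) - S1)) - 2) =
        (1 / (K : ℝ)) * (S1 - S2) := by
      field_simp
      ring
    rw [e1, abs_mul, abs_of_pos (by positivity : (0 : ℝ) < 1 / K), div_eq_mul_one_div (2 : ℝ),
      mul_comm (2 : ℝ)]
    apply mul_le_mul_of_nonneg_left _ (by positivity)
    rw [abs_le]
    constructor <;> linarith [h2.1, h2.2, h3.1, h3.2]

/-- crude bound for averages of far flux functions -/
theorem farPhi_avg_abs (m : ℤ) :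
    |(1 / (K : ℝ)) * ∑ k ∈ Finset.Icc 1 K, farPhi w lev b0 k m| ≤ 2 := by
  rcases Nat.eq_zero_or_pos K with rfl | hK
  · simp
  have hK0 : (0 : ℝ) < K := by exact_mod_cast hK
  rw [abs_mul, abs_of_pos (by positivity : (0 : ℝ) < 1 / K)]
  have h1 : |∑ k ∈ Finset.Icc 1 K, farPhi w lev b0 k m| ≤ K * 2 := by
    refine (Finset.abs_sum_le_sum_abs _ _).trans ?_
    refine (Finset.sum_le_sum fun k _ => farPhi_abs b0 k m).trans ?_
    rw [Finset.sum_const, Nat.card_Icc, nsmul_eq_mul]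
    simp only [Nat.add_sub_cancel]
    exact le_refl _
  calc 1 / (K : ℝ) * |∑ k ∈ Finset.Icc 1 K, farPhi w lev b0 k m| ≤ 1 / (K : ℝ) * (K * 2) :=
        mul_le_mul_of_nonneg_left h1 (by positivity)
    _ = 2 := by field_simp

/-- flux as a pointwise sum -/
theorem far_flux_sum (h : Fin q → ℝ) (b K : ℕ) :
    (1 / (K : ℝ)) * ∑ k ∈ Finset.Icc 1 K,
      (flux h (far w lev b k true) (k * Mb b) + flux h (far w lev b k false) (k * Mb b)) =
    ∑ m : Fin q, h m * ((1 / (K : ℝ)) * ∑ k ∈ Finset.Icc 1 K, farPhi w lev b k ((m : ℕ) : ℤ)) := by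
  have h1 : ∀ k, flux h (far w lev b k true) (k * Mb b) + flux h (far w lev b k false) (k * Mb b) =
      ∑ m : Fin q, h m * farPhi w lev b k ((m : ℕ) : ℤ) := by
    intro k
    unfold flux farPhi
    rw [← Finset.sum_add_distrib]
    refine Finset.sum_congr rfl fun m _ => ?_
    ring
  rw [Finset.sum_congr rfl fun k _ => h1 k, Finset.sum_comm, Finset.mul_sum]
  refine Finset.sum_congr rfl fun m _ => ?_
  rw [← Finset.mul_sum]
  ring

open Classical in
/-- summing a pointwise bound: `x` off the bad set, `y` on the bad set -/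
theorem sum_bad (P : Fin q → Prop) (F : Fin q → ℝ) (x y : ℝ) (hx : 0 ≤ x)
    (h1 : ∀ m, ¬ P m → F m ≤ x) (h2 : ∀ m, P m → F m ≤ y) :
    ∑ m : Fin q, F m ≤ x * q + y * ((univ.filter (fun m : Fin q => P m)).card : ℝ) := by
  have h3 : ∀ m : Fin q, F m ≤ x + (if P m then y else 0) := by
    intro m
    by_cases h : P m
    · rw [if_pos h]
      have := h2 m h
      linarith
    · rw [if_neg h]
      have := h1 m h
      linarith
  refine (Finset.sum_le_sum fun m _ => h3 m).trans ?_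
  rw [Finset.sum_add_distrib, Finset.sum_const, ← Finset.sum_filter, Finset.sum_const]
  simp only [nsmul_eq_mul, Finset.card_univ, Fintype.card_fin]
  linarith

open Classical in
theorem base_far_compare (hw : IsWords w) (hO : OrbitData w c e g u lev bad) (hb : 1 ≤ b0)
    (hK1 : 1 ≤ K) (hK : K ≤ rb b0) (h : Fin q → ℝ) (h0 : ∀ m, 0 ≤ h m) (h1 : ∀ m, h m ≤ 1) :
    (1 / (rb b0 : ℝ)) * ∑ k ∈ Finset.Icc 1 (rb b0),
      (flux h (far w lev b0 k true) (k * Mb b0) + flux h (far w lev b0 k false) (k * Mb b0)) ≤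
    (1 / (K : ℝ)) * ∑ k ∈ Finset.Icc 1 K,
      (flux h (far w lev b0 k true) (k * Mb b0) + flux h (far w lev b0 k false) (k * Mb b0)) +
      4 / K * q +
      4 * (((univ : Finset (Fin q)).filter (fun m : Fin q => ((m : ℕ) : ℤ) ∈ bad b0)).card : ℝ) := by
  rw [far_flux_sum, far_flux_sum]
  have hK0 : (0 : ℝ) < K := by exact_mod_cast hK1
  have hr0 : (0 : ℝ) < rb b0 := by exact_mod_cast rb_pos b0
  have hKr : (K : ℝ) ≤ rb b0 := by exact_mod_cast hK
  have key := sum_bad (q := q) (fun m : Fin q => ((m : ℕ) : ℤ) ∈ bad b0)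
    (fun m => h m * ((1 / (rb b0 : ℝ)) * ∑ k ∈ Finset.Icc 1 (rb b0), farPhi w lev b0 k ((m : ℕ) : ℤ))
      - h m * ((1 / (K : ℝ)) * ∑ k ∈ Finset.Icc 1 K, farPhi w lev b0 k ((m : ℕ) : ℤ)))
    (4 / K) 4 (by positivity) ?_ ?_
  · rw [Finset.sum_sub_distrib] at key
    linarith
  · intro m hm
    have e1 := (farPhi_avg hw hO hb hm (rb_pos b0) le_rfl).1
    have e2 := (farPhi_avg hw hO hb hm hK1 hK).1
    rw [abs_le] at e1 e2
    have e3 : 2 / (rb b0 : ℝ) ≤ 2 / K := div_le_div_of_nonneg_left (by norm_num) hK0 hKr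
    rw [← mul_sub]
    have e4 : (1 / (rb b0 : ℝ)) * ∑ k ∈ Finset.Icc 1 (rb b0), farPhi w lev b0 k ((m : ℕ) : ℤ) -
      (1 / (K : ℝ)) * ∑ k ∈ Finset.Icc 1 K, farPhi w lev b0 k ((m : ℕ) : ℤ) ≤ 4 / K := by
      have : (4 : ℝ) / K = 2 / K + 2 / K := by ring
      rw [this]
      linarith [e1.1, e1.2, e2.1, e2.2]
    calc _ ≤ h m * (4 / K) := mul_le_mul_of_nonneg_left e4 (h0 m)
      _ ≤ 1 * (4 / K) := mul_le_mul_of_nonneg_right (h1 m) (by positivity)
      _ = 4 / K := one_mul _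
  · intro m _
    have e1 := farPhi_avg_abs (w := w) (lev := lev) (b0 := b0) (K := rb b0) ((m : ℕ) : ℤ)
    have e2 := farPhi_avg_abs (w := w) (lev := lev) (b0 := b0) (K := K) ((m : ℕ) : ℤ)
    rw [abs_le] at e1 e2
    rw [← mul_sub]
    have e4 : (1 / (rb b0 : ℝ)) * ∑ k ∈ Finset.Icc 1 (rb b0), farPhi w lev b0 k ((m : ℕ) : ℤ) -
      (1 / (K : ℝ)) * ∑ k ∈ Finset.Icc 1 K, farPhi w lev b0 k ((m : ℕ) : ℤ) ≤ 4 := by
      linarith [e1.1, e1.2, e2.1, e2.2]
    calc _ ≤ h m * 4 := mul_le_mul_of_nonneg_left e4 (h0 m)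
      _ ≤ 1 * 4 := mul_le_mul_of_nonneg_right (h1 m) (by positivity)
      _ = 4 := one_mul _

/-- the pointwise base flux function -/
noncomputable def basePsi (w : ℕ → ℕ → Bool) (lev : ℕ → ℤ → ℕ) (b0 l D K : ℕ) (m : ℤ) : ℝ :=
  ∑ j : BIdx D K, bcoef D K j *
    (ind (bset w lev b0 l D K j) m - ind (bset w lev b0 l D K j) (m - (bshift b0 l D K j : ℤ)))

theorem base_flux_sum (h : Fin q → ℝ) :
    ∑ j : BIdx D K, bcoef D K j * flux h (bset w lev b0 l D K j) (bshift b0 l D K j) =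
      ∑ m : Fin q, h m * basePsi w lev b0 l D K ((m : ℕ) : ℤ) := by
  unfold flux basePsi
  simp only [Finset.mul_sum]
  rw [Finset.sum_comm]
  refine Finset.sum_congr rfl fun m _ => Finset.sum_congr rfl fun j _ => ?_
  ring

theorem basePsi_eq (m : ℤ) : basePsi w lev b0 l D K m =
    ∑ i : Fin (D - 1), (ind (near lev b0 l D (i + 1)) m -
      ind (near lev b0 l D (i + 1)) (m - (((i + 1) * l : ℕ) : ℤ))) +
    (1 / (K : ℝ)) * ∑ k ∈ Finset.Icc 1 K, farPhi w lev b0 k m := by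
  unfold basePsi
  rw [sum_bidx]
  congr 1
  · refine Finset.sum_congr rfl fun i _ => ?_
    simp only [bcoef, bset, bshift, one_mul]
  · rw [sum_Icc_eq_fin K (fun k => farPhi w lev b0 k m), Finset.mul_sum]
    refine Finset.sum_congr rfl fun k _ => ?_
    simp only [bcoef, bset, bshift, farPhi]
    ring

/-- error of the base flux function, good positions -/
theorem basePsi_good (hw : IsWords w) (hO : OrbitData w c e g u lev bad) (hb : 1 ≤ b0)
    (hl : 0 < l) (hlD : D * l = Mb b0) (hK1 : 1 ≤ K) (hK : K ≤ rb b0) {m : ℤ}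
    (hm : m ∉ bad b0) :
    |basePsi w lev b0 l D K m - (2 * gfun w lev b0 l K m - (D + 1))| ≤ 2 / K := by
  have h1 := (farPhi_avg hw hO hb hm hK1 hK).2
  have h2 : Mb b0 ≤ lev b0 m := by
    have := level_big hO hb hm (rb_one_le b0)
    omega
  rw [basePsi_eq, near_phi (steps hO hb) hl hlD m h2]
  unfold gfun
  convert h1 using 2
  ring

theorem basePsi_abs (hD : 1 ≤ D) (m : ℤ) : |basePsi w lev b0 l D K m| ≤ D + 1 := by
  rw [basePsi_eq]
  have h1 : |∑ i : Fin (D - 1), (ind (near lev b0 l D (i + 1)) m -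
      ind (near lev b0 l D (i + 1)) (m - (((i + 1) * l : ℕ) : ℤ)))| ≤ ((D - 1 : ℕ) : ℝ) := by
    refine (Finset.abs_sum_le_sum_abs _ _).trans ?_
    have : ∀ i ∈ (Finset.univ : Finset (Fin (D - 1))), |(ind (near lev b0 l D (i + 1)) m -
      ind (near lev b0 l D (i + 1)) (m - (((i + 1) * l : ℕ) : ℤ)))| ≤ (1 : ℝ) := by
      intro i _
      have a1 := ind_nonneg (near lev b0 l D (i + 1)) m
      have a2 := ind_le_one (near lev b0 l D (i + 1)) m
      have a3 := ind_nonneg (near lev b0 l D (i + 1)) (m - (((i + 1) * l : ℕ) : ℤ))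
      have a4 := ind_le_one (near lev b0 l D (i + 1)) (m - (((i + 1) * l : ℕ) : ℤ))
      rw [abs_le]
      constructor <;> linarith
    refine (Finset.sum_le_sum this).trans ?_
    simp
  have h2 := farPhi_avg_abs (w := w) (lev := lev) (b0 := b0) (K := K) m
  have h3 : ((D - 1 : ℕ) : ℝ) = D - 1 := by
    rw [Nat.cast_sub hD, Nat.cast_one]
  rw [h3] at h1
  refine (abs_add_le _ _).trans ?_
  linarith

theorem basePsi_bad (hlD : D * l = Mb b0) (m : ℤ) :
    |basePsi w lev b0 l D K m - (2 * gfun w lev b0 l K m - (D + 1))| ≤ 2 * (D + 1) := by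
  have h1 := basePsi_abs (w := w) (lev := lev) (b0 := b0) (l := l) (K := K) (D_pos hlD) m
  have h2 := gfun_nonneg (w := w) (lev := lev) (b0 := b0) (l := l) (K := K) m
  have h3 := gfun_le (w := w) (lev := lev) (K := K) hlD m
  rw [abs_le] at h1 ⊢
  constructor <;> linarith [h1.1, h1.2]

theorem bcoef_nonneg (j : BIdx D K) : 0 ≤ bcoef D K j := by
  rcases j with i | ks
  · simp [bcoef]
  · simp only [bcoef]
    positivity

theorem bcoef_sum (hD : 1 ≤ D) (hK1 : 1 ≤ K) : ∑ j : BIdx D K, bcoef D K j = D + 1 := by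
  have hK0 : (0 : ℝ) < K := by exact_mod_cast hK1
  rw [sum_bidx]
  simp only [bcoef, Finset.sum_const, Finset.card_univ, Fintype.card_fin, nsmul_eq_mul, mul_one]
  rw [Nat.cast_sub hD, Nat.cast_one]
  field_simp
  ring

/-- base flux bound (`h` = diagonal of the minimiser, `hE` = diagonal of `E`) -/
theorem base_flux_le (hw : IsWords w) (hO : OrbitData w c e g u lev bad)
    (hC : OrbitCounts q N B J lev bad)
    (hb : 1 ≤ b0) (hB : B ≤ b0) (hJ : b0 ≤ J) (hN : 2 * (Pib b0 * Mb b0) ≤ N)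
    (hl : 0 < l) (hlD : D * l = Mb b0) (hK1 : 1 ≤ K) (hK : K ≤ rb b0)
    (h hE : Fin q → ℝ) (h0 : ∀ m, 0 ≤ h m) (h1 : ∀ m, h m ≤ 1) (hE0 : ∀ m, 0 ≤ hE m)
    (hE1 : ∀ m, hE m ≤ 1) (htr : ∑ m, h m = ∑ m, hE m) (θ0 ηf : ℝ)
    (hg : ∑ m : Fin q, h m * gfun w lev b0 l K ((m : ℕ) : ℤ) ≤
      ∑ m : Fin q, hE m * gfun w lev b0 l K ((m : ℕ) : ℤ) + θ0 * q)
    (hf : ∀ j : BIdx D K, flux hE (bset w lev b0 l D K j) (bshift b0 l D K j) ≤ ηf * q) :
    ∑ j : BIdx D K, bcoef D K j * flux h (bset w lev b0 l D K j) (bshift b0 l D K j) ≤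
      (2 * θ0 + 4 / K + (D + 1) * ηf + 4 * (D + 1) * zb b0) * q := by
  classical
  have hK0 : (0 : ℝ) < K := by exact_mod_cast hK1
  have hq0 : (0 : ℝ) ≤ q := by positivity
  have hD0 : (0 : ℝ) ≤ D := by positivity
  have hz := zb_pos b0
  -- the flux of `hE`
  have hfE : ∑ m : Fin q, hE m * basePsi w lev b0 l D K ((m : ℕ) : ℤ) ≤ (D + 1) * ηf * q := by
    rw [← base_flux_sum]
    calc ∑ j : BIdx D K, bcoef D K j * flux hE (bset w lev b0 l D K j) (bshift b0 l D K j)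
        ≤ ∑ j : BIdx D K, bcoef D K j * (ηf * q) :=
          Finset.sum_le_sum fun j _ => mul_le_mul_of_nonneg_left (hf j) (bcoef_nonneg j)
      _ = (D + 1) * ηf * q := by
          rw [← Finset.sum_mul, bcoef_sum (D_pos hlD) hK1]
          ring
  rw [base_flux_sum]
  -- pointwise error
  have key := sum_bad (q := q) (fun m : Fin q => ((m : ℕ) : ℤ) ∈ bad b0)
    (fun m => (h m - hE m) * (basePsi w lev b0 l D K ((m : ℕ) : ℤ) -
      (2 * gfun w lev b0 l K ((m : ℕ) : ℤ) - (D + 1))))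
    (2 / K) (2 * (D + 1)) (by positivity) ?_ ?_
  · have hcb := count_bad' hC hB hJ
    have e1 : ∑ m : Fin q, (h m - hE m) * (basePsi w lev b0 l D K ((m : ℕ) : ℤ) -
      (2 * gfun w lev b0 l K ((m : ℕ) : ℤ) - (D + 1))) =
      ∑ m : Fin q, h m * basePsi w lev b0 l D K ((m : ℕ) : ℤ) -
      ∑ m : Fin q, hE m * basePsi w lev b0 l D K ((m : ℕ) : ℤ) -
      2 * (∑ m : Fin q, h m * gfun w lev b0 l K ((m : ℕ) : ℤ)) +
      2 * (∑ m : Fin q, hE m * gfun w lev b0 l K ((m : ℕ) : ℤ)) +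
      (D + 1) * (∑ m, h m - ∑ m, hE m) := by
      simp only [Finset.mul_sum, ← Finset.sum_sub_distrib, ← Finset.sum_add_distrib]
      refine Finset.sum_congr rfl fun m _ => ?_
      ring
    rw [e1, htr, sub_self, mul_zero, add_zero] at key
    have e2 : 2 * ((D : ℝ) + 1) *
        (((univ : Finset (Fin q)).filter (fun m : Fin q => ((m : ℕ) : ℤ) ∈ bad b0)).card : ℝ) ≤
        2 * ((D : ℝ) + 1) * (zb b0 * q) := mul_le_mul_of_nonneg_left hcb (by positivity)
    have e3 : 0 ≤ 2 * ((D : ℝ) + 1) * (zb b0 * q) := by positivity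
    have e4 : 0 ≤ 2 / (K : ℝ) * q := by positivity
    have e5 : (4 : ℝ) / K = 2 / K + 2 / K := by ring
    rw [e5]
    nlinarith
  · intro m hm
    have a1 := basePsi_good (l := l) (D := D) hw hO hb hl hlD hK1 hK hm
    have a2 : |h m - hE m| ≤ 1 := by
      rw [abs_le]
      constructor <;> linarith [h0 m, h1 m, hE0 m, hE1 m]
    calc _ ≤ |(h m - hE m) * (basePsi w lev b0 l D K ((m : ℕ) : ℤ) -
      (2 * gfun w lev b0 l K ((m : ℕ) : ℤ) - (D + 1)))| := le_abs_self _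
      _ = |h m - hE m| * |basePsi w lev b0 l D K ((m : ℕ) : ℤ) -
      (2 * gfun w lev b0 l K ((m : ℕ) : ℤ) - (D + 1))| := abs_mul _ _
      _ ≤ 1 * (2 / K) := mul_le_mul a2 a1 (abs_nonneg _) (by norm_num)
      _ = 2 / K := one_mul _
  · intro m _
    have a1 := basePsi_bad (w := w) (lev := lev) (K := K) hlD ((m : ℕ) : ℤ)
    have a2 : |h m - hE m| ≤ 1 := by
      rw [abs_le]
      constructor <;> linarith [h0 m, h1 m, hE0 m, hE1 m]
    calc _ ≤ |(h m - hE m) * (basePsi w lev b0 l D K ((m : ℕ) : ℤ) -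
      (2 * gfun w lev b0 l K ((m : ℕ) : ℤ) - (D + 1)))| := le_abs_self _
      _ = |h m - hE m| * |basePsi w lev b0 l D K ((m : ℕ) : ℤ) -
      (2 * gfun w lev b0 l K ((m : ℕ) : ℤ) - (D + 1))| := abs_mul _ _
      _ ≤ 1 * (2 * (D + 1)) := mul_le_mul a2 a1 (abs_nonneg _) (by norm_num)
      _ = 2 * (D + 1) := one_mul _

end Crest.Agent.R113.Orb
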