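import Crest.Agent.R113.Basic
import Crest.Agent.R113.FD.Orbit

/-!
Row 113, S0149, T10 bridge (helper251): the entries of a projection form a mass matrix; `cut`, `trOn`
of `Defs.lean` in terms of `cutM`, `flux` of `FD/Orbit.lean`.
-/

set_option autoImplicit false

namespace Crest.Agent.R113.Orb

open Finset

/-- a projection gives a mass matrix -/
theorem mass_ent {q : ℕ} (X : Submodule ℂ (EuclideanSpace ℂ (Fin q))) :
    Mass (fun i j => ‖ent X i j‖ ^ 2) (dg X) where
  nonneg _ _ := by positivity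
  symm i j := by rw [norm_ent_symm]
  row i := sum_ent_sq X i
  le_one i := dg_le_one X i

theorem mem_fs {q : ℕ} (A : Set ℤ) [DecidablePred (· ∈ A)] (m : Fin q) :
    m ∈ fs q A ↔ ((m : ℕ) : ℤ) ∈ A := by
  simp [fs]

theorem trOn_fs {q : ℕ} (X : Submodule ℂ (EuclideanSpace ℂ (Fin q))) (A : Set ℤ)
    [DecidablePred (· ∈ A)] : trOn X (fs q A) = ∑ m : Fin q, dg X m * ind A ((m : ℕ) : ℤ) := by
  classical
  rw [trOn, fs, Finset.sum_filter]
  refine Finset.sum_congr rfl fun m _ => ?_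
  unfold ind
  by_cases h : ((m : ℕ) : ℤ) ∈ A
  · rw [if_pos h, Set.indicator_of_mem h, mul_one]
  · rw [if_neg h, Set.indicator_of_notMem h, mul_zero]

theorem cut_fs {q : ℕ} (X : Submodule ℂ (EuclideanSpace ℂ (Fin q))) (A : Set ℤ)
    [DecidablePred (· ∈ A)] :
    cut X (fs q A) = cutM (fun i j => ‖ent X i j‖ ^ 2) A := by
  classical
  rw [cut, cutM, fs, Finset.sum_filter]
  refine Finset.sum_congr rfl fun m _ => ?_
  rw [Finset.compl_filter, Finset.sum_filter]
  by_cases h : ((m : ℕ) : ℤ) ∈ A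
  · rw [if_pos h]
    refine Finset.sum_congr rfl fun m' _ => ?_
    by_cases h' : ((m' : ℕ) : ℤ) ∈ A <;> simp [h, h']
  · rw [if_neg h]
    symm
    apply Finset.sum_eq_zero
    intro m' _
    simp [h]

theorem flux_fs {q : ℕ} (X : Submodule ℂ (EuclideanSpace ℂ (Fin q))) (A : Set ℤ) (n : ℕ)
    [DecidablePred (· ∈ A)] [DecidablePred (· ∈ {m : ℤ | m - n ∈ A})] :
    trOn X (fs q A) - trOn X (fs q {m : ℤ | m - n ∈ A}) = flux (dg X) A n := by
  classical
  rw [trOn_fs, trOn_fs, flux, ← Finset.sum_sub_distrib]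
  refine Finset.sum_congr rfl fun m _ => ?_
  have : ind {m : ℤ | m - n ∈ A} ((m : ℕ) : ℤ) = ind A (((m : ℕ) : ℤ) - n) := by
    unfold ind
    by_cases h : ((m : ℕ) : ℤ) - n ∈ A
    · rw [Set.indicator_of_mem h, Set.indicator_of_mem (show ((m : ℕ) : ℤ) ∈ {m : ℤ | m - n ∈ A} from h)]
    · rw [Set.indicator_of_notMem h, Set.indicator_of_notMem
        (show ((m : ℕ) : ℤ) ∉ {m : ℤ | m - n ∈ A} from h)]
  rw [this]
  ring

end Crest.Agent.R113.Orb
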