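import Crest.Agent.R113.FD.OrbitB

/-!
Row 113, S0149, task T9, part 4: costs on and off the sets, the exceptional sets `Bd`. (helper292)
-/

set_option autoImplicit false

namespace Crest.Agent.R113.Orb

open Finset

variable {w : ℕ → ℕ → Bool} {c e : ℕ → ℝ} {g : ℕ → ℕ} {u : ℤ → ℝ} {lev : ℕ → ℤ → ℕ}
  {bad : ℕ → Set ℤ} {q N B J b0 l D K : ℕ}

theorem c_nonneg (hG : IsGrowth c e g) {b : ℕ} (hb : 1 ≤ b) : 0 ≤ c b := by
  refine le_trans ?_ (hG.c_ge b hb)
  have := hG.e_nonneg b
  positivity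

/-- cost of a near shift -/
theorem near_cost (hG : IsGrowth c e g) (hO : OrbitData w c e g u lev bad) (hb : 1 ≤ b0)
    (hl : 0 < l) (hlD : D * l = Mb b0) {i : ℕ} (hi : i < D) {m : ℤ} (hm : m ∉ bad b0)
    (hp : g b0 ≤ lev b0 m % Mb b0) (hp' : g b0 ≤ (lev b0 m + i * l) % Mb b0) :
    (m ∈ near lev b0 l D i → c b0 ≤ wsum u m (i * l)) ∧
    (m ∉ near lev b0 l D i → wsum u m (i * l) ≤ e b0) := by
  have hM := Mb_pos b0
  have hc := c_nonneg hG hb
  have hn : i * l < Mb b0 := by
    rw [← hlD]; exact Nat.mul_lt_mul_of_pos_right hi hl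
  have hn' : i * l ≤ rb b0 * Mb b0 := by
    calc i * l ≤ 1 * Mb b0 := by omega
      _ ≤ rb b0 * Mb b0 := Nat.mul_le_mul_right _ (rb_one_le b0)
  have h1 := hO.cost_low b0 hb m hm (i * l) hn' hp hp'
  have h2 := hO.cost_high b0 hb m hm (i * l) hn' hp hp'
  unfold idealCost at h1 h2
  have hdm := Nat.div_add_mod (lev b0 m) (Mb b0)
  have hr := Nat.mod_lt (lev b0 m) hM
  set a := lev b0 m / Mb b0 with ha
  set r := lev b0 m % Mb b0 with hrdef
  have hmem : m ∈ near lev b0 l D i ↔ D ≤ r / l + i := Iff.rfl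
  constructor
  · intro h
    rw [hmem] at h
    have h3 : Mb b0 ≤ r + i * l := by
      have h4 : r / l * l ≤ r := Nat.div_mul_le_self _ _
      calc Mb b0 = D * l := hlD.symm
        _ ≤ (r / l + i) * l := Nat.mul_le_mul_right _ h
        _ = r / l * l + i * l := by ring
        _ ≤ _ := by omega
    have h5 : (lev b0 m + i * l) / Mb b0 = a + 1 := by
      rw [← hdm]
      have : Mb b0 * a + r + i * l = Mb b0 * (a + 1) + (r + i * l - Mb b0) := by
        rw [mul_add, mul_one]; omega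
      rw [this, Nat.mul_add_div hM, Nat.div_eq_of_lt (by omega), add_zero]
    rw [h5] at h1
    have b1 := bv_nonneg (w b0 a)
    have b2 := bv_le_one (w b0 (a + 1))
    have : c b0 * 1 ≤ c b0 * (2 * (((a + 1 : ℕ) : ℝ) - (a : ℝ)) + bv (w b0 a) -
        bv (w b0 (a + 1))) := by
      apply mul_le_mul_of_nonneg_left _ hc
      push_cast
      linarith
    linarith
  · intro h
    rw [hmem] at h
    have h3 : r + i * l < Mb b0 := by
      have h4 : r < l * (r / l + 1) := Nat.lt_mul_div_succ _ hl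
      calc r + i * l < l * (r / l + 1) + i * l := by omega
        _ = (r / l + 1 + i) * l := by ring
        _ ≤ D * l := Nat.mul_le_mul_right _ (by omega)
        _ = _ := hlD
    have h5 : (lev b0 m + i * l) / Mb b0 = a := by
      rw [← hdm]
      have : Mb b0 * a + r + i * l = Mb b0 * a + (r + i * l) := by ring
      rw [this, Nat.mul_add_div hM, Nat.div_eq_of_lt h3, add_zero]
    rw [h5] at h2
    have : c b0 * (2 * ((a : ℝ) - (a : ℝ)) + bv (w b0 a) - bv (w b0 a)) = 0 := by ring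
    linarith

/-- cost of a far shift -/
theorem far_cost (hO : OrbitData w c e g u lev bad) {b k : ℕ} (hb : 1 ≤ b)
    (hk : k ≤ rb b) {m : ℤ} (hm : m ∉ bad b) (hp : g b ≤ lev b m % Mb b) :
    c b * (2 * k + bv (w b (cell lev b m)) - bv (w b (cell lev b m + k))) ≤ wsum u m (k * Mb b) ∧
    wsum u m (k * Mb b) ≤
      c b * (2 * k + bv (w b (cell lev b m)) - bv (w b (cell lev b m + k))) + e b := by
  have hM := Mb_pos b
  have hn' : k * Mb b ≤ rb b * Mb b := Nat.mul_le_mul_right _ hk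
  have hp' : g b ≤ (lev b m + k * Mb b) % Mb b := by
    rw [Nat.add_mul_mod_self_right]; exact hp
  have h1 := hO.cost_low b hb m hm (k * Mb b) hn' hp hp'
  have h2 := hO.cost_high b hb m hm (k * Mb b) hn' hp hp'
  unfold idealCost at h1 h2
  have h5 : (lev b m + k * Mb b) / Mb b = lev b m / Mb b + k := Nat.add_mul_div_right _ _ hM
  rw [h5] at h1 h2
  have h6 : (2 * (((lev b m / Mb b + k : ℕ) : ℝ) - ((lev b m / Mb b : ℕ) : ℝ))) = 2 * k := by
    push_cast; ring
  rw [h6] at h1 h2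
  exact ⟨h1, h2⟩

theorem card_shift (q n : ℕ) (P : ℤ → Prop) [DecidablePred P] :
    ((univ : Finset (Fin q)).filter
      (fun m : Fin q => (m : ℕ) + n < q ∧ P (((m : ℕ) : ℤ) + n))).card ≤
      ((univ : Finset (Fin q)).filter (fun m : Fin q => P ((m : ℕ) : ℤ))).card := by
  rw [card_fin_filter q P]
  apply Finset.card_le_card_of_injOn (fun m : Fin q => ((m : ℕ) : ℤ) + n)
  · intro m hm
    simp only [Finset.coe_filter, Finset.mem_univ, true_and, Set.mem_ofPred_eq,
      Finset.mem_Ico] at hm ⊢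
    exact ⟨by omega, hm.2⟩
  · intro m _ m' _ h
    apply Fin.ext
    simp only at h
    omega

theorem near_isBd (hG : IsGrowth c e g) (hO : OrbitData w c e g u lev bad)
    (hC : OrbitCounts q N B J lev bad)
    (hb : 1 ≤ b0) (hB : B ≤ b0) (hJ : b0 ≤ J) (hN : 2 * (Pib b0 * Mb b0) ≤ N)
    (hq : 4 ^ b0 * (Pib b0 * Mb b0) ≤ q)
    (hl : 0 < l) (hlD : D * l = Mb b0) (i : Fin (D - 1)) :
    ∃ (Bd : Finset (Fin q)),
      IsBd (fun i : Fin q => win lev b0 l ((i : ℕ) : ℤ)) u (((i : ℕ) + 1) * l)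
        (near lev b0 l D ((i : ℕ) + 1)) (e b0) (c b0 - e b0) Bd ∧
      (Bd.card : ℝ) ≤ 16 * zb b0 * q := by
  classical
  have hi := i.2
  have hid : (i : ℕ) + 1 < D := by omega
  set n := ((i : ℕ) + 1) * l with hn
  have hnM : n < Mb b0 := by
    rw [hn, ← hlD]; exact Nat.mul_lt_mul_of_pos_right hid hl
  have hPM : Mb b0 ≤ Pib b0 * Mb b0 := Nat.le_mul_of_pos_left _ (Pib_pos b0)
  refine ⟨(univ.filter (fun m : Fin q => ((m : ℕ) : ℤ) ∈ bad b0)) ∪
    ((univ.filter (fun m : Fin q => lev b0 ((m : ℕ) : ℤ) % Mb b0 < g b0)) ∪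
    (univ.filter (fun m : Fin q => (m : ℕ) + n < q ∧ lev b0 (((m : ℕ) : ℤ) + n) % Mb b0 < g b0))),
    ⟨?_, ?_, ?_, ?_⟩, ?_⟩
  · intro a a' haa h1 h2
    exact absurd ((bset_win (w := w) hO hb hl hlD haa (Sum.inl i : BIdx D 0)).1 h1) h2
  · intro a a' haa h1 h2 a'' h3
    by_contra hcon
    simp only [Finset.mem_union, Finset.mem_filter, Finset.mem_univ, true_and, not_or] at hcon
    have hlev := hO.run b0 hb _ hcon.1 n (by rw [mul_assoc]; omega)
    rcases h3 with h3 | h3
    · have e1 : (((a'' : ℕ) : ℤ) + n) = ((a : ℕ) : ℤ) := by omega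
      rw [e1] at hlev
      exact h2 ((bset_shift_win (w := w) hO hb hl hlD haa (Sum.inl i : BIdx D 0)
        (by show n ≤ _; omega)).1 h1)
    · have e1 : (((a'' : ℕ) : ℤ) + n) = ((a' : ℕ) : ℤ) := by omega
      rw [e1] at hlev
      exact h2 ((bset_shift_win (w := w) hO hb hl hlD haa.symm (Sum.inl i : BIdx D 0)
        (by show n ≤ _; omega)).2 h1)
  · intro a h1 h2 h3
    simp only [Finset.mem_union, Finset.mem_filter, Finset.mem_univ, true_and, not_or] at h2
    have hlev := hO.run b0 hb _ h2.1 n (by rw [mul_assoc]; omega)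
    have := (near_cost hG hO hb hl hlD hid h2.1 (by omega)
      (by rw [← hn, ← hlev]; by_contra hc; exact h2.2.2 ⟨h3, by omega⟩)).1 h1
    rw [← hn] at this
    linarith
  · intro a h1 h2 h3
    simp only [Finset.mem_union, Finset.mem_filter, Finset.mem_univ, true_and, not_or] at h2
    have hlev := hO.run b0 hb _ h2.1 n (by rw [mul_assoc]; omega)
    exact (near_cost hG hO hb hl hlD hid h2.1 (by omega)
      (by rw [← hn, ← hlev]; by_contra hc; exact h2.2.2 ⟨h3, by omega⟩)).2 h1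
  · have h1 := count_bad' hC hB hJ
    have h2 := phase_le hG hO hC hb hB hJ hN hq
    have h3 := card_shift q n (fun m => lev b0 m % Mb b0 < g b0)
    have h4 := zb_pos b0
    have h5 : (0 : ℝ) ≤ zb b0 * q := by positivity
    calc _ ≤ (((univ.filter (fun m : Fin q => ((m : ℕ) : ℤ) ∈ bad b0)).card +
        ((univ.filter (fun m : Fin q => lev b0 ((m : ℕ) : ℤ) % Mb b0 < g b0)).card +
        (univ.filter (fun m : Fin q => lev b0 ((m : ℕ) : ℤ) % Mb b0 < g b0)).card) : ℕ) : ℝ) := by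
          norm_cast
          refine (Finset.card_union_le _ _).trans (Nat.add_le_add_left ?_ _)
          exact (Finset.card_union_le _ _).trans (Nat.add_le_add_left h3 _)
      _ ≤ _ := by push_cast; linarith

open Classical in
/-- positions close to a start of a higher block -/
theorem close_le (hO : OrbitData w c e g u lev bad)
    (hC : OrbitCounts q N B J lev bad) {b : ℕ} (hb1 : 1 ≤ b) (hbb' : b0 < b) (hB : B ≤ b)
    (hJ : b ≤ J) (hN : 2 * (Pib b * Mb b) ≤ N) (hq : 4 ^ b * (Pib b * Mb b) ≤ q)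
    (hlD : D * l = Mb b0) :
    (((univ : Finset (Fin q)).filter (fun m : Fin q => ∃ t : ℤ,
        |t - ((m : ℕ) : ℤ)| < l ∧ lev b t % Mb b = 0)).card : ℝ) ≤ zb b * q := by
  have hlb : l ≤ Mb b := (l_le hlD).trans (Mb_mono hbb'.le)
  have h4 := zb_pos b
  have hq0 : (0 : ℝ) ≤ q := by positivity
  rw [card_fin_filter q (fun m => ∃ t : ℤ, |t - m| < l ∧ lev b t % Mb b = 0)]
  have h7 := close_card (lev := lev) (b := b) 0 q l
  have h8 := starts_le_two hO hC hb1 hB hJ hN hq hlb hlb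
  simp only [zero_sub, zero_add] at h7
  set S : ℝ := (((Finset.Ico (-(l : ℤ)) ((q : ℤ) + l)).filter
    (fun m => lev b m % Mb b = 0)).card : ℝ) with hS
  have h7' : (((Finset.Ico (0 : ℤ) q).filter (fun m => ∃ t : ℤ,
      |t - m| < l ∧ lev b t % Mb b = 0)).card : ℝ) ≤ 2 * l * S := by
    rw [hS]; exact_mod_cast h7
  refine h7'.trans ?_
  obtain ⟨b', hb'⟩ : ∃ b', b = b' + 1 := ⟨b - 1, by omega⟩
  have h9 : 100 * 4 ^ b' * l ≤ Mb b := by
    rw [hb']
    refine le_trans (Nat.mul_le_mul_left _ ?_) (Mb_succ b')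
    calc l ≤ Mb b' := (l_le hlD).trans (Mb_mono (by omega))
      _ = 1 * Mb b' := (one_mul _).symm
      _ ≤ rb b' * Mb b' := Nat.mul_le_mul_right _ (rb_one_le b')
  have h10 : (25 : ℝ) * 4 ^ b * l ≤ Mb b := by
    have : ((100 * 4 ^ b' * l : ℕ) : ℝ) ≤ Mb b := by exact_mod_cast h9
    push_cast at this
    have e1 : (25 : ℝ) * 4 ^ b = 100 * 4 ^ b' := by rw [hb', pow_succ]; ring
    rw [e1]; exact this
  have hS0 : 0 ≤ S := by rw [hS]; positivity
  have h11 : (25 : ℝ) * 4 ^ b * (2 * l * S) ≤ 4 * q := by nlinarith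
  have h12 : (4 : ℝ) ^ b * (zb b * q) = 2 ^ b * q := by
    rw [← mul_assoc, mul_comm ((4 : ℝ) ^ b), four_zb]
  have h13 : (1 : ℝ) ≤ 2 ^ b := one_le_pow₀ (by norm_num)
  have h14 : (25 : ℝ) * 4 ^ b * (2 * l * S) ≤ 25 * 4 ^ b * (zb b * q) := by
    calc _ ≤ 4 * (q : ℝ) := h11
      _ ≤ 25 * (2 ^ b * q) := by nlinarith
      _ = _ := by rw [← h12]; ring
  exact le_of_mul_le_mul_left h14 (by positivity)

set_option maxHeartbeats 1000000 in
theorem far_isBd (hG : IsGrowth c e g) (hO : OrbitData w c e g u lev bad)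
    (hC : OrbitCounts q N B J lev bad)
    (hb : 1 ≤ b0) {b k : ℕ} (hbb : b0 ≤ b) (hB : B ≤ b) (hJ : b ≤ J)
    (hN : 2 * (Pib b * Mb b) ≤ N) (hq : 4 ^ b * (Pib b * Mb b) ≤ q)
    (hl : 0 < l) (hlD : D * l = Mb b0) (hk1 : 1 ≤ k) (hk : k ≤ rb b) (s : Bool) :
    ∃ (Bd : Finset (Fin q)) (v0 : ℝ), 0 ≤ v0 ∧ v0 ≤ 2 * rb b * c b + e b ∧
      IsBd (fun i : Fin q => win lev b0 l ((i : ℕ) : ℤ)) u (k * Mb b) (far w lev b k s)
        v0 (c b - e b) Bd ∧ (Bd.card : ℝ) ≤ 16 * zb b * q := by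
  classical
  have hb1 : 1 ≤ b := hb.trans hbb
  have hc := c_nonneg hG hb1
  have he := hG.e_nonneg b
  have hM := Mb_pos b
  set n := k * Mb b with hn
  have hnN : n ≤ 2 * (Pib b * Mb b) := by
    have h1 : k * Mb b ≤ Pib b * Mb b :=
      Nat.mul_le_mul_right _ (hk.trans ((Nat.le_mul_of_pos_left _ (by norm_num)).trans
        (rb_le_Pib b)))
    omega
  have hkr : (k : ℝ) ≤ rb b := by exact_mod_cast hk
  have hk1r : (1 : ℝ) ≤ k := by exact_mod_cast hk1
  set Bd : Finset (Fin q) := (univ.filter (fun m : Fin q => ((m : ℕ) : ℤ) ∈ bad b)) ∪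
    ((univ.filter (fun m : Fin q => lev b ((m : ℕ) : ℤ) % Mb b < g b)) ∪
    (univ.filter (fun m : Fin q => b0 < b ∧ ∃ t : ℤ, |t - ((m : ℕ) : ℤ)| < l ∧
      lev b t % Mb b = 0))) with hBd
  -- common parts
  have hcutA : ∀ i j : Fin q, win lev b0 l ((i : ℕ) : ℤ) = win lev b0 l ((j : ℕ) : ℤ) →
      ((i : ℕ) : ℤ) ∈ far w lev b k s → ((j : ℕ) : ℤ) ∉ far w lev b k s → i ∈ Bd ∧ j ∈ Bd := by
    intro i j hij h1 h2
    have hne : cell lev b ((i : ℕ) : ℤ) ≠ cell lev b ((j : ℕ) : ℤ) := by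
      intro hce
      apply h2
      have : (((j : ℕ) : ℤ) ∈ far w lev b k s ↔ ((i : ℕ) : ℤ) ∈ far w lev b k s) := by
        simp only [far, Set.mem_ofPred_eq, hce]
      exact this.2 h1
    have hbb' : b0 < b := by
      rcases Nat.lt_or_ge b0 b with h | h
      · exact h
      · have : b = b0 := le_antisymm h hbb
        subst this
        exfalso
        apply hne
        rw [cell_eq hlD, cell_eq hlD, (win_lev hO hb hl hij).2]
    have hab := win_abs hl hij
    rw [abs_lt] at hab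
    rcases le_total ((i : ℕ) : ℤ) ((j : ℕ) : ℤ) with hle | hle
    · obtain ⟨t, ht1, ht2, ht3⟩ := exists_start (steps hO hb1) hle hne
      constructor
      · rw [hBd]
        simp only [Finset.mem_union, Finset.mem_filter, Finset.mem_univ, true_and]
        exact Or.inr (Or.inr ⟨hbb', t, by rw [abs_lt]; omega, ht3⟩)
      · rw [hBd]
        simp only [Finset.mem_union, Finset.mem_filter, Finset.mem_univ, true_and]
        exact Or.inr (Or.inr ⟨hbb', t, by rw [abs_lt]; omega, ht3⟩)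
    · obtain ⟨t, ht1, ht2, ht3⟩ := exists_start (steps hO hb1) hle hne.symm
      constructor
      · rw [hBd]
        simp only [Finset.mem_union, Finset.mem_filter, Finset.mem_univ, true_and]
        exact Or.inr (Or.inr ⟨hbb', t, by rw [abs_lt]; omega, ht3⟩)
      · rw [hBd]
        simp only [Finset.mem_union, Finset.mem_filter, Finset.mem_univ, true_and]
        exact Or.inr (Or.inr ⟨hbb', t, by rw [abs_lt]; omega, ht3⟩)
  have hcutB : ∀ i j : Fin q, win lev b0 l ((i : ℕ) : ℤ) = win lev b0 l ((j : ℕ) : ℤ) →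
      ((i : ℕ) : ℤ) - n ∈ far w lev b k s → ((j : ℕ) : ℤ) - n ∉ far w lev b k s →
      ∀ i' : Fin q, ((i' : ℕ) + n = i ∨ (i' : ℕ) + n = j) → i' ∈ Bd := by
    intro i j hij h1 h2 i' hi'
    rcases Nat.lt_or_ge b0 b with hbb' | hbb'
    · have hne : cell lev b (((i : ℕ) : ℤ) - n) ≠ cell lev b (((j : ℕ) : ℤ) - n) := by
        intro hce
        apply h2
        have : (((j : ℕ) : ℤ) - n ∈ far w lev b k s ↔ ((i : ℕ) : ℤ) - n ∈ far w lev b k s) := by
          simp only [far, Set.mem_ofPred_eq, hce]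
        exact this.2 h1
      have hab := win_abs hl hij
      rw [abs_lt] at hab
      rw [hBd]
      simp only [Finset.mem_union, Finset.mem_filter, Finset.mem_univ, true_and]
      refine Or.inr (Or.inr ⟨hbb', ?_⟩)
      rcases le_total ((i : ℕ) : ℤ) ((j : ℕ) : ℤ) with hle | hle
      · obtain ⟨t, ht1, ht2, ht3⟩ := exists_start (steps hO hb1)
          (m := ((i : ℕ) : ℤ) - n) (m' := ((j : ℕ) : ℤ) - n) (by omega) hne
        exact ⟨t, by rw [abs_lt]; omega, ht3⟩
      · obtain ⟨t, ht1, ht2, ht3⟩ := exists_start (steps hO hb1)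
          (m := ((j : ℕ) : ℤ) - n) (m' := ((i : ℕ) : ℤ) - n) (by omega) hne.symm
        exact ⟨t, by rw [abs_lt]; omega, ht3⟩
    · have : b = b0 := le_antisymm hbb' hbb
      subst this
      by_contra hcon
      rw [hBd] at hcon
      simp only [Finset.mem_union, Finset.mem_filter, Finset.mem_univ, true_and, not_or] at hcon
      have hlev := hO.run b hb _ hcon.1 n (by rw [mul_assoc]; omega)
      obtain ⟨k', hk'⟩ : ∃ k', k = k' + 1 := ⟨k - 1, by omega⟩
      subst hk'
      have hbs : bshift b l D (k' + 1) (Sum.inr (⟨k', by omega⟩, s)) = n := rfl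
      rcases hi' with h3 | h3
      · have e1 : (((i' : ℕ) : ℤ) + n) = ((i : ℕ) : ℤ) := by omega
        rw [e1] at hlev
        exact h2 ((bset_shift_win (w := w) hO hb hl hlD hij
          (Sum.inr (⟨k', by omega⟩, s) : BIdx D (k' + 1)) (by rw [hbs]; omega)).1 h1)
      · have e1 : (((i' : ℕ) : ℤ) + n) = ((j : ℕ) : ℤ) := by omega
        rw [e1] at hlev
        exact h2 ((bset_shift_win (w := w) hO hb hl hlD hij.symm
          (Sum.inr (⟨k', by omega⟩, s) : BIdx D (k' + 1)) (by rw [hbs]; omega)).2 h1)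
  have hcard : (Bd.card : ℝ) ≤ 16 * zb b * q := by
    have h1 := count_bad' hC hB hJ
    have h2 := phase_le hG hO hC hb1 hB hJ hN hq
    have h4 := zb_pos b
    have hq0 : (0 : ℝ) ≤ q := by positivity
    have h5 : (0 : ℝ) ≤ zb b * q := by positivity
    have h3 : (((univ : Finset (Fin q)).filter (fun m : Fin q => b0 < b ∧ ∃ t : ℤ,
        |t - ((m : ℕ) : ℤ)| < l ∧ lev b t % Mb b = 0)).card : ℝ) ≤ zb b * q := by
      rcases Nat.lt_or_ge b0 b with hbb' | hbb'
      · refine le_trans ?_ (close_le hO hC hb1 hbb' hB hJ hN hq hlD)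
        norm_cast
        apply Finset.card_le_card
        intro m hm
        simp only [Finset.mem_filter, Finset.mem_univ, true_and] at hm ⊢
        exact hm.2
      · have : ((univ : Finset (Fin q)).filter (fun m : Fin q => b0 < b ∧ ∃ t : ℤ,
            |t - ((m : ℕ) : ℤ)| < l ∧ lev b t % Mb b = 0)) = ∅ := by
          apply Finset.filter_eq_empty_iff.2
          intro m _ h
          omega
        rw [this]
        simpa using h5
    calc (Bd.card : ℝ) ≤ (((univ.filter (fun m : Fin q => ((m : ℕ) : ℤ) ∈ bad b)).card +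
        ((univ.filter (fun m : Fin q => lev b ((m : ℕ) : ℤ) % Mb b < g b)).card +
        (univ.filter (fun m : Fin q => b0 < b ∧ ∃ t : ℤ, |t - ((m : ℕ) : ℤ)| < l ∧
          lev b t % Mb b = 0)).card) : ℕ) : ℝ) := by
          norm_cast
          refine (Finset.card_union_le _ _).trans (Nat.add_le_add_left ?_ _)
          exact Finset.card_union_le _ _
      _ ≤ _ := by push_cast; linarith
  -- the costs
  rcases s with _ | _
  · refine ⟨Bd, (2 * k - 1) * c b + e b, ?_, ?_, ⟨hcutA, hcutB, ?_, ?_⟩, hcard⟩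
    · have : 0 ≤ (2 * (k : ℝ) - 1) * c b := mul_nonneg (by linarith) hc
      linarith
    · nlinarith
    · intro a h1 h2 _
      rw [hBd] at h2
      simp only [Finset.mem_union, Finset.mem_filter, Finset.mem_univ, true_and, not_or] at h2
      have h4 := (far_cost hO hb1 hk h2.1 (by omega)).1
      rw [← hn] at h4
      refine le_trans ?_ h4
      rw [mem_far_false] at h1
      have : 0 ≤ bv (w b (cell lev b ((a : ℕ) : ℤ))) - bv (w b (cell lev b ((a : ℕ) : ℤ) + k)) := by
        rcases h1 with h1 | h1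
        · rw [h1]
          have := bv_le_one (w b (cell lev b ((a : ℕ) : ℤ) + k))
          have e1 : bv true = 1 := rfl
          linarith
        · rw [h1]
          have := bv_nonneg (w b (cell lev b ((a : ℕ) : ℤ)))
          have e1 : bv false = 0 := rfl
          linarith
      nlinarith
    · intro a h1 h2 _
      rw [hBd] at h2
      simp only [Finset.mem_union, Finset.mem_filter, Finset.mem_univ, true_and, not_or] at h2
      have h4 := (far_cost hO hb1 hk h2.1 (by omega)).2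
      rw [← hn] at h4
      refine le_trans h4 ?_
      rw [mem_far_false] at h1
      simp only [not_or, Bool.not_eq_true, Bool.not_eq_false] at h1
      rw [h1.1, h1.2]
      have e1 : bv false = 0 := rfl
      have e2 : bv true = 1 := rfl
      rw [e1, e2]
      linarith
  · refine ⟨Bd, 2 * k * c b + e b, ?_, ?_, ⟨hcutA, hcutB, ?_, ?_⟩, hcard⟩
    · positivity
    · nlinarith
    · intro a h1 h2 _
      rw [hBd] at h2
      simp only [Finset.mem_union, Finset.mem_filter, Finset.mem_univ, true_and, not_or] at h2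
      have h4 := (far_cost hO hb1 hk h2.1 (by omega)).1
      rw [← hn] at h4
      refine le_trans ?_ h4
      rw [mem_far_true] at h1
      rw [h1.1, h1.2]
      have e1 : bv false = 0 := rfl
      have e2 : bv true = 1 := rfl
      rw [e1, e2]
      linarith
    · intro a h1 h2 _
      rw [hBd] at h2
      simp only [Finset.mem_union, Finset.mem_filter, Finset.mem_univ, true_and, not_or] at h2
      have h4 := (far_cost hO hb1 hk h2.1 (by omega)).2
      rw [← hn] at h4
      refine le_trans h4 ?_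
      have h5 : bv (w b (cell lev b ((a : ℕ) : ℤ))) ≤ bv (w b (cell lev b ((a : ℕ) : ℤ) + k)) := by
        rw [mem_far_true] at h1
        cases hA : w b (cell lev b ((a : ℕ) : ℤ))
        · exact bv_nonneg _
        · cases hA' : w b (cell lev b ((a : ℕ) : ℤ) + k)
          · exact absurd ⟨hA, hA'⟩ h1
          · exact le_rfl
      nlinarith

/-- base sets: the exceptional set is small -/
theorem base_isBd (hG : IsGrowth c e g) (hO : OrbitData w c e g u lev bad)
    (hC : OrbitCounts q N B J lev bad)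
    (hb : 1 ≤ b0) (hB : B ≤ b0) (hJ : b0 ≤ J) (hN : 2 * (Pib b0 * Mb b0) ≤ N)
    (hq : 4 ^ b0 * (Pib b0 * Mb b0) ≤ q)
    (hl : 0 < l) (hlD : D * l = Mb b0) (hK : K ≤ rb b0) (j : BIdx D K) :
    ∃ (Bd : Finset (Fin q)) (v0 : ℝ), 0 ≤ v0 ∧ v0 ≤ 2 * rb b0 * c b0 + e b0 ∧
      IsBd (fun i : Fin q => win lev b0 l ((i : ℕ) : ℤ)) u (bshift b0 l D K j)
        (bset w lev b0 l D K j)
        v0 (c b0 - e b0) Bd ∧ (Bd.card : ℝ) ≤ 16 * zb b0 * q := by
  rcases j with i | ⟨k, s⟩
  · obtain ⟨Bd, h1, h2⟩ := near_isBd hG hO hC hb hB hJ hN hq hl hlD i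
    have hc := c_nonneg hG hb
    refine ⟨Bd, e b0, hG.e_nonneg b0, ?_, h1, h2⟩
    have : 0 ≤ 2 * (rb b0 : ℝ) * c b0 := by positivity
    linarith
  · exact far_isBd hG hO hC hb le_rfl hB hJ hN hq hl hlD (by omega)
      (by have := k.2; omega) s

end Crest.Agent.R113.Orb
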