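import Crest.Agent.R113.Basic
import Crest.Agent.R113.Flux
import Crest.Agent.R113.FD.Off
import Crest.Agent.R113.FD.OffBase
import Crest.Agent.R113.FD.OffBridge
import Crest.Agent.R113.FD.OrbitC

/-!
Row 113, S0149, T12 (helper244): flux inequality + base flux bound + Off bound combined.
-/

set_option autoImplicit false

namespace Crest.Agent.R113.Orb

open Finset

theorem Mb_pos (b : ℕ) : 0 < Mb b := by unfold Mb; positivity
theorem Pib_pos (b : ℕ) : 0 < Pib b := by unfold Pib; positivity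

attribute [local irreducible] Mb rb Pib

theorem zb_nonneg (b : ℕ) : 0 ≤ zb b := by unfold zb; positivity

theorem finrank_map_eq {q : ℕ} (E : Submodule ℂ (EuclideanSpace ℂ (Fin q)))
    (a : EuclideanSpace ℂ (Fin q) →ₗ[ℂ] EuclideanSpace ℂ (Fin q)) (κ : ℝ)
    (ha2 : ∀ v, Real.exp (-κ) * ‖v‖ ≤ ‖a v‖) :
    Module.finrank ℂ (E.map a) = Module.finrank ℂ E := by
  have hinj : Function.Injective a := by
    rw [← LinearMap.ker_eq_bot, LinearMap.ker_eq_bot']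
    intro v hv
    have := ha2 v
    rw [hv, norm_zero] at this
    have h0 : ‖v‖ ≤ 0 := by
      by_contra hcon
      push Not at hcon
      have : 0 < Real.exp (-κ) * ‖v‖ := by positivity
      linarith
    exact norm_le_zero_iff.mp h0
  exact (LinearEquiv.finrank_eq (Submodule.equivMapOfInjective a hinj E)).symm

variable {w : ℕ → ℕ → Bool} {c e : ℕ → ℝ} {g : ℕ → ℕ} {u : ℤ → ℝ} {lev : ℕ → ℤ → ℕ}
  {bad : ℕ → Set ℤ} {q N B J b0 l D K : ℕ}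

open Classical in
/-- flux inequality + moving inequality for a set with exceptional set `Bd` -/
theorem flux_isBd (win : Fin q → ℤ) (E : Submodule ℂ (EuclideanSpace ℂ (Fin q))) (u : ℤ → ℝ)
    (n : ℕ) (cs d : ℝ) (hd : 0 ≤ d)
    (hinv : ∃ E' : Submodule ℂ (EuclideanSpace ℂ (Fin q)), AppInv E E' u n (Real.exp (-cs)) d)
    (a : EuclideanSpace ℂ (Fin q) →ₗ[ℂ] EuclideanSpace ℂ (Fin q))
    (ha : BlockDiag win a)
    (κ : ℝ) (hκ : 0 ≤ κ) (ha1 : ∀ v, ‖a v‖ ≤ ‖v‖) (ha2 : ∀ v, Real.exp (-κ) * ‖v‖ ≤ ‖a v‖)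
    (A : Set ℤ) (Bd : Finset (Fin q)) (v0 γ : ℝ) (hv0 : 0 ≤ v0) (hγ0 : 0 < γ)
    (hγ : 8 * κ ≤ γ) (hcs : v0 + 5 * γ + 10 ≤ cs)
    (hBd : IsBd win u n A v0 γ Bd) :
    cutM (fun i j => ‖ent (E.map a) i j‖ ^ 2) A ≤ flux (dg (E.map a)) A n
      + (10 * Real.exp (-γ / 4) * q + d + Bd.card) ∧
    ∀ s : ℝ, 0 ≤ s → s ≤ γ / 4 →
      trOn (E.map a) (fs q A) - trOn ((E.map a).map (scal (fs q A) s)) (fs q A) ≤
        flux (dg (E.map a)) A n + (10 * Real.exp (-γ / 4) * q + d + Bd.card) := by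
  obtain ⟨E', hE'⟩ := hinv
  have h := flux_window win E E' u n cs d hd hE' a ha κ hκ ha1 ha2 A Bd v0 γ hv0 hγ0 hγ hcs
    hBd.cutA hBd.cutB hBd.onA hBd.offA
  rw [cut_fs, flux_fs] at h
  constructor
  · have := h.1
    linarith
  · intro s hs hs'
    have := h.2 s hs hs'
    linarith

theorem bshift_le_N (hlD : D * l = Mb b0) (hK : K ≤ rb b0)
    (hN : 2 * (Pib b0 * Mb b0) ≤ N) (j : BIdx D K) : bshift b0 l D K j ≤ N := by
  have h1 : 1024 * rb b0 ≤ Pib b0 := rb_le_Pib b0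
  have h2 : rb b0 * Mb b0 ≤ Pib b0 * Mb b0 := Nat.mul_le_mul_right _ (by omega)
  have hrp := rb_one_le b0
  have h3 : Mb b0 ≤ rb b0 * Mb b0 := Nat.le_mul_of_pos_left _ (by omega)
  rcases j with i | ks
  · have hi := i.2
    have h4 : (i.1 + 1) * l ≤ D * l := Nat.mul_le_mul_right _ (by omega)
    change (i.1 + 1) * l ≤ N
    omega
  · have hi := ks.1.2
    have h4 : (ks.1.1 + 1) * Mb b0 ≤ rb b0 * Mb b0 := Nat.mul_le_mul_right _ (by omega)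
    change (ks.1.1 + 1) * Mb b0 ≤ N
    omega

/-- error bound for one set -/
theorem err_le (γ η E0 zbb : ℝ) (q : ℕ) (Bd : Finset (Fin q)) (hBd : (Bd.card : ℝ) ≤ 16 * zbb * q)
    (hsm : 10 * Real.exp (-γ / 4) + η ≤ 2 * zbb) (hE : E0 = 18) :
    10 * Real.exp (-γ / 4) * q + η * q + Bd.card ≤ E0 * zbb * q := by
  have hq : (0 : ℝ) ≤ q := Nat.cast_nonneg _
  rw [hE]
  nlinarith

open Classical in
/-- The Off bound for `X = aE`, from the g-flux inequality. -/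
theorem off_combined (hw : IsWords w) (hG : IsGrowth c e g) (hO : OrbitData w c e g u lev bad)
    (hC : OrbitCounts q N B J lev bad)
    {J' : ℕ} (hb : 1 ≤ b0) (hB : B ≤ b0) (hJ : 4 ^ J' * b0 ≤ J)
    (hN : 2 * (Pib (4 ^ J' * b0) * Mb (4 ^ J' * b0)) ≤ N)
    (hq : 4 ^ (4 ^ J' * b0) * (Pib (4 ^ J' * b0) * Mb (4 ^ J' * b0)) ≤ q)
    (hl : 0 < l) (hlD : D * l = Mb b0) (hK1 : 1 ≤ K) (hK : K ≤ rb b0)
    (E : Submodule ℂ (EuclideanSpace ℂ (Fin q))) (cs η : ℝ) (hη : 0 ≤ η)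
    (hE3 : ∀ n ≤ N, ∃ E' : Submodule ℂ (EuclideanSpace ℂ (Fin q)),
      AppInv E E' u n (Real.exp (-cs)) (η * q))
    (a : EuclideanSpace ℂ (Fin q) →ₗ[ℂ] EuclideanSpace ℂ (Fin q))
    (ha : BlockDiag (fun i : Fin q => win lev b0 l ((i : ℕ) : ℤ)) a)
    (κ : ℝ) (hκ : 0 < κ) (ha1 : ∀ v, ‖a v‖ ≤ ‖v‖) (ha2 : ∀ v, Real.exp (-κ) * ‖v‖ ≤ ‖a v‖)
    (θ0 ηf tl : ℝ)
    (hκc : ∀ b, b0 ≤ b → b ≤ 4 ^ J' * b0 → 8 * κ ≤ c b - e b)
    (hcs : ∀ b, b0 ≤ b → b ≤ 4 ^ J' * b0 → (2 * rb b * c b + e b) + 5 * (c b - e b) + 10 ≤ cs)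
    (hsm : ∀ b, b0 ≤ b → b ≤ 4 ^ J' * b0 → 10 * Real.exp (-(c b - e b) / 4) + η ≤ 2 * zb b)
    (hg : ∑ m : Fin q, dg (E.map a) m * gfun w lev b0 l K ((m : ℕ) : ℤ) ≤
      ∑ m : Fin q, dg E m * gfun w lev b0 l K ((m : ℕ) : ℤ) + θ0 * q)
    (hf : ∀ j : BIdx D K, flux (dg E) (bset w lev b0 l D K j) (bshift b0 l D K j) ≤ ηf * q)
    (htail : ∑ m : Fin q, ∑ m' : Fin q,
      (if 2 * (Mb (4 ^ (J' + 1) * b0) : ℤ) < |((m : ℕ) : ℤ) - ((m' : ℕ) : ℤ)| then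
        ‖ent (E.map a) m m'‖ ^ 2 else 0) ≤ tl * q) :
    offw (fun i : Fin q => win lev b0 l ((i : ℕ) : ℤ)) (E.map a) ≤
      (130 * (2 * θ0 + 4 / K + (D + 1) * ηf + 4 * (D + 1) * zb b0) + 512 / K
        + 400 / Real.sqrt b0 + (130 * (D + 1) * 18 + 256 * 18 + 1100) * zb b0 + tl) * q := by
  have hb0J : b0 ≤ 4 ^ J' * b0 := Nat.le_mul_of_pos_left _ (by positivity)
  have hbig : ∀ b, b ≤ 4 ^ J' * b0 → 2 * (Pib b * Mb b) ≤ N ∧ 4 ^ b * (Pib b * Mb b) ≤ q := by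
    intro b hbJ
    have h1 := Pib_mono hbJ
    have h2 := Mb_mono hbJ
    have h3 : Pib b * Mb b ≤ Pib (4 ^ J' * b0) * Mb (4 ^ J' * b0) := Nat.mul_le_mul h1 h2
    have h4 : 4 ^ b ≤ 4 ^ (4 ^ J' * b0) := Nat.pow_le_pow_right (by norm_num) hbJ
    exact ⟨by omega, (Nat.mul_le_mul h4 h3).trans hq⟩
  have hfin := finrank_map_eq E a κ ha2
  have hnear : ∀ j : BIdx D K,
      cutM (fun i j => ‖ent (E.map a) i j‖ ^ 2) (bset w lev b0 l D K j) ≤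
        flux (dg (E.map a)) (bset w lev b0 l D K j) (bshift b0 l D K j) + 18 * zb b0 * q := by
    intro j
    obtain ⟨Bd, v0, hv0, hv0', hBd, hcard⟩ := base_isBd hG hO hC hb hB (hb0J.trans hJ)
      (hbig b0 hb0J).1 (hbig b0 hb0J).2 hl hlD hK j
    have hc1 := hκc b0 le_rfl hb0J
    have h := (flux_isBd (fun i : Fin q => win lev b0 l ((i : ℕ) : ℤ)) E u
      (bshift b0 l D K j) cs (η * q) (by positivity)
      (hE3 _ (bshift_le_N hlD hK (hbig b0 hb0J).1 j)) a ha κ hκ.le ha1 ha2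
      (bset w lev b0 l D K j) Bd v0 (c b0 - e b0) hv0 (by linarith) hc1
      (by have := hcs b0 le_rfl hb0J; linarith) hBd).1
    have h2 := err_le (c b0 - e b0) η 18 (zb b0) q Bd hcard (hsm b0 le_rfl hb0J) rfl
    linarith
  have hfar : ∀ b, b0 ≤ b → b ≤ 4 ^ J' * b0 → ∀ k, 1 ≤ k → k ≤ rb b → ∀ s,
      cutM (fun i j => ‖ent (E.map a) i j‖ ^ 2) (far w lev b k s) ≤
        flux (dg (E.map a)) (far w lev b k s) (k * Mb b) + 18 * zb b * q := by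
    intro b hbb hbJ k hk1 hk s
    obtain ⟨Bd, v0, hv0, hv0', hBd, hcard⟩ := far_isBd hG hO hC hb hbb (hB.trans hbb)
      (hbJ.trans hJ) (hbig b hbJ).1 (hbig b hbJ).2 hl hlD hk1 hk s
    have hc1 := hκc b hbb hbJ
    have hkN : k * Mb b ≤ N := by
      have h1 : 1024 * rb b ≤ Pib b := rb_le_Pib b
      have h2 : k * Mb b ≤ Pib b * Mb b := Nat.mul_le_mul_right _ (by omega)
      have h3 := (hbig b hbJ).1
      omega
    have h := (flux_isBd (fun i : Fin q => win lev b0 l ((i : ℕ) : ℤ)) E u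
      (k * Mb b) cs (η * q) (by positivity)
      (hE3 _ hkN) a ha κ hκ.le ha1 ha2
      (far w lev b k s) Bd v0 (c b - e b) hv0 (by linarith) hc1
      (by have := hcs b hbb hbJ; linarith) hBd).1
    have h2 := err_le (c b - e b) η 18 (zb b) q Bd hcard (hsm b hbb hbJ) rfl
    linarith
  have hbase := base_flux_le hw hO hC hb hB (hb0J.trans hJ) (hbig b0 hb0J).1 hl hlD hK1 hK
    (dg (E.map a)) (dg E) (dg_nonneg _) (dg_le_one _) (dg_nonneg _) (dg_le_one _)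
    (by rw [sum_dg, sum_dg, hfin]) θ0 ηf hg hf
  have h := off_le hw hO hC hb hB hJ hN hq hl hlD hK1 hK
    (fun i j => ‖ent (E.map a) i j‖ ^ 2) (dg (E.map a)) (mass_ent _) _ tl 18 (by norm_num)
    hnear hfar hbase htail
  exact h

end Crest.Agent.R113.Orb
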