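import Crest.Agent.R113.Defs

/-!
Row 113, S0149, T12: definitions for the choice of the parameters of the base block.
`D = 2^d`, `l = M_{b0}/D`, `lh = l/2^ν`, `W = l^6 (1+e b0)`, `κ = W + (W/θ0)(D+1)`,
`ηf = 2η1 + 2/2^ν + 40 zb b0`.
-/

set_option autoImplicit false

namespace Crest.Agent.R113.Orb

/-- `W = l^6 (1 + e)` -/
noncomputable def WW (e : ℕ → ℝ) (b0 l : ℕ) : ℝ := (l : ℝ) ^ 6 * (1 + e b0)

/-- `κ = W + (W/θ0)(D+1)` -/
noncomputable def KK (e : ℕ → ℝ) (b0 l : ℕ) (θ0 D : ℝ) : ℝ := WW e b0 l + WW e b0 l / θ0 * (D + 1)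

/-- bound for the fluxes of the base sets at `E` -/
noncomputable def etaf (η1 : ℝ) (ν b0 : ℕ) : ℝ := 2 * η1 + 2 / 2 ^ ν + 40 * zb b0

/-- `ε₃`: share of the positions outside the good windows -/
noncomputable def eps3 (D : ℝ) (b0 : ℕ) : ℝ := 2 / D + 50 * zb b0

/-- `ε₂`: the `ℓ¹` distance of `diag P_E` and the union of tails -/
noncomputable def eps2 (η1 ω W D : ℝ) (K d ν b0 l : ℕ) : ℝ :=
  2 * 3 ^ (2 ^ d - 1 + 2 * K) * (etaf η1 ν b0 + 18 * zb b0)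
    + Real.sqrt (60 * ω + 2 * Real.exp (-(2 * W)))
    + (2 * Real.sqrt (2 * (60 * ω + ω + eps3 D b0)) + 1 / (4 * l))

end Crest.Agent.R113.Orb
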