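import Crest.Agent.R113.FD.AParamsDefs

/-!
Row 113, S0149, T12 (helper244): the growth part of the choice of the parameters: the base block
`b0` is a near-minimiser of `e` on a half line.
-/

set_option autoImplicit false

namespace Crest.Agent.R113.Orb

theorem exists_near_min (e : ℕ → ℝ) (h0 : ∀ b, 0 ≤ e b) (B : ℕ) :
    ∃ b0, B ≤ b0 ∧ ∀ b, B ≤ b → e b0 ≤ e b + 1 := by
  have hne : (e '' Set.Ici B).Nonempty := ⟨e B, B, le_refl B, rfl⟩
  have hbd : BddBelow (e '' Set.Ici B) := ⟨0, by rintro _ ⟨b, _, rfl⟩; exact h0 b⟩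
  obtain ⟨_, ⟨b0, hb0, rfl⟩, hlt⟩ := exists_lt_of_csInf_lt hne
    (show sInf (e '' Set.Ici B) < sInf (e '' Set.Ici B) + 1 by linarith)
  refine ⟨b0, hb0, fun b hb => ?_⟩
  have := csInf_le hbd ⟨b, hb, rfl⟩
  linarith

theorem params_growth {c e : ℕ → ℝ} {g : ℕ → ℕ} (hG : IsGrowth c e g) (θ0 : ℝ) (hθ : 0 < θ0)
    (d B1 : ℕ) : ∃ b0, B1 ≤ b0 ∧ ∀ l, 2 ^ d * l = Mb b0 → (g b0 ≤ l ∧
      (∀ b, b0 ≤ b → 8 * KK e b0 l θ0 (2 ^ d) ≤ c b - e b) ∧
      (∀ b, b0 ≤ b → 10 * Real.exp (-(c b - e b) / 4) ≤ zb b) ∧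
      5 * Real.exp (-WW e b0 l) ≤ Real.exp (-(10 * l * (e b0 + 100 * (l : ℝ) ^ 3)))) := by
  obtain ⟨T, hT⟩ := pow_unbounded_of_one_lt (17 + 16 * ((2 : ℝ) ^ d + 1) / θ0)
    (show (1 : ℝ) < 4 by norm_num)
  obtain ⟨b0, hb0, hmin⟩ := exists_near_min e hG.e_nonneg (max (max B1 T) (d + 5))
  have hB1 : B1 ≤ b0 := (le_max_left _ _).trans ((le_max_left _ _).trans hb0)
  have hTb : T ≤ b0 := (le_max_right _ _).trans ((le_max_left _ _).trans hb0)
  have hd : d + 5 ≤ b0 := (le_max_right _ _).trans hb0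
  have he0 : 0 ≤ e b0 := hG.e_nonneg b0
  refine ⟨b0, hB1, fun l hl => ?_⟩
  have hD : (0 : ℝ) < 2 ^ d := by positivity
  -- `l ≥ 32`
  have hl32 : 32 ≤ l := by
    by_contra hcon
    have h1 : l ≤ 31 := by omega
    have h2 : 2 ^ d * l ≤ 2 ^ d * 31 := Nat.mul_le_mul_left _ h1
    have h3 : 2 ^ (d + 5) ≤ Mb b0 := by
      unfold Mb
      apply Nat.pow_le_pow_right (by norm_num)
      nlinarith
    have h4 : 2 ^ (d + 5) = 2 ^ d * 32 := by rw [pow_add]; norm_num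
    have h5 : 0 < 2 ^ d := by positivity
    omega
  have hl32' : (32 : ℝ) ≤ l := by exact_mod_cast hl32
  have hlpos : (0 : ℝ) < l := by linarith
  -- common bound
  have hcom : ∀ b, b0 ≤ b → 16 * (l : ℝ) ^ 6 * (1 + ((2 : ℝ) ^ d + 1) / θ0) ≤
      4 ^ b * (Mb b : ℝ) ^ 20 - 1 := by
    intro b hb
    have hMb : (1 : ℝ) ≤ Mb b := by
      have : 0 < Mb b := by unfold Mb; positivity
      exact_mod_cast this
    have hlM : (l : ℝ) ≤ Mb b := by
      have h1 : l ≤ 2 ^ d * l := Nat.le_mul_of_pos_left _ (by positivity)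
      have h2 : Mb b0 ≤ Mb b := by
        unfold Mb
        apply Nat.pow_le_pow_right (by norm_num)
        nlinarith
      have : l ≤ Mb b := by omega
      exact_mod_cast this
    have h1 : (l : ℝ) ^ 6 ≤ (Mb b : ℝ) ^ 20 :=
      (pow_le_pow_left₀ hlpos.le hlM 6).trans (pow_le_pow_right₀ hMb (by norm_num))
    have h2 : (17 + 16 * ((2 : ℝ) ^ d + 1) / θ0) ≤ 4 ^ b :=
      hT.le.trans (pow_le_pow_right₀ (by norm_num) (hTb.trans hb))
    have h3 : (1 : ℝ) ≤ (Mb b : ℝ) ^ 20 := one_le_pow₀ hMb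
    have h4 : 0 ≤ 16 * (1 + ((2 : ℝ) ^ d + 1) / θ0) := by positivity
    have h5 : 16 * (1 + ((2 : ℝ) ^ d + 1) / θ0) + 1 ≤ 4 ^ b := by
      have : 16 * (1 + ((2 : ℝ) ^ d + 1) / θ0) + 1 = 17 + 16 * ((2 : ℝ) ^ d + 1) / θ0 := by ring
      rw [this]; exact h2
    calc 16 * (l : ℝ) ^ 6 * (1 + ((2 : ℝ) ^ d + 1) / θ0)
        = 16 * (1 + ((2 : ℝ) ^ d + 1) / θ0) * (l : ℝ) ^ 6 := by ring
      _ ≤ 16 * (1 + ((2 : ℝ) ^ d + 1) / θ0) * (Mb b : ℝ) ^ 20 :=
          mul_le_mul_of_nonneg_left h1 h4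
      _ ≤ 4 ^ b * (Mb b : ℝ) ^ 20 - 1 := by nlinarith
  have hc : ∀ b, b0 ≤ b → (4 ^ b * (Mb b : ℝ) ^ 20 - 1) * (1 + e b) ≤ c b - e b := by
    intro b hb
    have h1 := hG.c_ge b (by omega)
    have h2 := hG.e_nonneg b
    nlinarith
  have hpos : ∀ b, b0 ≤ b → 0 ≤ 4 ^ b * (Mb b : ℝ) ^ 20 - 1 := by
    intro b hb
    refine le_trans ?_ (hcom b hb)
    positivity
  refine ⟨?_, ?_, ?_, ?_⟩
  · -- g
    have h1 := hG.g_le b0 (by omega)
    rw [← hl] at h1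
    have h2 : 2 ^ d ≤ 4 ^ b0 := by
      have : (4 : ℕ) ^ b0 = 2 ^ (2 * b0) := by rw [pow_mul]; norm_num
      rw [this]
      exact Nat.pow_le_pow_right (by norm_num) (by omega)
    have h3 : 4 ^ b0 * g b0 ≤ 4 ^ b0 * l := h1.trans (Nat.mul_le_mul_right _ h2)
    exact Nat.le_of_mul_le_mul_left h3 (by positivity)
  · -- cost
    intro b hb
    have hbm : max (max B1 T) (d + 5) ≤ b := hb0.trans hb
    have h1 := hmin b hbm
    have h2 : (1 + e b0) / 2 ≤ 1 + e b := by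
      have := hG.e_nonneg b
      linarith
    have h3 : 8 * KK e b0 l θ0 (2 ^ d) =
        (16 * (l : ℝ) ^ 6 * (1 + ((2 : ℝ) ^ d + 1) / θ0)) * ((1 + e b0) / 2) := by
      unfold KK WW
      ring
    rw [h3]
    refine (mul_le_mul (hcom b hb) h2 (by positivity) (hpos b hb)).trans (hc b hb)
  · -- exponential error
    intro b hb
    have h1 := hc b hb
    have h2 := hG.e_nonneg b
    have h3 : 4 ^ b * (Mb b : ℝ) ^ 20 - 1 ≤ c b - e b := by
      have := hpos b hb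
      nlinarith
    have hM : (2 : ℝ) ^ 20 ≤ (Mb b : ℝ) ^ 20 := by
      apply pow_le_pow_left₀ (by norm_num)
      have : 2 ≤ Mb b := by
        unfold Mb
        calc 2 = 2 ^ 1 := by norm_num
          _ ≤ 2 ^ (20 * b ^ 2) := by
            apply Nat.pow_le_pow_right (by norm_num)
            have : 1 ≤ b := by omega
            nlinarith
      exact_mod_cast this
    have h4 : (2 : ℝ) ^ b ≤ 4 ^ b := pow_le_pow_left₀ (by norm_num) (by norm_num) _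
    have h5 : (1 : ℝ) ≤ 2 ^ b := one_le_pow₀ (by norm_num)
    have h6 : 10 * (2 : ℝ) ^ b ≤ (c b - e b) / 4 := by
      have h7 : (2 : ℝ) ^ b * 2 ^ 20 ≤ 4 ^ b * (Mb b : ℝ) ^ 20 :=
        mul_le_mul h4 hM (by positivity) (by positivity)
      norm_num at h7
      linarith
    have h8 : (c b - e b) / 4 ≤ Real.exp ((c b - e b) / 4) := by
      have := Real.add_one_le_exp ((c b - e b) / 4)
      linarith
    have h9 : -(c b - e b) / 4 = -((c b - e b) / 4) := by ring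
    rw [h9, Real.exp_neg]
    have h10 : 10 * (2 : ℝ) ^ b ≤ Real.exp ((c b - e b) / 4) := h6.trans h8
    have h11 : zb b = ((2 : ℝ) ^ b)⁻¹ := by
      unfold zb; rw [one_div, inv_pow]
    rw [h11]
    have h12 : (Real.exp ((c b - e b) / 4))⁻¹ ≤ (10 * (2 : ℝ) ^ b)⁻¹ :=
      inv_anti₀ (by positivity) h10
    calc 10 * (Real.exp ((c b - e b) / 4))⁻¹ ≤ 10 * (10 * (2 : ℝ) ^ b)⁻¹ := by
          apply mul_le_mul_of_nonneg_left h12 (by norm_num)
      _ = ((2 : ℝ) ^ b)⁻¹ := by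
          rw [mul_inv]; ring
  · -- window lemma exponent
    have h5 : (5 : ℝ) ≤ Real.exp 2 := by
      have := Real.add_one_le_exp (1 : ℝ)
      have h1 : Real.exp 2 = Real.exp 1 * Real.exp 1 := by rw [← Real.exp_add]; norm_num
      have h2 := Real.exp_one_gt_d9
      rw [h1]
      nlinarith
    have h6 : 10 * (l : ℝ) * (e b0 + 100 * (l : ℝ) ^ 3) + 2 ≤ WW e b0 l := by
      unfold WW
      have h7 : (1024 : ℝ) * (l : ℝ) ^ 4 ≤ (l : ℝ) ^ 6 := by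
        have : (1024 : ℝ) ≤ (l : ℝ) ^ 2 := by nlinarith
        calc (1024 : ℝ) * (l : ℝ) ^ 4 ≤ (l : ℝ) ^ 2 * (l : ℝ) ^ 4 := by gcongr
          _ = (l : ℝ) ^ 6 := by ring
      have h8 : (1 : ℝ) ≤ (l : ℝ) ^ 4 := one_le_pow₀ (by linarith)
      have h9 : 10 * (l : ℝ) ≤ (l : ℝ) ^ 6 := by
        have h10 : (l : ℝ) ≤ (l : ℝ) ^ 4 := by
          calc (l : ℝ) = (l : ℝ) ^ 1 := by ring
            _ ≤ (l : ℝ) ^ 4 := pow_le_pow_right₀ (by linarith) (by norm_num)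
        linarith
      nlinarith
    calc 5 * Real.exp (-WW e b0 l) ≤ Real.exp 2 * Real.exp (-WW e b0 l) := by
          apply mul_le_mul_of_nonneg_right h5 (Real.exp_pos _).le
      _ = Real.exp (2 - WW e b0 l) := by rw [← Real.exp_add]; ring_nf
      _ ≤ _ := Real.exp_le_exp.mpr (by linarith)

end Crest.Agent.R113.Orb
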