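import Crest.Agent.R113.FD.AParamsG

/-!
Row 113, S0149, T12 (helper244): the real inequalities of the choice of the parameters.
-/

set_option autoImplicit false

namespace Crest.Agent.R113.Orb

/-- (S1) as a real inequality. -/
theorem ineq1 {ω θ0 k P x z r : ℝ} (hω : 0 < ω) (hP : 1 ≤ P) (hθ : θ0 = ω / 3000)
    (hk : 10320 / ω ≤ k) (hx : x ≤ ω / (2600 * P)) (hz0 : 0 ≤ z) (hz : z ≤ ω / (140000 * P))
    (hr : r ≤ ω / 4000) :
    130 * (2 * θ0 + 4 / k + P * (x + 40 * z) + 4 * P * z) + 512 / k + 400 * r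
      + (130 * P * 18 + 256 * 18 + 1100) * z + ω / 10 ≤ ω := by
  have hP0 : 0 < P := by linarith
  have hk0 : 0 < k := lt_of_lt_of_le (by positivity) hk
  have h1 : 1 / k ≤ ω / 10320 := by
    rw [div_le_iff₀ hk0]
    rw [div_le_iff₀ hω] at hk
    linarith
  have h4 : 4 / k = 4 * (1 / k) := by ring
  have h5 : 512 / k = 512 * (1 / k) := by ring
  have h2 : P * x ≤ ω / 2600 := by
    calc P * x ≤ P * (ω / (2600 * P)) := mul_le_mul_of_nonneg_left hx hP0.le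
      _ = ω / 2600 := by field_simp
  have h3 : P * z ≤ ω / 140000 := by
    calc P * z ≤ P * (ω / (140000 * P)) := mul_le_mul_of_nonneg_left hz hP0.le
      _ = ω / 140000 := by field_simp
  have h6 : z ≤ P * z := by nlinarith
  have e1 : 130 * (2 * θ0 + 4 / k + P * (x + 40 * z) + 4 * P * z) + 512 / k + 400 * r
      + (130 * P * 18 + 256 * 18 + 1100) * z + ω / 10 =
      260 * θ0 + 1032 * (1 / k) + 130 * (P * x) + 8060 * (P * z) + 400 * r + 5708 * z + ω / 10 := by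
    rw [h4, h5]; ring
  rw [e1, hθ]
  linarith

/-- (S2) as a real inequality; `A = 3^L`. -/
theorem ineq2 {μ ω A x z y D r η1 ν' : ℝ} (hμ : 0 < μ) (hμ1 : μ ≤ 1 / 2)
    (hω : ω = μ ^ 2 / 250000) (hA : 1 ≤ A) (hx : x ≤ μ / (200 * A)) (hz0 : 0 ≤ z)
    (hz : z ≤ μ / (11600 * A)) (hz2 : z ≤ μ ^ 2 / 100000) (hηx : 2 * η1 + 2 * ν' = x)
    (hD : 2 / D ≤ μ ^ 2 / 2000) (hy : y ≤ μ ^ 2 / 1000) (hr : r ≤ μ / 40) :
    2 * (η1 + ν' + (2 * A * (x + 40 * z + 18 * z) + Real.sqrt (60 * ω + 2 * y)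
      + (2 * Real.sqrt (2 * (60 * ω + ω + (2 / D + 50 * z))) + r))) <
      μ * (1 - (2 / D + 50 * z)) / 2 := by
  have hA0 : 0 < A := by linarith
  have h1 : A * x ≤ μ / 200 := by
    calc A * x ≤ A * (μ / (200 * A)) := mul_le_mul_of_nonneg_left hx hA0.le
      _ = μ / 200 := by field_simp
  have h2 : A * z ≤ μ / 11600 := by
    calc A * z ≤ A * (μ / (11600 * A)) := mul_le_mul_of_nonneg_left hz hA0.le
      _ = μ / 11600 := by field_simp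
  have h3 : x ≤ μ / 200 := by
    refine hx.trans ?_
    apply div_le_div_of_nonneg_left hμ.le (by norm_num) (by linarith)
  have h4 : Real.sqrt (60 * ω + 2 * y) ≤ μ / 20 := by
    apply Real.sqrt_le_iff.mpr
    refine ⟨by positivity, ?_⟩
    rw [hω]
    nlinarith
  have h5 : Real.sqrt (2 * (60 * ω + ω + (2 / D + 50 * z))) ≤ μ / 20 := by
    apply Real.sqrt_le_iff.mpr
    refine ⟨by positivity, ?_⟩
    rw [hω]
    nlinarith
  have h6 : 2 / D + 50 * z ≤ 1 / 100 := by nlinarith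
  have h7 : μ * (99 / 100) / 2 ≤ μ * (1 - (2 / D + 50 * z)) / 2 := by
    have : μ * (99 / 100) ≤ μ * (1 - (2 / D + 50 * z)) :=
      mul_le_mul_of_nonneg_left (by linarith) hμ.le
    linarith
  refine lt_of_lt_of_le ?_ h7
  have e1 : 2 * (η1 + ν' + (2 * A * (x + 40 * z + 18 * z) + Real.sqrt (60 * ω + 2 * y)
      + (2 * Real.sqrt (2 * (60 * ω + ω + (2 / D + 50 * z))) + r))) =
      (2 * η1 + 2 * ν') + 4 * (A * x) + 232 * (A * z) + 2 * Real.sqrt (60 * ω + 2 * y)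
      + 4 * Real.sqrt (2 * (60 * ω + ω + (2 / D + 50 * z))) + 2 * r := by ring
  rw [e1, hηx]
  linarith

theorem exists_zb_le {z0 : ℝ} (hz0 : 0 < z0) : ∃ T : ℕ, ∀ b, T ≤ b → zb b ≤ z0 := by
  obtain ⟨T, hT⟩ := exists_pow_lt_of_lt_one hz0 (show (1 / 2 : ℝ) < 1 by norm_num)
  refine ⟨T, fun b hb => ?_⟩
  unfold zb
  exact (pow_le_pow_of_le_one (by norm_num) (by norm_num) hb).trans hT.le

theorem params1 {c e : ℕ → ℝ} {g : ℕ → ℕ} (hG : IsGrowth c e g) {μ : ℝ} (hμ : 0 < μ)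
    (hμ1 : μ ≤ 1 / 2) :
    ∃ (θ0 ω η1 : ℝ) (K d ν : ℕ), 0 < θ0 ∧ 0 < ω ∧ 0 < η1 ∧ 1 ≤ K ∧ 1 ≤ d ∧ 1 ≤ ν ∧
      ∀ l0 : ℕ, ∃ b0 l lh : ℕ, 10 ≤ b0 ∧ K ≤ rb b0 ∧ 2 ^ d * l = Mb b0 ∧ 2 ^ ν * lh = l ∧
        l0 ≤ lh ∧ 1 ≤ lh ∧ g b0 ≤ l ∧
        (∀ b, b0 ≤ b → 8 * KK e b0 l θ0 (2 ^ d) ≤ c b - e b) ∧
        (∀ b, b0 ≤ b → 10 * Real.exp (-(c b - e b) / 4) ≤ zb b) ∧
        5 * Real.exp (-WW e b0 l) ≤ Real.exp (-(10 * l * (e b0 + 100 * (l : ℝ) ^ 3))) ∧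
        130 * (2 * θ0 + 4 / K + ((2 : ℝ) ^ d + 1) * etaf η1 ν b0 + 4 * ((2 : ℝ) ^ d + 1) * zb b0)
          + 512 / K + 400 / Real.sqrt b0
          + (130 * ((2 : ℝ) ^ d + 1) * 18 + 256 * 18 + 1100) * zb b0 + ω / 10 ≤ ω ∧
        2 * (η1 + 1 / 2 ^ ν + eps2 η1 ω (WW e b0 l) (2 ^ d) K d ν b0 l) <
          μ * (1 - eps3 (2 ^ d) b0) / 2 := by
  obtain ⟨ω, hω⟩ : ∃ ω : ℝ, ω = μ ^ 2 / 250000 := ⟨_, rfl⟩
  have hω0 : 0 < ω := by rw [hω]; positivity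
  obtain ⟨K0, hK0⟩ := exists_nat_ge (10320 / ω)
  obtain ⟨d0, hd0⟩ := exists_pow_lt_of_lt_one (show 0 < μ ^ 2 / 4000 by positivity)
    (show (1 / 2 : ℝ) < 1 by norm_num)
  set K := max K0 1 with hK
  set d := max d0 1 with hd
  have hKr : 10320 / ω ≤ (K : ℝ) := hK0.trans (by rw [hK]; exact_mod_cast le_max_left _ _)
  have hdr : 2 / (2 : ℝ) ^ d ≤ μ ^ 2 / 2000 := by
    have h1 : (1 / 2 : ℝ) ^ d ≤ (1 / 2 : ℝ) ^ d0 :=
      pow_le_pow_of_le_one (by norm_num) (by norm_num) (le_max_left _ _)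
    have h2 : 2 / (2 : ℝ) ^ d = 2 * (1 / 2 : ℝ) ^ d := by
      rw [one_div, inv_pow]; ring
    rw [h2]
    linarith
  set P : ℝ := 2 ^ d + 1 with hP
  set A : ℝ := 3 ^ (2 ^ d - 1 + 2 * K) with hA
  have hP1 : 1 ≤ P := by rw [hP]; have : (0 : ℝ) < 2 ^ d := by positivity
                         linarith
  have hA1 : 1 ≤ A := by rw [hA]; exact one_le_pow₀ (by norm_num)
  have hP0 : 0 < P := by linarith
  have hA0 : 0 < A := by linarith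
  obtain ⟨x0, hx0⟩ : ∃ x0 : ℝ, x0 = min (ω / (2600 * P)) (μ / (200 * A)) := ⟨_, rfl⟩
  have hx00 : 0 < x0 := by rw [hx0]; exact lt_min (by positivity) (by positivity)
  obtain ⟨ν0, hν0⟩ := exists_pow_lt_of_lt_one (show 0 < x0 / 4 by positivity)
    (show (1 / 2 : ℝ) < 1 by norm_num)
  set ν := max ν0 1 with hν
  have hνr : 1 / (2 : ℝ) ^ ν ≤ x0 / 4 := by
    have h1 : (1 / 2 : ℝ) ^ ν ≤ (1 / 2 : ℝ) ^ ν0 :=
      pow_le_pow_of_le_one (by norm_num) (by norm_num) (le_max_left _ _)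
    have h2 : 1 / (2 : ℝ) ^ ν = (1 / 2 : ℝ) ^ ν := by
      rw [one_div, one_div, inv_pow]
    rw [h2]
    linarith
  have hx : 2 * (x0 / 4) + 2 / 2 ^ ν ≤ x0 := by
    have : 2 / (2 : ℝ) ^ ν = 2 * (1 / 2 ^ ν) := by ring
    rw [this]; linarith
  obtain ⟨z0, hz0⟩ : ∃ z0 : ℝ, z0 = min (ω / (140000 * P)) (min (μ / (11600 * A))
    (μ ^ 2 / 100000)) := ⟨_, rfl⟩
  have hz00 : 0 < z0 := by
    rw [hz0]; exact lt_min (by positivity) (lt_min (by positivity) (by positivity))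
  obtain ⟨T1, hT1⟩ := exists_zb_le hz00
  obtain ⟨T2, hT2⟩ := exists_nat_ge ((4000 / ω) ^ 2)
  obtain ⟨T3, hT3⟩ := exists_nat_ge (1000 / μ ^ 2)
  refine ⟨ω / 3000, ω, x0 / 4, K, d, ν, by positivity, hω0, by positivity, le_max_right _ _,
    le_max_right _ _, le_max_right _ _, fun l0 => ?_⟩
  obtain ⟨b0, hb0, hgrow⟩ := params_growth hG (ω / 3000) (by positivity) d
    (10 + K + (d + ν + l0) + T1 + T2 + T3)
  have hsq : b0 ≤ b0 ^ 2 := by nlinarith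
  have hE : b0 + (d + ν) ≤ 20 * b0 ^ 2 := by omega
  obtain ⟨E, hE'⟩ : ∃ E, 20 * b0 ^ 2 = d + (ν + E) := ⟨20 * b0 ^ 2 - (d + ν), by omega⟩
  have hbE : b0 ≤ E := by omega
  have hb0E : b0 ≤ 2 ^ E := by
    have h1 : E < 2 ^ E := Nat.lt_two_pow_self
    omega
  have hMb : 2 ^ d * (2 ^ ν * 2 ^ E) = Mb b0 := by
    unfold Mb
    rw [hE', pow_add, pow_add]
  obtain ⟨hgl, hg1, hg2, hg3⟩ := hgrow (2 ^ ν * 2 ^ E) hMb
  have hb0pos : (0 : ℝ) < b0 := by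
    have : 0 < b0 := by omega
    exact_mod_cast this
  have hlb : (b0 : ℝ) ≤ ((2 ^ ν * 2 ^ E : ℕ) : ℝ) := by
    have : b0 ≤ 2 ^ ν * 2 ^ E := hb0E.trans (Nat.le_mul_of_pos_left _ (by positivity))
    exact_mod_cast this
  have hlpos : (0 : ℝ) < ((2 ^ ν * 2 ^ E : ℕ) : ℝ) := lt_of_lt_of_le hb0pos hlb
  have hT1' := hT1 b0 (by omega)
  have hT2' : (4000 / ω) ^ 2 ≤ (b0 : ℝ) := hT2.trans (by exact_mod_cast (by omega : T2 ≤ b0))
  have hT3' : 1000 / μ ^ 2 ≤ (b0 : ℝ) := hT3.trans (by exact_mod_cast (by omega : T3 ≤ b0))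
  have hzz : 0 ≤ zb b0 := by unfold zb; positivity
  have hz1 : zb b0 ≤ ω / (140000 * P) := hT1'.trans (by rw [hz0]; exact min_le_left _ _)
  have hz2 : zb b0 ≤ μ / (11600 * A) :=
    hT1'.trans (by rw [hz0]; exact (min_le_right _ _).trans (min_le_left _ _))
  have hz3 : zb b0 ≤ μ ^ 2 / 100000 :=
    hT1'.trans (by rw [hz0]; exact (min_le_right _ _).trans (min_le_right _ _))
  have hlinv : 1 / ((2 ^ ν * 2 ^ E : ℕ) : ℝ) ≤ μ ^ 2 / 1000 := by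
    have h1 : 1 / ((2 ^ ν * 2 ^ E : ℕ) : ℝ) ≤ 1 / b0 :=
      div_le_div_of_nonneg_left (by norm_num) hb0pos hlb
    have h2 : 1 / (b0 : ℝ) ≤ μ ^ 2 / 1000 := by
      rw [div_le_iff₀ hb0pos]
      rw [div_le_iff₀ (by positivity)] at hT3'
      linarith
    exact h1.trans h2
  refine ⟨b0, 2 ^ ν * 2 ^ E, 2 ^ E, by omega, ?_, hMb, rfl, by omega, by omega, hgl, hg1, hg2,
    hg3, ?_, ?_⟩
  · have h1 : b0 < 2 ^ b0 := Nat.lt_two_pow_self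
    have h2 : 2 ^ b0 ≤ rb b0 := by
      unfold rb
      exact Nat.pow_le_pow_right (by norm_num) (by omega)
    omega
  · have hr : 1 / Real.sqrt b0 ≤ ω / 4000 := by
      have h1 : 4000 / ω ≤ Real.sqrt b0 := Real.le_sqrt_of_sq_le hT2'
      have h2 : 0 < 4000 / ω := by positivity
      have h3 : 0 < Real.sqrt b0 := lt_of_lt_of_le h2 h1
      rw [div_le_iff₀ h3]
      rw [div_le_iff₀ hω0] at h1
      linarith
    have h := ineq1 (ω := ω) (θ0 := ω / 3000) (k := K) (P := P)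
      (x := 2 * (x0 / 4) + 2 / 2 ^ ν) (z := zb b0) (r := 1 / Real.sqrt b0) hω0 hP1 rfl hKr
      (hx.trans (by rw [hx0]; exact min_le_left _ _)) hzz hz1 hr
    have e1 : 400 / Real.sqrt b0 = 400 * (1 / Real.sqrt b0) := by ring
    rw [e1]
    unfold etaf
    exact h
  · have hy : Real.exp (-(2 * WW e b0 (2 ^ ν * 2 ^ E))) ≤ μ ^ 2 / 1000 := by
      refine le_trans ?_ hlinv
      have h1 : ((2 ^ ν * 2 ^ E : ℕ) : ℝ) ≤ 2 * WW e b0 (2 ^ ν * 2 ^ E) := by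
        unfold WW
        have h2 := hG.e_nonneg b0
        have hl1 : (1 : ℝ) ≤ ((2 ^ ν * 2 ^ E : ℕ) : ℝ) := by
          have : 1 ≤ 2 ^ ν * 2 ^ E := Nat.one_le_iff_ne_zero.mpr (by positivity)
          exact_mod_cast this
        have h3 : ((2 ^ ν * 2 ^ E : ℕ) : ℝ) ≤ ((2 ^ ν * 2 ^ E : ℕ) : ℝ) ^ 6 := by
          calc ((2 ^ ν * 2 ^ E : ℕ) : ℝ) = ((2 ^ ν * 2 ^ E : ℕ) : ℝ) ^ 1 := by ring
            _ ≤ _ := pow_le_pow_right₀ hl1 (by norm_num)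
        nlinarith
      have h4 : ((2 ^ ν * 2 ^ E : ℕ) : ℝ) ≤ Real.exp (2 * WW e b0 (2 ^ ν * 2 ^ E)) := by
        have := Real.add_one_le_exp (2 * WW e b0 (2 ^ ν * 2 ^ E))
        linarith
      rw [Real.exp_neg, one_div]
      exact inv_anti₀ hlpos h4
    have hrr : 1 / (4 * ((2 ^ ν * 2 ^ E : ℕ) : ℝ)) ≤ μ / 40 := by
      have h1 : 1 / (4 * ((2 ^ ν * 2 ^ E : ℕ) : ℝ)) = (1 / ((2 ^ ν * 2 ^ E : ℕ) : ℝ)) / 4 := by
        field_simp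
      rw [h1]
      nlinarith
    have h := ineq2 (μ := μ) (ω := ω) (A := A) (x := 2 * (x0 / 4) + 2 / 2 ^ ν) (z := zb b0)
      (y := Real.exp (-(2 * WW e b0 (2 ^ ν * 2 ^ E)))) (D := 2 ^ d)
      (r := 1 / (4 * ((2 ^ ν * 2 ^ E : ℕ) : ℝ))) (η1 := x0 / 4) (ν' := 1 / 2 ^ ν) hμ hμ1 hω hA1
      (hx.trans (by rw [hx0]; exact min_le_right _ _)) hzz hz2 hz3 (by ring) hdr hy hrr
    unfold eps2 etaf eps3
    rw [← hA]
    have e2 : 2 * A * (2 * (x0 / 4) + 2 / 2 ^ ν + 40 * zb b0 + 18 * zb b0) =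
      2 * A * (2 * (x0 / 4) + 2 / 2 ^ ν + 40 * zb b0 + 18 * zb b0) := rfl
    exact h

end Crest.Agent.R113.Orb
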