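import Crest.Agent.R113.FD.SeqApp
import Crest.Agent.R113.FD.AOff

/-!
Row 113, S0149, T12 (helper244): wrappers of helper251's `base_flux_E`, `seq_base`.
-/

set_option autoImplicit false

namespace Crest.Agent.R113.Orb

open Finset

attribute [local irreducible] Mb rb Pib

variable {w : ℕ → ℕ → Bool} {c e : ℕ → ℝ} {g : ℕ → ℕ} {u : ℤ → ℝ} {lev : ℕ → ℤ → ℕ}
  {bad : ℕ → Set ℤ} {q N B J b0 l D K lh ν : ℕ}

theorem base_flux_E' (hO : OrbitData w c e g u lev bad)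
    (hC : OrbitCounts q N B J lev bad)
    (hb : 1 ≤ b0) (hB : B ≤ b0) (hJ : b0 ≤ J) (hN : 2 * (Pib b0 * Mb b0) ≤ N)
    (hq : 4 ^ b0 * (Pib b0 * Mb b0) ≤ q) (hl : 0 < l) (hlD : D * l = Mb b0) (hK : K ≤ rb b0)
    (hlh : 2 ^ ν * lh = l) (E : Submodule ℂ (EuclideanSpace ℂ (Fin q)))
    (ρ η1 : ℝ) (hρ0 : 0 ≤ ρ) (hρ1 : ρ ≤ 1)
    (hE5 : ∑ m ∈ Finset.range (q - lh),
      |∑ i ∈ Finset.range lh, ((if h : m + i < q then dg E ⟨m + i, h⟩ else 0) - ρ)|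
        ≤ η1 * lh * q) (j : BIdx D K) :
    |flux (dg E) (bset w lev b0 l D K j) (bshift b0 l D K j)| ≤
      (2 * η1 + 2 / 2 ^ ν + 40 * zb b0) * q := by
  have h1 : 1024 * rb b0 ≤ Pib b0 := rb_le_Pib b0
  have h2 : rb b0 * Mb b0 ≤ Pib b0 * Mb b0 := Nat.mul_le_mul_right _ (by omega)
  have hlh0 : 0 < lh := by
    rcases Nat.eq_zero_or_pos lh with h | h
    · subst h; simp at hlh; omega
    · exact h
  have hlhl : lh ≤ l := by rw [← hlh]; exact Nat.le_mul_of_pos_left _ (by positivity)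
  have h := SeqApp.base_flux_E hO hC hb hB hJ (by omega) hq hl hlD hK (dg E) (dg_nonneg E) (dg_le_one E)
    hρ0 hρ1 hlh0 hlhl hE5 j
  refine h.trans (mul_le_mul_of_nonneg_right ?_ (Nat.cast_nonneg _))
  have hz := zb_nonneg b0
  have h3 : 2 * (lh : ℝ) / l = 2 / 2 ^ ν := by
    rw [← hlh]
    have : (0 : ℝ) < lh := by exact_mod_cast hlh0
    push_cast
    field_simp
  rw [h3]
  linarith

theorem seq_base' (hG : IsGrowth c e g) (hO : OrbitData w c e g u lev bad)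
    (hC : OrbitCounts q N B J lev bad)
    (hb : 1 ≤ b0) (hB : B ≤ b0) (hJ : b0 ≤ J) (hN : 2 * (Pib b0 * Mb b0) ≤ N)
    (hq : 4 ^ b0 * (Pib b0 * Mb b0) ≤ q) (hl : 0 < l) (hlD : D * l = Mb b0) (hK1 : 1 ≤ K)
    (hK : K ≤ rb b0)
    (E : Submodule ℂ (EuclideanSpace ℂ (Fin q))) (cs η : ℝ) (hη : 0 ≤ η)
    (hE3 : ∀ n ≤ N, ∃ E' : Submodule ℂ (EuclideanSpace ℂ (Fin q)),
      AppInv E E' u n (Real.exp (-cs)) (η * q))
    (s : ℝ) (hs : 0 ≤ s) (hsc : 8 * (s * (D + 1)) ≤ c b0 - e b0) (hce : 0 < c b0 - e b0)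
    (hcs : (2 * rb b0 * c b0 + e b0) + 5 * (c b0 - e b0) + 10 ≤ cs)
    (hsm : 10 * Real.exp (-(c b0 - e b0) / 4) + η ≤ 2 * zb b0) (ηf : ℝ) (hηf : 0 ≤ ηf)
    (hf : ∀ j : BIdx D K, |flux (dg E) (bset w lev b0 l D K j) (bshift b0 l D K j)| ≤ ηf * q) :
    ∑ i, |dg (E.map (mulD (fun i : Fin q =>
        Real.exp (-(s * gfun w lev b0 l K ((i : ℕ) : ℤ)))))) i - dg E i| ≤
      2 * 3 ^ (D - 1 + 2 * K) * (ηf + 18 * zb b0) * q := by
  have hq0 : (0 : ℝ) ≤ q := Nat.cast_nonneg _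
  have hz := zb_nonneg b0
  have hex := Real.exp_pos (-(c b0 - e b0) / 4)
  have h := SeqApp.seq_base (w := w) (lev := lev) (u := u) hlD hK1 E (V := 2 * rb b0 * c b0 + e b0)
    (β := 16 * zb b0) (φ := ηf * q) (cs := cs) (d := η * q) (s := s) hce (by positivity)
    (by positivity) hcs hs hsc (fun j => base_isBd hG hO hC hb hB hJ hN hq hl hlD hK j)
    (fun j => hE3 _ (bshift_le_N hlD hK hN j))
    (fun j => (le_abs_self _).trans (hf j))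
  refine h.trans ?_
  have hcard : Fintype.card (BIdx D K) = D - 1 + 2 * K := by
    simp [BIdx, Fintype.card_sum, Fintype.card_prod, mul_comm]
  rw [hcard]
  have h1 : ηf * q + (10 * Real.exp (-(c b0 - e b0) / 4) * q + η * q + 16 * zb b0 * q) ≤
      (ηf + 18 * zb b0) * q := by nlinarith
  have h2 : (0 : ℝ) ≤ 3 ^ (D - 1 + 2 * K) := by positivity
  have h3 : 0 ≤ (ηf + 18 * zb b0) * q := by positivity
  calc 3 ^ (D - 1 + 2 * K) *
        (ηf * q + (10 * Real.exp (-(c b0 - e b0) / 4) * q + η * q + 16 * zb b0 * q))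
      ≤ 3 ^ (D - 1 + 2 * K) * ((ηf + 18 * zb b0) * q) := mul_le_mul_of_nonneg_left h1 h2
    _ ≤ 2 * (3 ^ (D - 1 + 2 * K) * ((ηf + 18 * zb b0) * q)) := by
        have := mul_nonneg h2 h3
        linarith
    _ = 2 * 3 ^ (D - 1 + 2 * K) * (ηf + 18 * zb b0) * q := by ring

end Crest.Agent.R113.Orb
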