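import Crest.Agent.R113.Loc

/-!
# Row 113 / S0149, T12: the tail lemma (helper16)

Mass of `P_{aE}` at distances `> 2 (R1 + l)` from the hard cutoff `(E4)` for `P_E`.
-/

set_option autoImplicit false

namespace Crest.Agent.R113

open scoped BigOperators

/-- total mass of the projection -/
theorem sum_ent_sq_le {q : ℕ} (E : Submodule ℂ (EuclideanSpace ℂ (Fin q))) :
    ∑ i : Fin q, ∑ j : Fin q, ‖ent E i j‖ ^ 2 ≤ q := by
  have h1 : ∀ j : Fin q, ∑ i : Fin q, ‖ent E i j‖ ^ 2 ≤ 1 := by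
    intro j
    have h2 : ∀ i : Fin q, ‖ent E i j‖ ^ 2 = ‖(E.starProjection (ev j) : EuclideanSpace ℂ (Fin q)) i‖ ^ 2 := by
      intro i
      simp [ent, ev, EuclideanSpace.inner_single_left]
    rw [Finset.sum_congr rfl fun i _ => h2 i, ← EuclideanSpace.norm_sq_eq]
    have h3 : ‖E.starProjection (ev j)‖ ≤ ‖(ev j : EuclideanSpace ℂ (Fin q))‖ :=
      E.norm_starProjection_apply_le _
    have h4 : ‖(ev j : EuclideanSpace ℂ (Fin q))‖ = 1 := by simp [ev]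
    rw [h4] at h3
    exact pow_le_one₀ (norm_nonneg _) h3
  rw [Finset.sum_comm]
  calc ∑ j : Fin q, ∑ i : Fin q, ‖ent E i j‖ ^ 2 ≤ ∑ _j : Fin q, (1 : ℝ) :=
        Finset.sum_le_sum fun j _ => h1 j
    _ = q := by simp

/-- **Tail lemma.** `st` = start of the window of a position, windows have length at most `l`. -/
theorem tail_mass {q : ℕ} (st : Fin q → ℤ) (l : ℕ)
    (hst : ∀ i : Fin q, st i ≤ ((i : ℕ) : ℤ) ∧ ((i : ℕ) : ℤ) < st i + l)
    (E : Submodule ℂ (EuclideanSpace ℂ (Fin q)))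
    (a : EuclideanSpace ℂ (Fin q) →ₗ[ℂ] EuclideanSpace ℂ (Fin q)) (ha : BlockDiag st a)
    (κ : ℝ) (ha1 : ∀ v, ‖a v‖ ≤ ‖v‖) (ha2 : ∀ v, Real.exp (-κ) * ‖v‖ ≤ ‖a v‖)
    (R : ℕ) (etap : ℝ)
    (hE4 : (∑ i : Fin q, ∑ j : Fin q,
      if (R : ℤ) ≤ |((i : ℕ) : ℤ) - ((j : ℕ) : ℤ)| then ‖ent E i j‖ ^ 2 else 0) ≤ etap * q)
    (R1 : ℕ) (hR1 : 1 ≤ R1) :
    (∑ i : Fin q, ∑ j : Fin q,
      if (R1 + l : ℤ) ≤ |((i : ℕ) : ℤ) - ((j : ℕ) : ℤ)| then ‖ent (E.map a) i j‖ ^ 2 else 0) ≤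
      16 * Real.exp (2 * κ) * (etap + (((R : ℝ) + l) / R1) ^ 2) * q := by
  have hR1' : (0 : ℝ) < R1 := by exact_mod_cast hR1
  have hloc := loc st E a ha κ ha1 ha2 R1 hR1'
  have h1 : (∑ i : Fin q, ∑ j : Fin q,
      if (R1 + l : ℤ) ≤ |((i : ℕ) : ℤ) - ((j : ℕ) : ℤ)| then ‖ent (E.map a) i j‖ ^ 2 else 0) ≤
      ∑ i, ∑ j, (if (R1 : ℝ) ≤ |((st i - st j : ℤ) : ℝ)| then ‖ent (E.map a) i j‖ ^ 2 else 0) := by
    refine Finset.sum_le_sum fun i _ => Finset.sum_le_sum fun j _ => ?_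
    split_ifs with h2 h3 h3
    · exact le_rfl
    · exfalso
      apply h3
      have hi := hst i
      have hj := hst j
      have h4 : (R1 : ℤ) ≤ |st i - st j| := by
        rcases abs_cases (((i : ℕ) : ℤ) - ((j : ℕ) : ℤ)) with h | h <;>
          rcases abs_cases (st i - st j) with h' | h' <;> omega
      have h5 : ((R1 : ℤ) : ℝ) ≤ ((|st i - st j| : ℤ) : ℝ) := by exact_mod_cast h4
      rw [Int.cast_abs] at h5
      simpa using h5
    · positivity
    · exact le_rfl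
  have h2 : (∑ i, ∑ j, min 1 ((((st i - st j : ℤ) : ℝ) / R1) ^ 2) * ‖ent E i j‖ ^ 2) ≤
      (etap + (((R : ℝ) + l) / R1) ^ 2) * q := by
    have h3 : (∑ i, ∑ j, min 1 ((((st i - st j : ℤ) : ℝ) / R1) ^ 2) * ‖ent E i j‖ ^ 2) ≤
        (∑ i : Fin q, ∑ j : Fin q,
          if (R : ℤ) ≤ |((i : ℕ) : ℤ) - ((j : ℕ) : ℤ)| then ‖ent E i j‖ ^ 2 else 0) +
        ∑ i : Fin q, ∑ j : Fin q, (((R : ℝ) + l) / R1) ^ 2 * ‖ent E i j‖ ^ 2 := by
      rw [← Finset.sum_add_distrib]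
      refine Finset.sum_le_sum fun i _ => ?_
      rw [← Finset.sum_add_distrib]
      refine Finset.sum_le_sum fun j _ => ?_
      have hp : 0 ≤ ‖ent E i j‖ ^ 2 := by positivity
      split_ifs with h4
      · have h5 : min 1 ((((st i - st j : ℤ) : ℝ) / R1) ^ 2) * ‖ent E i j‖ ^ 2 ≤
            1 * ‖ent E i j‖ ^ 2 := mul_le_mul_of_nonneg_right (min_le_left _ _) hp
        have h6 : 0 ≤ (((R : ℝ) + l) / R1) ^ 2 * ‖ent E i j‖ ^ 2 := by positivity
        linarith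
      · have hi := hst i
        have hj := hst j
        have h5 : |st i - st j| ≤ (R : ℤ) + l := by
          push Not at h4
          rcases abs_cases (((i : ℕ) : ℤ) - ((j : ℕ) : ℤ)) with h | h <;>
            rcases abs_cases (st i - st j) with h' | h' <;> omega
        have h6 : |((st i - st j : ℤ) : ℝ)| ≤ (R : ℝ) + l := by
          have : ((|st i - st j| : ℤ) : ℝ) ≤ (((R : ℤ) + l : ℤ) : ℝ) := by exact_mod_cast h5
          rw [Int.cast_abs] at this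
          simpa using this
        have h7 : (((st i - st j : ℤ) : ℝ) / R1) ^ 2 ≤ (((R : ℝ) + l) / R1) ^ 2 := by
          rw [div_pow, div_pow]
          refine div_le_div_of_nonneg_right ?_ (by positivity)
          rw [← sq_abs]
          exact pow_le_pow_left₀ (abs_nonneg _) h6 2
        have h8 := mul_le_mul_of_nonneg_right ((min_le_right 1 _).trans h7) hp
        linarith
    have h4 : ∑ i : Fin q, ∑ j : Fin q, (((R : ℝ) + l) / R1) ^ 2 * ‖ent E i j‖ ^ 2 ≤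
        (((R : ℝ) + l) / R1) ^ 2 * q := by
      simp_rw [← Finset.mul_sum]
      exact mul_le_mul_of_nonneg_left (sum_ent_sq_le E) (by positivity)
    calc _ ≤ _ := h3
      _ ≤ etap * q + (((R : ℝ) + l) / R1) ^ 2 * q := add_le_add hE4 h4
      _ = _ := by ring
  calc _ ≤ _ := h1
    _ ≤ _ := hloc
    _ ≤ 16 * Real.exp (2 * κ) * ((etap + (((R : ℝ) + l) / R1) ^ 2) * q) :=
        mul_le_mul_of_nonneg_left h2 (by positivity)
    _ = _ := by ring

end Crest.Agent.R113
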