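import Crest.Agent.R113.NearInv
import Crest.Agent.R113.WL
import Crest.Agent.R113.FD.AGood
import Crest.Agent.R113.FD.ALin
import Crest.Agent.R113.FD.OrbitA

/-!
Row 113, S0149, T12: near invariance + window lemma, summed over the good windows.
-/

set_option autoImplicit false

namespace Crest.Agent.R113.Orb

open Finset

variable {w : ℕ → ℕ → Bool} {c e : ℕ → ℝ} {g : ℕ → ℕ} {u : ℤ → ℝ} {lev : ℕ → ℤ → ℕ}
  {bad : ℕ → Set ℤ} {q N B J b0 l D K : ℕ}

/-- diagonal of a projection as a function on `ℕ` -/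
noncomputable def hN {q : ℕ} (X : Submodule ℂ (EuclideanSpace ℂ (Fin q))) (m : ℕ) : ℝ :=
  if h : m < q then dg X ⟨m, h⟩ else 0

theorem windows_bound (hG : IsGrowth c e g) (hO : OrbitData w c e g u lev bad)
    (hC : OrbitCounts q N B J lev bad)
    (hb : 1 ≤ b0) (hB : B ≤ b0) (hJ : b0 ≤ J) (hN' : 2 * (Pib b0 * Mb b0) ≤ N)
    (hq : 4 ^ b0 * (Pib b0 * Mb b0) ≤ q) (hl : 0 < l) (hlD : D * l = Mb b0) (hgl : g b0 ≤ l)
    (E F E2 : Submodule ℂ (EuclideanSpace ℂ (Fin q))) (s W cs η ω : ℝ) (hη : 0 ≤ η)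
    (hs : 0 ≤ s) (hW : 0 ≤ W) (hcs : W + s * (D + 1) ≤ cs)
    (hE3 : ∀ n ≤ N, ∃ E' : Submodule ℂ (EuclideanSpace ℂ (Fin q)),
      AppInv E E' u n (Real.exp (-cs)) (η * q))
    (hF : BlockSub (fun i : Fin q => win lev b0 l ((i : ℕ) : ℤ)) F)
    (hFdim : (Module.finrank ℂ F : ℝ) ≤ Module.finrank ℂ E + 20 * (ω * q))
    (hE2 : E2 ≤ E.map (mulD (fun i : Fin q => Real.exp (-(s * gfun w lev b0 l K ((i : ℕ) : ℤ))))))
    (hE2dim : (Module.finrank ℂ E : ℝ) ≤ Module.finrank ℂ E2 + 20 * (ω * q))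
    (hE2F : ∀ v ∈ E2, ‖v - F.starProjection v‖ ≤ Real.exp (-W) * ‖F.starProjection v‖)
    (hWl : 5 * Real.exp (-W) ≤ Real.exp (-(10 * l * (e b0 + 100 * (l : ℝ) ^ 3)))) :
    ∃ kk : ℕ → ℕ, (∀ s0 ∈ goodW lev bad b0 l D q, kk s0 ≤ l) ∧
      ∑ s0 ∈ goodW lev bad b0 l D q, ∑ i ∈ range l,
        |hN F (s0 + i) - (if l ≤ i + kk s0 then (1 : ℝ) else 0)| ≤
        (2 * Real.sqrt (2 * (60 * ω + η + (2 / D + 50 * zb b0))) + 1 / (4 * l)) * q := by
  classical
  set good := goodW lev bad b0 l D q with hgood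
  set ω3 : ℝ := 60 * ω + η + (2 / D + 50 * zb b0) with hω3
  have hMl : l ≤ Mb b0 := by
    rw [← hlD]
    refine Nat.le_mul_of_pos_left l ?_
    rcases Nat.eq_zero_or_pos D with h | h
    · exfalso
      rw [h, zero_mul] at hlD
      have : 0 < Mb b0 := by rw [Mb_eqna]; positivity
      omega
    · exact h
  have hlN : l ≤ N := by
    have h1 : Mb b0 ≤ Pib b0 * Mb b0 := Nat.le_mul_of_pos_left _ (by rw [Pib_eqna]; positivity)
    omega
  have hGW := fun s0 (hs : s0 ∈ good) => good_win hO hb hl hlD hs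
  have hcount := good_count' hO hC hb hB hJ hN' hq hl hlD
  have hqcard : (good.card : ℝ) * l ≤ q := by
    have h1 : good.card * l ≤ q := (good_tiling hO hb hl hlD).card_mul_le
    exact_mod_cast h1
  -- near invariance for each `n < l`
  have hnear : ∀ n, n < l → ∃ (r : ℕ → ℕ) (F' : ℕ → Submodule ℂ (EuclideanSpace ℂ (Fin l))),
      ((∑ s0 ∈ good, r s0 : ℕ) : ℝ) ≤ 2 * ω3 * q ∧
      ∀ s0 ∈ good, F' s0 ≤ winSub l s0 F ∧
        Module.finrank ℂ (winSub l s0 F) ≤ Module.finrank ℂ (F' s0) + r s0 ∧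
        ∀ v ∈ F' s0, ‖shiftN (fun m => u (s0 + m)) n v
          - (winSub l s0 F).starProjection (shiftN (fun m => u (s0 + m)) n v)‖
            ≤ 5 * Real.exp (-W) * ‖v‖ := by
    intro n hn
    obtain ⟨E', hE'⟩ := hE3 n (by omega)
    obtain ⟨r, F', hr, hF'⟩ := near_inv (fun i : Fin q => win lev b0 l ((i : ℕ) : ℤ)) u n hn E E' F E2
      (fun i : Fin q => gfun w lev b0 l K ((i : ℕ) : ℤ)) s (D + 1) W cs (η * q) (20 * (ω * q)) hs
      (fun i => gfun_nonneg _) (fun i => gfun_le hlD _)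
      (fun i j hij => gfun_win hO hb hl hlD hij) hW hcs hE' hF hFdim hE2 hE2dim hE2F good
      (fun s0 => decide (pw lev b0 l (s0 : ℤ) % 2 = 1)) (fun s0 hs0 => hGW s0 hs0)
      (fun s0 hs0 => good_col hO hb hl hlD hs0) (by
        intro s0 hs0 i j hi1 hi2 hj
        have h1 : 0 ≤ wsum u ((i : ℕ) : ℤ) n := by
          rw [wsum_eqna]
          exact Finset.sum_nonneg fun k _ => hO.u_nonneg _
        have h2 := good_weight (w := w) (K := K) hO hb hl hlD hn hs0 i hi1 hi2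
        have h3 : ((j : ℕ) : ℤ) = ((i : ℕ) : ℤ) + n := by omega
        simp only [h3]
        have := mul_nonneg hs (sub_nonneg.2 h2)
        linarith)
    refine ⟨r, F', hr.trans ?_, hF'⟩
    rw [hω3]
    nlinarith
  choose! r F' hr hF' using hnear
  refine ⟨fun s0 => Module.finrank ℂ (winSub l s0 F), fun s0 _ => ?_, ?_⟩
  · have := Submodule.finrank_le (winSub l s0 F)
    rwa [finrank_euclideanSpace_fin] at this
  -- one window
  have hone : ∀ s0 ∈ good, ∑ i ∈ range l,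
      |hN F (s0 + i) - (if l ≤ i + Module.finrank ℂ (winSub l s0 F) then (1 : ℝ) else 0)| ≤
        2 * (Real.sqrt (∑ n ∈ Finset.Ico 1 l, (r n s0 : ℝ)) + 1 / 8) := by
    intro s0 hs0
    set X := winSub l s0 F with hX
    set k := Module.finrank ℂ X with hk
    have hkl : k ≤ l := by
      have := Submodule.finrank_le X
      rwa [finrank_euclideanSpace_fin] at this
    have hW1 := window_lemma (l := l) hl (fun m => u ((s0 : ℤ) + m)) (e b0)
      (fun m _ _ => hO.u_nonneg _)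
      (fun m hm0 hml => by
        have h1 := good_cost hO hb hl hlD hgl hs0 m.toNat (by omega)
        have h2 : ((m.toNat : ℕ) : ℤ) = m := Int.toNat_of_nonneg hm0
        rw [h2] at h1
        exact h1) X (fun n => F' n s0) (fun n => r n s0) (5 * Real.exp (-W)) hWl
      (fun n _ hn => (hF' n hn s0 hs0).1) (fun n _ hn => (hF' n hn s0 hs0).2.1)
      (fun n _ hn => (hF' n hn s0 hs0).2.2)
    have h2 : ∑ i ∈ range l, |hN F (s0 + i) - (if l ≤ i + k then (1 : ℝ) else 0)| =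
        ∑ i : Fin l, |dg X i - (if l ≤ (i : ℕ) + k then (1 : ℝ) else 0)| := by
      rw [Finset.sum_range]
      refine Finset.sum_congr rfl fun i _ => ?_
      have hi := i.2
      have hq2 := (hGW s0 hs0).1
      rw [hN, dif_pos (by omega), hX, FD.dg_winSub (fun i : Fin q => win lev b0 l ((i : ℕ) : ℤ)) F hF
        (by omega) (hGW s0 hs0).2.1]
    rw [h2, ← Finset.sum_filter_add_sum_filter_not Finset.univ (fun i : Fin l => l ≤ (i : ℕ) + k)]
    have h3 : ∑ i ∈ Finset.univ.filter (fun i : Fin l => l ≤ (i : ℕ) + k),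
        |dg X i - (if l ≤ (i : ℕ) + k then (1 : ℝ) else 0)| = k - trOn X (tailF l k) := by
      have h4 : ((Finset.univ.filter (fun i : Fin l => l ≤ (i : ℕ) + k)).card : ℝ) = k := by
        have h5 : (Finset.univ.filter (fun i : Fin l => l ≤ (i : ℕ) + k)).card = k := by
          have h6 : (Finset.univ.filter (fun i : Fin l => l ≤ (i : ℕ) + k)) =
              (Finset.Ico (l - k) l).attachFin (fun m hm => (Finset.mem_Ico.1 hm).2) := by
            ext i
            simp only [Finset.mem_filter, Finset.mem_univ, true_and, Finset.mem_attachFin,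
              Finset.mem_Ico]
            have := i.2
            omega
          rw [h6, Finset.card_attachFin, Nat.card_Ico]
          omega
        exact_mod_cast h5
      rw [trOn_eqna, tailF_eqna, ← h4, Finset.card_eq_sum_ones]
      push_cast
      rw [← Finset.sum_sub_distrib]
      refine Finset.sum_congr rfl fun i hi => ?_
      rw [if_pos (Finset.mem_filter.1 hi).2, abs_sub_comm, abs_of_nonneg]
      linarith [dg_le_one X i]
    have h4 : ∑ i ∈ Finset.univ.filter (fun i : Fin l => ¬ l ≤ (i : ℕ) + k),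
        |dg X i - (if l ≤ (i : ℕ) + k then (1 : ℝ) else 0)| = k - trOn X (tailF l k) := by
      have h5 := sum_dg X
      rw [← Finset.sum_filter_add_sum_filter_not Finset.univ (fun i : Fin l => l ≤ (i : ℕ) + k)]
        at h5
      rw [trOn_eqna, tailF_eqna]
      have h6 : ∑ i ∈ Finset.univ.filter (fun i : Fin l => ¬ l ≤ (i : ℕ) + k),
          |dg X i - (if l ≤ (i : ℕ) + k then (1 : ℝ) else 0)| =
          ∑ i ∈ Finset.univ.filter (fun i : Fin l => ¬ l ≤ (i : ℕ) + k), dg X i := by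
        refine Finset.sum_congr rfl fun i hi => ?_
        rw [if_neg (Finset.mem_filter.1 hi).2, sub_zero, abs_of_nonneg (dg_nonneg X i)]
      rw [h6]
      linarith
    rw [h3, h4]
    linarith
  refine (Finset.sum_le_sum hone).trans ?_
  rw [← Finset.mul_sum, Finset.sum_add_distrib, Finset.sum_const, nsmul_eq_mul]
  -- Cauchy–Schwarz
  have hω3q : 0 ≤ 2 * ω3 * q := le_trans (Nat.cast_nonneg _) (hr 0 hl)
  have hI : ∑ s0 ∈ good, ∑ n ∈ Finset.Ico 1 l, (r n s0 : ℝ) ≤ l * (2 * ω3 * q) := by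
    rw [Finset.sum_comm]
    calc ∑ n ∈ Finset.Ico 1 l, ∑ s0 ∈ good, (r n s0 : ℝ)
        ≤ ∑ n ∈ Finset.Ico 1 l, 2 * ω3 * q := by
          refine Finset.sum_le_sum fun n hn => ?_
          have := hr n (Finset.mem_Ico.1 hn).2
          push_cast at this
          exact this
      _ = ((l - 1 : ℕ) : ℝ) * (2 * ω3 * q) := by
          rw [Finset.sum_const, nsmul_eq_mul, Nat.card_Ico]
      _ ≤ l * (2 * ω3 * q) := by
          refine mul_le_mul_of_nonneg_right ?_ hω3q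
          exact_mod_cast Nat.sub_le _ _
  have hCS : ∑ s0 ∈ good, Real.sqrt (∑ n ∈ Finset.Ico 1 l, (r n s0 : ℝ)) ≤
      q * Real.sqrt (2 * ω3) := by
    have h1 : (∑ s0 ∈ good, Real.sqrt (∑ n ∈ Finset.Ico 1 l, (r n s0 : ℝ))) ^ 2 ≤
        good.card * ∑ s0 ∈ good, (Real.sqrt (∑ n ∈ Finset.Ico 1 l, (r n s0 : ℝ))) ^ 2 :=
      sq_sum_le_card_mul_sum_sq
    have h2 : ∑ s0 ∈ good, (Real.sqrt (∑ n ∈ Finset.Ico 1 l, (r n s0 : ℝ))) ^ 2 =
        ∑ s0 ∈ good, ∑ n ∈ Finset.Ico 1 l, (r n s0 : ℝ) := by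
      refine Finset.sum_congr rfl fun s0 _ => ?_
      exact Real.sq_sqrt (Finset.sum_nonneg fun n _ => Nat.cast_nonneg _)
    rw [h2] at h1
    have h3 : (good.card : ℝ) * ∑ s0 ∈ good, ∑ n ∈ Finset.Ico 1 l, (r n s0 : ℝ) ≤
        q * (2 * ω3 * q) := by
      calc (good.card : ℝ) * ∑ s0 ∈ good, ∑ n ∈ Finset.Ico 1 l, (r n s0 : ℝ)
          ≤ good.card * (l * (2 * ω3 * q)) :=
            mul_le_mul_of_nonneg_left hI (Nat.cast_nonneg _)
        _ = (good.card * l) * (2 * ω3 * q) := by ring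
        _ ≤ q * (2 * ω3 * q) := mul_le_mul_of_nonneg_right hqcard hω3q
    have h4 : (∑ s0 ∈ good, Real.sqrt (∑ n ∈ Finset.Ico 1 l, (r n s0 : ℝ))) ≤
        Real.sqrt (q * (2 * ω3 * q)) := Real.le_sqrt_of_sq_le (h1.trans h3)
    have h5 : (q : ℝ) * (2 * ω3 * q) = (q : ℝ) ^ 2 * (2 * ω3) := by ring
    rw [h5, Real.sqrt_mul (by positivity), Real.sqrt_sq (Nat.cast_nonneg _)] at h4
    exact h4
  have hlpos : (0 : ℝ) < l := by exact_mod_cast hl
  have h8 : (good.card : ℝ) * (1 / 8) ≤ q / (8 * l) := by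
    rw [le_div_iff₀ (by positivity)]
    nlinarith
  have h9 : (q : ℝ) / (8 * l) * 2 = 1 / (4 * l) * q := by
    field_simp
    ring
  have h10 : 2 * (∑ s0 ∈ good, Real.sqrt (∑ n ∈ Finset.Ico 1 l, (r n s0 : ℝ)) +
      (good.card : ℝ) * (1 / 8)) ≤ 2 * (q * Real.sqrt (2 * ω3)) + q / (8 * l) * 2 := by
    linarith
  rw [h9] at h10
  refine h10.trans (le_of_eq ?_)
  ring

end Crest.Agent.R113.Orb
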