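import Crest.Agent.R113.Minc
import Crest.Agent.R113.Glue
import Crest.Agent.R113.FD.AOff
import Crest.Agent.R113.FD.AWin
import Crest.Agent.R113.FD.ATail
import Crest.Agent.R113.FD.AParamsS
import Crest.Agent.R113.FD.ASeq
import Crest.Agent.R113.FD.AGoodCount

/-!
Row 113, S0149, T12 (helper244): the finite-dimensional theorem.
-/

set_option autoImplicit false

namespace Crest.Agent.R113.Orb

open Finset
open Crest.Agent.R113.FD (Tiling half_windows agg_windows')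

attribute [local irreducible] Mb rb Pib

variable {w : ℕ → ℕ → Bool} {c e : ℕ → ℝ} {g : ℕ → ℕ} {u : ℤ → ℝ} {lev : ℕ → ℤ → ℕ}
  {bad : ℕ → Set ℤ}

theorem sum_hN_sub {q : ℕ} (X Y : Submodule ℂ (EuclideanSpace ℂ (Fin q))) :
    ∑ m ∈ range q, |hN X m - hN Y m| = ∑ m : Fin q, |dg X m - dg Y m| := by
  rw [← Fin.sum_univ_eq_sum_range (fun m => |hN X m - hN Y m|)]
  refine Finset.sum_congr rfl (fun m _ => ?_)
  simp [hN]

theorem hN_nonneg {q : ℕ} (X : Submodule ℂ (EuclideanSpace ℂ (Fin q))) (m : ℕ) : 0 ≤ hN X m := by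
  unfold hN
  split_ifs
  · exact dg_nonneg _ _
  · exact le_rfl

theorem hN_le_one {q : ℕ} (X : Submodule ℂ (EuclideanSpace ℂ (Fin q))) (m : ℕ) : hN X m ≤ 1 := by
  unfold hN
  split_ifs
  · exact dg_le_one _ _
  · exact zero_le_one

/-- The core of the finite-dimensional theorem, with all parameters fixed. -/
theorem fd_core (hw : IsWords w) (hG : IsGrowth c e g) {q N J b0 l lh K d ν J' R : ℕ}
    (hO : OrbitData w c e g u lev bad) (hC : OrbitCounts q N b0 J lev bad)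
    (hb : 10 ≤ b0) (hJ : 4 ^ J' * b0 ≤ J)
    (hNN : 2 * (Pib (4 ^ J' * b0) * Mb (4 ^ J' * b0)) ≤ N)
    (hq : 4 ^ (4 ^ J' * b0) * (Pib (4 ^ J' * b0) * Mb (4 ^ J' * b0)) ≤ q)
    (hlD : 2 ^ d * l = Mb b0) (hlh : 2 ^ ν * lh = l) (hlh1 : 1 ≤ lh) (hν : 1 ≤ ν)
    (hK1 : 1 ≤ K) (hK : K ≤ rb b0) (hgl : g b0 ≤ l)
    (ρ μ θ0 ω η1 η' η cs : ℝ) (hρ0 : 0 < ρ) (hρ1 : ρ < 1) (hμ0 : 0 ≤ μ) (hμ1 : μ ≤ ρ)
    (hμ2 : μ ≤ 1 - ρ) (hθ : 0 < θ0) (hη1 : 0 < η1) (hη : 0 < η) (hηω : η ≤ ω)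
    (hκ : ∀ b, b0 ≤ b → 8 * KK e b0 l θ0 (2 ^ d) ≤ c b - e b)
    (hcs : ∀ b, b0 ≤ b → b ≤ 4 ^ J' * b0 → (2 * rb b * c b + e b) + 5 * (c b - e b) + 10 ≤ cs)
    (hsm : ∀ b, b0 ≤ b → b ≤ 4 ^ J' * b0 → 10 * Real.exp (-(c b - e b) / 4) + η ≤ 2 * zb b)
    (hWl : 5 * Real.exp (-WW e b0 l) ≤ Real.exp (-(10 * l * (e b0 + 100 * (l : ℝ) ^ 3))))
    (hS1 : 130 * (2 * θ0 + 4 / K + ((2 : ℝ) ^ d + 1) * etaf η1 ν b0
      + 4 * ((2 : ℝ) ^ d + 1) * zb b0) + 512 / K + 400 / Real.sqrt b0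
      + (130 * ((2 : ℝ) ^ d + 1) * 18 + 256 * 18 + 1100) * zb b0 + ω / 10 ≤ ω)
    (hS2 : 2 * (η1 + 1 / 2 ^ ν + eps2 η1 ω (WW e b0 l) (2 ^ d) K d ν b0 l) <
      μ * (1 - eps3 (2 ^ d) b0) / 2)
    (htl : 16 * Real.exp (2 * KK e b0 l θ0 (2 ^ d)) *
      (η' + (((R : ℝ) + l) / Mb (4 ^ (J' + 1) * b0)) ^ 2) ≤ ω / 10)
    (E : Submodule ℂ (EuclideanSpace ℂ (Fin q)))
    (hE3 : ∀ n ≤ N, ∃ E' : Submodule ℂ (EuclideanSpace ℂ (Fin q)),
      AppInv E E' u n (Real.exp (-cs)) (η * q))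
    (hE4 : (∑ i : Fin q, ∑ j : Fin q,
      if (R : ℤ) ≤ |((i : ℕ) : ℤ) - ((j : ℕ) : ℤ)| then ‖ent E i j‖ ^ 2 else 0) ≤ η' * q)
    (hE5 : (∑ m ∈ Finset.range (q - lh),
      |∑ i ∈ Finset.range lh, ((if h : m + i < q then dg E ⟨m + i, h⟩ else 0) - ρ)|)
        ≤ η1 * lh * q) : False := by
  classical
  have hb1 : 1 ≤ b0 := by omega
  have hb0J : b0 ≤ 4 ^ J' * b0 := Nat.le_mul_of_pos_left _ (by positivity)
  have hJ0 : b0 ≤ J := hb0J.trans hJ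
  have hl : 0 < l := by rw [← hlh]; positivity
  have hbig : 2 * (Pib b0 * Mb b0) ≤ N ∧ 4 ^ b0 * (Pib b0 * Mb b0) ≤ q := by
    have h1 := Pib_mono hb0J
    have h2 := Mb_mono hb0J
    have h3 : Pib b0 * Mb b0 ≤ Pib (4 ^ J' * b0) * Mb (4 ^ J' * b0) := Nat.mul_le_mul h1 h2
    have h4 : 4 ^ b0 ≤ 4 ^ (4 ^ J' * b0) := Nat.pow_le_pow_right (by norm_num) hb0J
    exact ⟨by omega, (Nat.mul_le_mul h4 h3).trans hq⟩
  have hq0 : 0 < q := by
    have h1 := Mb_pos b0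
    have h2 := Pib_pos b0
    have : 0 < 4 ^ b0 * (Pib b0 * Mb b0) := by positivity
    omega
  have he0 : 0 ≤ e b0 := hG.e_nonneg b0
  have hlr : (1 : ℝ) ≤ l := by exact_mod_cast hl
  have hW0 : 0 < WW e b0 l := by unfold WW; positivity
  have hD1 : (0 : ℝ) < 2 ^ d + 1 := by positivity
  set W := WW e b0 l with hWdef
  set κ := KK e b0 l θ0 (2 ^ d) with hκdef
  have hκ0 : 0 < κ := by
    rw [hκdef]; unfold KK; rw [← hWdef]; positivity
  have hgw : ∀ i j : Fin q, win lev b0 l ((i : ℕ) : ℤ) = win lev b0 l ((j : ℕ) : ℤ) →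
      gfun w lev b0 l K ((i : ℕ) : ℤ) = gfun w lev b0 l K ((j : ℕ) : ℤ) :=
    fun i j h => gfun_win hO hb1 hl hlD h
  obtain ⟨s, a, F, E2, hs0, hs1, hablk, ha1, ha2, hFblk, hgflux, hFdim, hE2le, hE2dim, hE2F⟩ :=
    minc (fun i : Fin q => win lev b0 l ((i : ℕ) : ℤ)) E
      (fun i => gfun w lev b0 l K ((i : ℕ) : ℤ)) (((2 ^ d : ℕ) : ℝ) + 1)
      (fun i => gfun_nonneg _) (fun i => gfun_le hlD _) hgw W θ0 hW0 hθ hq0
  have hsκ : W + s * (((2 ^ d : ℕ) : ℝ) + 1) ≤ κ := by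
    rw [hκdef]; unfold KK; rw [← hWdef]
    push_cast
    have := mul_le_mul_of_nonneg_right hs1 hD1.le
    linarith
  have ha2' : ∀ v, Real.exp (-κ) * ‖v‖ ≤ ‖a v‖ := by
    intro v
    refine le_trans ?_ (ha2 v)
    apply mul_le_mul_of_nonneg_right _ (norm_nonneg _)
    apply Real.exp_le_exp.mpr
    linarith
  have hq0' : (0 : ℝ) < q := by exact_mod_cast hq0
  -- fluxes at E
  have hf := fun j : BIdx (2 ^ d) K => base_flux_E' hO hC hb1 le_rfl hJ0 hbig.1 hbig.2 hl hlD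
    hK hlh E ρ η1 hρ0.le hρ1.le hE5 j
  -- tail
  have htail : ∑ m : Fin q, ∑ m' : Fin q,
      (if 2 * (Mb (4 ^ (J' + 1) * b0) : ℤ) < |((m : ℕ) : ℤ) - ((m' : ℕ) : ℤ)| then
        ‖ent (E.map a) m m'‖ ^ 2 else 0) ≤ (ω / 10) * q := by
    have h := tail_mass (fun i : Fin q => win lev b0 l ((i : ℕ) : ℤ)) l
      (fun i => win_le hl _) E a hablk κ ha1 ha2' R η' hE4 (Mb (4 ^ (J' + 1) * b0))
      (Mb_pos _)
    refine le_trans ?_ (h.trans (mul_le_mul_of_nonneg_right htl hq0'.le))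
    refine Finset.sum_le_sum (fun m _ => Finset.sum_le_sum (fun m' _ => ?_))
    have hlM : l ≤ Mb (4 ^ (J' + 1) * b0) := (l_le hlD).trans
      (Mb_mono (Nat.le_mul_of_pos_left _ (by positivity)))
    split_ifs with h1 h2
    · exact le_rfl
    · exact absurd (by push_cast; omega) h2
    · positivity
    · exact le_rfl
  -- Off bound
  have hoff := off_combined hw hG hO hC hb1 le_rfl hJ hNN hq hl hlD hK1 hK E cs η hη.le hE3 a hablk
    κ hκ0 ha1 ha2' θ0 (etaf η1 ν b0) (ω / 10) (fun b h1 _ => hκ b h1) hcs hsm hgflux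
    (fun j => (le_abs_self _).trans (hf j)) htail
  have hoff' : offw (fun i : Fin q => win lev b0 l ((i : ℕ) : ℤ)) (E.map a) ≤ ω * q := by
    refine hoff.trans (mul_le_mul_of_nonneg_right ?_ hq0'.le)
    push_cast
    exact hS1
  have hFdim' : (Module.finrank ℂ F : ℝ) ≤ Module.finrank ℂ E + 20 * (ω * q) := by linarith
  have hE2dim' : (Module.finrank ℂ E : ℝ) ≤ Module.finrank ℂ E2 + 20 * (ω * q) := by linarith
  have hc1 := hκ b0 le_rfl
  have hcs1 := hcs b0 le_rfl hb0J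
  have hcb : 0 ≤ c b0 := by linarith
  have hcsκ : κ ≤ cs := by
    have : 0 ≤ 2 * (rb b0 : ℝ) * c b0 := by positivity
    linarith
  -- windows
  obtain ⟨kk, hkk, hwin⟩ := windows_bound hG hO hC hb1 le_rfl hJ0 hbig.1 hbig.2 hl hlD hgl E F E2
    s W cs η ω hη.le hs0 hW0.le (hsκ.trans hcsκ) hE3 hFblk hFdim' hE2le hE2dim' hE2F hWl
  -- E1 and F
  have hE1fin : Module.finrank ℂ (E.map (mulD (fun i : Fin q =>
      Real.exp (-(s * gfun w lev b0 l K ((i : ℕ) : ℤ)))))) = Module.finrank ℂ E :=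
    finrank_map_mulD E _ (fun i => Real.exp_pos _)
  have hL1 := FD.l1_of_near (E.map (mulD (fun i : Fin q =>
      Real.exp (-(s * gfun w lev b0 l K ((i : ℕ) : ℤ)))))) E2 F W (20 * (ω * q)) hE2le
      (by rw [hE1fin]; exact hFdim') (by rw [hE1fin]; exact hE2dim') hE2F
  -- SEQ
  have hetaf : 0 ≤ etaf η1 ν b0 := by
    unfold etaf
    have := zb_nonneg b0
    positivity
  have hsc : s * (((2 ^ d : ℕ) : ℝ) + 1) ≤ κ := by linarith
  have hseq := seq_base' hG hO hC hb1 le_rfl hJ0 hbig.1 hbig.2 hl hlD hK1 hK E cs η hη.le hE3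
    s hs0 (by linarith) (by linarith) hcs1 (hsm b0 le_rfl hb0J) (etaf η1 ν b0) hetaf hf
  -- total `ℓ¹` distance of the diagonals of `E` and `F`
  set E1 := E.map (mulD (fun i : Fin q =>
      Real.exp (-(s * gfun w lev b0 l K ((i : ℕ) : ℤ))))) with hE1def
  have hsq : Real.sqrt q * Real.sqrt (3 * (20 * (ω * q)) + 2 * Real.exp (-(2 * W)) * q) =
      Real.sqrt (60 * ω + 2 * Real.exp (-(2 * W))) * q := by
    have e1 : 3 * (20 * (ω * q)) + 2 * Real.exp (-(2 * W)) * q =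
        (60 * ω + 2 * Real.exp (-(2 * W))) * q := by ring
    rw [e1, Real.sqrt_mul' _ hq0'.le]
    have e2 : Real.sqrt q * (Real.sqrt (60 * ω + 2 * Real.exp (-(2 * W))) * Real.sqrt q) =
        Real.sqrt (60 * ω + 2 * Real.exp (-(2 * W))) * (Real.sqrt q * Real.sqrt q) := by ring
    rw [e2, Real.mul_self_sqrt hq0'.le]
  have hdist : ∑ m ∈ range q, |hN E m - hN F m| ≤
      (2 * 3 ^ (2 ^ d - 1 + 2 * K) * (etaf η1 ν b0 + 18 * zb b0)
        + Real.sqrt (60 * ω + 2 * Real.exp (-(2 * W)))) * q := by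
    rw [sum_hN_sub]
    have h1 : ∑ m : Fin q, |dg E m - dg F m| ≤
        ∑ m : Fin q, |dg E1 m - dg E m| + ∑ m : Fin q, |dg E1 m - dg F m| := by
      rw [← Finset.sum_add_distrib]
      refine Finset.sum_le_sum (fun m _ => ?_)
      have := abs_sub_le (dg E m) (dg E1 m) (dg F m)
      rwa [abs_sub_comm (dg E m) (dg E1 m)] at this
    have h2 : ∑ m : Fin q, |dg E1 m - dg F m| ≤
        Real.sqrt (60 * ω + 2 * Real.exp (-(2 * W))) * q := by rw [← hsq]; exact hL1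
    linarith
  have htil := good_tiling (D := 2 ^ d) (q := q) hO hb1 hl hlD
  have hΩ := agg_windows' htil (hN F) (hN E) kk _ _ hdist hwin
  -- half windows
  obtain ⟨ν', rfl⟩ : ∃ ν', ν = ν' + 1 := ⟨ν - 1, by omega⟩
  have hl2 : l = 2 * (2 ^ ν' * lh) := by rw [← hlh, pow_succ]; ring
  have hlh' : lh ≤ 2 ^ ν' * lh := Nat.le_mul_of_pos_left _ (by positivity)
  have hcount := good_count' (D := 2 ^ d) hO hC hb1 le_rfl hJ0 hbig.1 hbig.2 hl hlD
  have hfin := half_windows htil hl2 hlh1 hlh' (hN E) (hN_nonneg E) (hN_le_one E) ρ μ hμ0 hμ1 hμ2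
    kk hkk η1 _ _ hΩ hE5 hcount
  have hlhl : (lh : ℝ) / l = 1 / 2 ^ (ν' + 1) := by
    rw [← hlh]
    have : (0 : ℝ) < lh := by exact_mod_cast hlh1
    push_cast
    field_simp
  rw [hlhl] at hfin
  have hfin' := le_of_mul_le_mul_right hfin hq0'
  have hsqrt : Real.sqrt (2 * (60 * ω + η + (2 / ((2 ^ d : ℕ) : ℝ) + 50 * zb b0))) ≤
      Real.sqrt (2 * (60 * ω + ω + eps3 (2 ^ d) b0)) := by
    apply Real.sqrt_le_sqrt
    unfold eps3
    push_cast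
    linarith
  have h3 : μ * (1 - (2 / ((2 ^ d : ℕ) : ℝ) + 50 * zb b0)) / 2 = μ * (1 - eps3 (2 ^ d) b0) / 2 := by
    unfold eps3
    push_cast
    ring
  rw [h3] at hfin'
  unfold eps2 at hS2
  linarith

/-- second level: the number of distance classes -/
theorem exists_J (b0 l R : ℕ) (hb0 : 1 ≤ b0) (κ ω : ℝ) (hω : 0 < ω) :
    ∃ J' : ℕ, 16 * Real.exp (2 * κ) * (ω / (320 * Real.exp (2 * κ)) +
      (((R : ℝ) + l) / Mb (4 ^ (J' + 1) * b0)) ^ 2) ≤ ω / 10 := by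
  have hE : 0 < Real.exp (2 * κ) := Real.exp_pos _
  have hlim : Filter.Tendsto (fun J' : ℕ => (((R : ℝ) + l) / Mb (4 ^ (J' + 1) * b0)) ^ 2)
      Filter.atTop (nhds 0) := by
    have h1 : Filter.Tendsto (fun J' : ℕ => ((Mb (4 ^ (J' + 1) * b0) : ℕ) : ℝ)) Filter.atTop
        Filter.atTop := by
      apply tendsto_natCast_atTop_atTop.comp
      apply Filter.tendsto_atTop_mono _ Filter.tendsto_id
      intro J'
      have h2 : J' < 4 ^ (J' + 1) * b0 := by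
        have h3 : J' < 4 ^ J' := Nat.lt_pow_self (by norm_num)
        have h4 : 4 ^ J' ≤ 4 ^ (J' + 1) := Nat.pow_le_pow_right (by norm_num) (by omega)
        nlinarith
      have h5 : ∀ b : ℕ, b ≤ Mb b := by
        intro b
        unfold Mb
        have h6 : b < 2 ^ b := Nat.lt_two_pow_self
        have h7 : (2 : ℕ) ^ b ≤ 2 ^ (20 * b ^ 2) := by
          apply Nat.pow_le_pow_right (by norm_num)
          nlinarith [Nat.zero_le b]
        omega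
      have := h5 (4 ^ (J' + 1) * b0)
      simp only [id]
      omega
    have h2 := (Filter.Tendsto.const_div_atTop h1 ((R : ℝ) + l)).pow 2
    simpa using h2
  have hpos : 0 < ω / (320 * Real.exp (2 * κ)) := by positivity
  obtain ⟨J', hJ'⟩ := (hlim.eventually (gt_mem_nhds hpos)).exists
  refine ⟨J', ?_⟩
  have h3 : 16 * Real.exp (2 * κ) * (ω / (320 * Real.exp (2 * κ)) +
      (((R : ℝ) + l) / Mb (4 ^ (J' + 1) * b0)) ^ 2) ≤
      16 * Real.exp (2 * κ) * (ω / (320 * Real.exp (2 * κ)) + ω / (320 * Real.exp (2 * κ))) := by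
    gcongr
  refine h3.trans (le_of_eq ?_)
  field_simp
  norm_num

theorem exists_cs (f : ℕ → ℝ) (n : ℕ) : ∃ cs : ℝ, ∀ b ≤ n, f b ≤ cs := by
  obtain ⟨M, hM⟩ := ((Finset.range (n + 1)).image f).exists_le
  exact ⟨M, fun b hb => hM _ (Finset.mem_image_of_mem f (Finset.mem_range.mpr (by omega)))⟩

/-- **T12: the finite-dimensional theorem.** -/
theorem s_fd : S_FD := by
  intro w hw c e g hG ρ hρ0 hρ1
  have hμ0 : 0 < min ρ (1 - ρ) := lt_min hρ0 (by linarith)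
  have hμ1 : min ρ (1 - ρ) ≤ 1 / 2 := by
    rcases le_total ρ (1 / 2) with h | h
    · exact (min_le_left _ _).trans h
    · exact (min_le_right _ _).trans (by linarith)
  obtain ⟨θ0, ω, η1, K, d, ν, hθ0, hω, hη1, hK1, hd1, hν1, H⟩ := params1 hG hμ0 hμ1
  refine ⟨η1, hη1, fun l0 => ?_⟩
  obtain ⟨b0, l, lh, hb0, hKr, hlD, hlh, hl0, hlh1, hgl, hκ, hexp, hWl, hS1, hS2⟩ := H l0
  refine ⟨lh, hl0, hlh1, ω / (320 * Real.exp (2 * KK e b0 l θ0 (2 ^ d))), by positivity,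
    fun R => ?_⟩
  obtain ⟨J', hJ'⟩ := exists_J b0 l R (by omega) (KK e b0 l θ0 (2 ^ d)) ω hω
  obtain ⟨cs, hcs⟩ := exists_cs
    (fun b => (2 * rb b * c b + e b) + 5 * (c b - e b) + 10) (4 ^ J' * b0)
  have hz : 0 < zb (4 ^ J' * b0) := by unfold zb; positivity
  refine ⟨b0, 4 ^ J' * b0, 2 * (Pib (4 ^ J' * b0) * Mb (4 ^ J' * b0)), cs,
    min (zb (4 ^ J' * b0)) ω, 4 ^ (4 ^ J' * b0) * (Pib (4 ^ J' * b0) * Mb (4 ^ J' * b0)),
    hb0, lt_min hz hω, ?_⟩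
  intro q hq u lev bad hO hC E _ hE3 hE4 hE5
  refine fd_core hw hG hO hC hb0 le_rfl le_rfl hq hlD hlh hlh1 hν1 hK1 hKr hgl ρ
    (min ρ (1 - ρ)) θ0 ω η1 _ (min (zb (4 ^ J' * b0)) ω) cs hρ0 hρ1 hμ0.le (min_le_left _ _)
    (min_le_right _ _) hθ0 hη1 (lt_min hz hω) (min_le_right _ _) hκ (fun b _ hb => hcs b hb)
    ?_ hWl hS1 hS2 hJ' E hE3 hE4 hE5
  intro b hbb hbJ
  have h1 : zb (4 ^ J' * b0) ≤ zb b := by
    unfold zb
    exact pow_le_pow_of_le_one (by norm_num) (by norm_num) hbJ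
  have h2 := hexp b hbb
  have h3 : min (zb (4 ^ J' * b0)) ω ≤ zb (4 ^ J' * b0) := min_le_left _ _
  linarith

end Crest.Agent.R113.Orb
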