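import Crest.Agent.R113.FD.Sub

/-!
# Row 113 (T1): two-valued scaling (helper600)
-/

set_option autoImplicit false
set_option linter.unusedSectionVars false

namespace Crest.Agent.R113.FD

open Finset
open scoped InnerProductSpace

variable {ι : Type*} [Fintype ι] [DecidableEq ι]

/-- an orthonormal basis of `X` diagonalising the compression of any symmetric operator `T` -/
lemma exists_eigenbasis (X : Submodule ℂ (Ev ι)) (T : Op ι)
    (hT : ∀ v w : Ev ι, ⟪T v, w⟫_ℂ = ⟪v, T w⟫_ℂ) :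
    ∃ (b : OrthonormalBasis (Fin (Module.finrank ℂ X)) ℂ X)
      (ev : Fin (Module.finrank ℂ X) → ℝ), ∀ j, pj X (T (b j)) = (ev j : ℂ) • (b j : Ev ι) := by
  let S : X →ₗ[ℂ] X := (X.orthogonalProjectionOnto : Ev ι →ₗ[ℂ] X) ∘ₗ (T : Ev ι →ₗ[ℂ] Ev ι) ∘ₗ X.subtype
  have hS : LinearMap.IsSymmetric (𝕜 := ℂ) (E := X) S := by
    intro x y
    rw [Submodule.coe_inner, Submodule.coe_inner]
    have e1 : ((S x : X) : Ev ι) = pj X (T x) := rfl
    have e2 : ((S y : X) : Ev ι) = pj X (T y) := rfl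
    rw [e1, e2, inner_pj_left_of_mem _ y.2, ← inner_pj_left, pj_eq_self x.2, hT]
  refine ⟨hS.eigenvectorBasis rfl, hS.eigenvalues rfl, fun j => ?_⟩
  have := hS.apply_eigenvectorBasis rfl j
  have h2 := congrArg (fun z : X => (z : Ev ι)) this
  exact h2

/-- an orthonormal basis of `X` diagonalising the compression of `1_A`. -/
lemma exists_diag_basis (X : Submodule ℂ (Ev ι)) (A : Finset ι) :
    ∃ b : OrthonormalBasis (Fin (Module.finrank ℂ X)) ℂ X,
      ∀ j, pj X (cp A (b j)) = ((‖cp A (b j : Ev ι)‖ ^ 2 : ℝ) : ℂ) • (b j : Ev ι) := by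
  obtain ⟨b, ev, hb⟩ := exists_eigenbasis X (cp A) (inner_cp_left A)
  refine ⟨b, fun j => ?_⟩
  rw [hb j]
  congr 1
  have h1 : ⟪(b j : Ev ι), pj X (cp A (b j))⟫_ℂ = ((‖cp A (b j : Ev ι)‖ ^ 2 : ℝ) : ℂ) := by
    rw [← inner_pj_left, pj_eq_self (b j).2, inner_cp_self]
  rw [hb j, inner_smul_right] at h1
  have h2 : ⟪(b j : Ev ι), (b j : Ev ι)⟫_ℂ = 1 := by
    have := b.inner_eq_one j
    rwa [Submodule.coe_inner] at this
  rw [h2, mul_one] at h1
  exact h1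

/-- scaling of a subspace by a real diagonal -/
noncomputable def sc (d : ι → ℝ) (X : Submodule ℂ (Ev ι)) : Submodule ℂ (Ev ι) :=
  X.map ((dg (fun m => (d m : ℂ)) : Op ι) : Ev ι →ₗ[ℂ] Ev ι)

lemma mem_sc {d : ι → ℝ} {X : Submodule ℂ (Ev ι)} {w : Ev ι} :
    w ∈ sc d X ↔ ∃ v ∈ X, dg (fun m => (d m : ℂ)) v = w := Iff.rfl

lemma dg_mem_sc {d : ι → ℝ} {X : Submodule ℂ (Ev ι)} {v : Ev ι} (hv : v ∈ X) :
    dg (fun m => (d m : ℂ)) v ∈ sc d X := ⟨v, hv, rfl⟩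

lemma sc_sc (d d' : ι → ℝ) (X : Submodule ℂ (Ev ι)) :
    sc d (sc d' X) = sc (fun m => d m * d' m) X := by
  ext w
  simp only [mem_sc]
  constructor
  · rintro ⟨v, ⟨u, hu, rfl⟩, rfl⟩
    refine ⟨u, hu, ?_⟩
    ext m; simp [mul_assoc]
  · rintro ⟨u, hu, rfl⟩
    refine ⟨_, ⟨u, hu, rfl⟩, ?_⟩
    ext m; simp [mul_assoc]

lemma sc_const {c : ℝ} (hc : c ≠ 0) (X : Submodule ℂ (Ev ι)) : sc (fun _ => c) X = X := by
  have hc' : (c : ℂ) ≠ 0 := by exact_mod_cast hc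
  have e : ∀ v : Ev ι, dg (fun _ => (c : ℂ)) v = (c : ℂ) • v := by
    intro v; ext m; simp
  ext w
  simp only [mem_sc, e]
  constructor
  · rintro ⟨v, hv, rfl⟩; exact X.smul_mem _ hv
  · intro hw; exact ⟨(c : ℂ)⁻¹ • w, X.smul_mem _ hw, by rw [smul_smul, mul_inv_cancel₀ hc', one_smul]⟩

lemma sc_one (X : Submodule ℂ (Ev ι)) : sc (fun _ => 1) X = X := sc_const one_ne_zero X

lemma sc_inv {d : ι → ℝ} (hd : ∀ m, d m ≠ 0) (X : Submodule ℂ (Ev ι)) :
    sc (fun m => (d m)⁻¹) (sc d X) = X := by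
  rw [sc_sc]
  have : (fun m => (d m)⁻¹ * d m) = fun _ => (1 : ℝ) := by
    funext m; exact inv_mul_cancel₀ (hd m)
  rw [this, sc_one]

lemma dg_injective {d : ι → ℝ} (hd : ∀ m, d m ≠ 0) :
    Function.Injective (dg (fun m => (d m : ℂ)) : Op ι) := by
  intro v w h
  ext m
  have := congrArg (fun z : Ev ι => z m) h
  simp only [dg_apply] at this
  exact mul_left_cancel₀ (by exact_mod_cast hd m) this

lemma finrank_sc {d : ι → ℝ} (hd : ∀ m, d m ≠ 0) (X : Submodule ℂ (Ev ι)) :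
    Module.finrank ℂ (sc d X) = Module.finrank ℂ X :=
  (Submodule.equivMapOfInjective _ (dg_injective hd) X).finrank_eq.symm

/-- two valued function: `t` on `A`, `1` off `A`. -/
noncomputable def tw (t : ℝ) (A : Finset ι) : ι → ℝ := fun m => if m ∈ A then t else 1

lemma tw_pos {t : ℝ} (ht : 0 < t) (A : Finset ι) (m : ι) : 0 < tw t A m := by
  unfold tw; split_ifs <;> linarith

lemma tw_le_one {t : ℝ} (ht : t ≤ 1) (A : Finset ι) (m : ι) : tw t A m ≤ 1 := by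
  unfold tw; split_ifs <;> linarith

lemma dg_tw (t : ℝ) (A : Finset ι) (v : Ev ι) :
    dg (fun m => (tw t A m : ℂ)) v = (t : ℂ) • cp A v + cp Aᶜ v := by
  ext m
  by_cases h : m ∈ A <;> simp [tw, h]

lemma inner_cp_cp (A : Finset ι) (v w : Ev ι) : ⟪cp A v, cp A w⟫_ℂ = ⟪v, cp A w⟫_ℂ := by
  rw [inner_cp_left, cp_cp]

lemma inner_cp_cp_compl (A : Finset ι) (v w : Ev ι) : ⟪cp A v, cp Aᶜ w⟫_ℂ = 0 := by
  rw [inner_cp_left]
  have : cp A (cp Aᶜ w) = 0 := by ext m; by_cases h : m ∈ A <;> simp [h]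
  rw [this, inner_zero_right]

lemma inner_cp_compl_cp (A : Finset ι) (v w : Ev ι) : ⟪cp Aᶜ v, cp A w⟫_ℂ = 0 := by
  rw [inner_cp_left]
  have : cp Aᶜ (cp A w) = 0 := by ext m; by_cases h : m ∈ A <;> simp [h]
  rw [this, inner_zero_right]

lemma inner_cp_compl (A : Finset ι) (v w : Ev ι) : ⟪v, cp Aᶜ w⟫_ℂ = ⟪v, w⟫_ℂ - ⟪v, cp A w⟫_ℂ := by
  conv_rhs => rw [← cp_add_compl A w, inner_add_right]
  rw [map_add, cp_cp, inner_add_right]
  have : cp A (cp Aᶜ w) = 0 := by ext m; by_cases h : m ∈ A <;> simp [h]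
  rw [this, inner_zero_right]; ring

/-- Data for the two valued scaling `X' = (t on A, 1 off A) X`. There is an orthonormal basis `b` of
`X` with `λ i = ‖1_A b i‖²`, and an orthonormal basis `u` of `X'` with
`u i = (n i)^{-1/2} D b i`, `n i = t² λ i + 1 - λ i`. -/
lemma exists_cs_basis (X : Submodule ℂ (Ev ι)) (A : Finset ι) {t : ℝ} (ht : 0 < t) :
    ∃ (b : OrthonormalBasis (Fin (Module.finrank ℂ X)) ℂ X)
      (u : OrthonormalBasis (Fin (Module.finrank ℂ X)) ℂ (sc (tw t A) X)),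
      (∀ j, pj X (cp A (b j)) = ((‖cp A (b j : Ev ι)‖ ^ 2 : ℝ) : ℂ) • (b j : Ev ι)) ∧
      (∀ j, 0 < t ^ 2 * ‖cp A (b j : Ev ι)‖ ^ 2 + (1 - ‖cp A (b j : Ev ι)‖ ^ 2)) ∧
      ∀ j, (u j : Ev ι)
        = (((√(t ^ 2 * ‖cp A (b j : Ev ι)‖ ^ 2 + (1 - ‖cp A (b j : Ev ι)‖ ^ 2)))⁻¹ : ℝ) : ℂ) •
          dg (fun m => (tw t A m : ℂ)) (b j : Ev ι) := by
  obtain ⟨b, hb⟩ := exists_diag_basis X A
  set lam : Fin (Module.finrank ℂ X) → ℝ := fun j => ‖cp A (b j : Ev ι)‖ ^ 2 with hlam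
  have hnorm : ∀ j, ‖(b j : Ev ι)‖ = 1 := fun j => b.norm_eq_one j
  have hlam0 : ∀ j, 0 ≤ lam j := fun j => by positivity
  have hlam1 : ∀ j, lam j ≤ 1 := by
    intro j
    have h1 := norm_cp_le A (b j : Ev ι)
    rw [hnorm] at h1
    have h2 := norm_nonneg (cp A (b j : Ev ι))
    simp only [hlam]; nlinarith
  set n : Fin (Module.finrank ℂ X) → ℝ := fun j => t ^ 2 * lam j + (1 - lam j) with hn
  have hnpos : ∀ j, 0 < n j := by
    intro j
    by_cases h : lam j = 1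
    · simp only [hn, h]; nlinarith [sq_pos_of_pos ht]
    · have : lam j < 1 := lt_of_le_of_ne (hlam1 j) h
      simp only [hn]
      have := mul_nonneg (sq_nonneg t) (hlam0 j)
      linarith
  have hin : ∀ i j, ⟪(b i : Ev ι), cp A (b j : Ev ι)⟫_ℂ = if i = j then (lam j : ℂ) else 0 := by
    intro i j
    rw [← pj_eq_self (b i).2, inner_pj_left, hb j, inner_smul_right]
    have := b.inner_eq_ite i j
    rw [Submodule.coe_inner] at this
    rw [this]
    split_ifs <;> simp [hlam]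
  have hin' : ∀ i j, ⟪(b i : Ev ι), (b j : Ev ι)⟫_ℂ = if i = j then (1 : ℂ) else 0 := by
    intro i j
    have := b.inner_eq_ite i j
    rwa [Submodule.coe_inner] at this
  set w : Fin (Module.finrank ℂ X) → Ev ι := fun j => dg (fun m => (tw t A m : ℂ)) (b j : Ev ι)
    with hw
  have hww : ∀ i j, ⟪w i, w j⟫_ℂ = if i = j then (n j : ℂ) else 0 := by
    intro i j
    simp only [hw]
    rw [dg_tw, dg_tw, inner_add_left, inner_add_right, inner_add_right, inner_smul_left,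
      inner_smul_right, inner_smul_left, inner_smul_right, inner_cp_cp, inner_cp_cp,
      inner_cp_cp_compl, inner_cp_compl_cp, inner_cp_compl, hin, hin']
    simp only [hn]
    split_ifs
    · simp; ring
    · simp
  set u : Fin (Module.finrank ℂ X) → sc (tw t A) X := fun j =>
    ⟨(((√(n j))⁻¹ : ℝ) : ℂ) • w j, Submodule.smul_mem _ _ (dg_mem_sc (b j).2)⟩ with hu
  have hsq : ∀ j, (√(n j))⁻¹ * (√(n j))⁻¹ * n j = 1 := by
    intro j
    have h := Real.mul_self_sqrt (hnpos j).le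
    have h' : √(n j) ≠ 0 := (Real.sqrt_pos.2 (hnpos j)).ne'
    field_simp
    nlinarith
  have hon : Orthonormal ℂ u := by
    rw [orthonormal_iff_ite]
    intro i j
    rw [Submodule.coe_inner]
    simp only [hu]
    rw [inner_smul_left, inner_smul_right, hww]
    split_ifs with h
    · subst h
      rw [Complex.conj_ofReal]
      have := hsq i
      have h2 : (((√(n i))⁻¹ : ℝ) : ℂ) * ((((√(n i))⁻¹ : ℝ) : ℂ) * (n i : ℂ))
          = (((√(n i))⁻¹ * (√(n i))⁻¹ * n i : ℝ) : ℂ) := by push_cast; ring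
      rw [h2, this]; simp
    · simp
  have hsp : ⊤ ≤ Submodule.span ℂ (Set.range u) := by
    intro x _
    obtain ⟨v, hv, hvx⟩ := x.2
    have h1 : (∑ i, ⟪b i, (⟨v, hv⟩ : X)⟫_ℂ • b i) = (⟨v, hv⟩ : X) := b.sum_repr' _
    have h2 : x = ∑ i, (⟪b i, (⟨v, hv⟩ : X)⟫_ℂ * ((√(n i) : ℝ) : ℂ)) • u i := by
      apply Subtype.ext
      rw [← hvx]
      have h3 : v = ∑ i, ⟪b i, (⟨v, hv⟩ : X)⟫_ℂ • (b i : Ev ι) := by
        have := congrArg (fun z : X => (z : Ev ι)) h1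
        simp only [Submodule.coe_sum, Submodule.coe_smul] at this
        exact this.symm
      conv_lhs => rw [h3]
      rw [map_sum, Submodule.coe_sum]
      refine Finset.sum_congr rfl fun i _ => ?_
      rw [map_smul, Submodule.coe_smul]
      simp only [hu]
      rw [smul_smul]
      congr 1
      have h' : √(n i) ≠ 0 := (Real.sqrt_pos.2 (hnpos i)).ne'
      have h4 : ((√(n i) : ℝ) : ℂ) * (((√(n i))⁻¹ : ℝ) : ℂ) = 1 := by
        rw [← Complex.ofReal_mul, mul_inv_cancel₀ h']; simp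
      rw [mul_assoc, h4, mul_one]
    rw [h2]
    exact Submodule.sum_mem _ fun i _ => Submodule.smul_mem _ _ (Submodule.subset_span ⟨i, rfl⟩)
  refine ⟨b, OrthonormalBasis.mk hon hsp, hb, hnpos, fun j => ?_⟩
  rw [OrthonormalBasis.coe_mk]

/-- **(CS)** two valued scaling: the diagonal decreases on `A` and increases off `A`. -/
lemma cs_hh_le (X : Submodule ℂ (Ev ι)) (A : Finset ι) {t : ℝ} (ht : 0 < t) (ht1 : t ≤ 1)
    {m : ι} (hm : m ∈ A) : hh (sc (tw t A) X) m ≤ hh X m := by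
  obtain ⟨b, u, -, hn, hu⟩ := exists_cs_basis X A ht
  rw [hh_eq_basis u, hh_eq_basis b]
  refine Finset.sum_le_sum fun j _ => ?_
  rw [hu j]
  set n := t ^ 2 * ‖cp A (b j : Ev ι)‖ ^ 2 + (1 - ‖cp A (b j : Ev ι)‖ ^ 2) with hndef
  have hnpos : 0 < n := hn j
  have h1 : ‖((((√n)⁻¹ : ℝ) : ℂ) • dg (fun m => (tw t A m : ℂ)) (b j : Ev ι)) m‖ ^ 2
      = n⁻¹ * (t ^ 2 * ‖(b j : Ev ι) m‖ ^ 2) := by
    rw [PiLp.smul_apply, dg_apply, norm_smul, norm_mul, Complex.norm_real, Complex.norm_real,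
      mul_pow, mul_pow, Real.norm_eq_abs, Real.norm_eq_abs, sq_abs, sq_abs, inv_pow,
      Real.sq_sqrt hnpos.le]
    simp [tw, hm]
  rw [h1]
  have hl : ‖cp A (b j : Ev ι)‖ ^ 2 ≤ 1 := by
    have h1 := norm_cp_le A (b j : Ev ι)
    have h3 : ‖(b j : Ev ι)‖ = 1 := b.norm_eq_one j
    rw [h3] at h1
    have h2 := norm_nonneg (cp A (b j : Ev ι))
    nlinarith
  have ht2 : t ^ 2 ≤ 1 := by nlinarith
  have hnt : t ^ 2 ≤ n := by rw [hndef]; nlinarith
  have : n⁻¹ * t ^ 2 ≤ 1 := by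
    rw [inv_mul_le_iff₀ hnpos]; linarith
  calc n⁻¹ * (t ^ 2 * ‖(b j : Ev ι) m‖ ^ 2) = (n⁻¹ * t ^ 2) * ‖(b j : Ev ι) m‖ ^ 2 := by ring
    _ ≤ 1 * ‖(b j : Ev ι) m‖ ^ 2 := by gcongr
    _ = _ := one_mul _

lemma cs_le_hh (X : Submodule ℂ (Ev ι)) (A : Finset ι) {t : ℝ} (ht : 0 < t) (ht1 : t ≤ 1)
    {m : ι} (hm : m ∉ A) : hh X m ≤ hh (sc (tw t A) X) m := by
  obtain ⟨b, u, -, hn, hu⟩ := exists_cs_basis X A ht
  rw [hh_eq_basis u, hh_eq_basis b]
  refine Finset.sum_le_sum fun j _ => ?_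
  rw [hu j]
  set n := t ^ 2 * ‖cp A (b j : Ev ι)‖ ^ 2 + (1 - ‖cp A (b j : Ev ι)‖ ^ 2) with hndef
  have hnpos : 0 < n := hn j
  have h1 : ‖((((√n)⁻¹ : ℝ) : ℂ) • dg (fun m => (tw t A m : ℂ)) (b j : Ev ι)) m‖ ^ 2
      = n⁻¹ * (‖(b j : Ev ι) m‖ ^ 2) := by
    rw [PiLp.smul_apply, dg_apply, norm_smul, norm_mul, Complex.norm_real, Complex.norm_real,
      mul_pow, mul_pow, Real.norm_eq_abs, Real.norm_eq_abs, sq_abs, sq_abs, inv_pow,
      Real.sq_sqrt hnpos.le]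
    simp [tw, hm]
  rw [h1]
  have hl : 0 ≤ ‖cp A (b j : Ev ι)‖ ^ 2 := by positivity
  have ht2 : t ^ 2 ≤ 1 := by nlinarith
  have hnt : n ≤ 1 := by rw [hndef]; nlinarith
  have : 1 ≤ n⁻¹ := (one_le_inv₀ hnpos).2 hnt
  calc ‖(b j : Ev ι) m‖ ^ 2 = 1 * ‖(b j : Ev ι) m‖ ^ 2 := (one_mul _).symm
    _ ≤ _ := by gcongr

/-- mass moved out of `A` by the two valued scaling. -/
noncomputable def moved (t : ℝ) (A : Finset ι) (X : Submodule ℂ (Ev ι)) : ℝ :=
  trA X A - trA (sc (tw t A) X) A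

lemma moved_nonneg (X : Submodule ℂ (Ev ι)) (A : Finset ι) {t : ℝ} (ht : 0 < t) (ht1 : t ≤ 1) :
    0 ≤ moved t A X := by
  unfold moved trA
  rw [← Finset.sum_sub_distrib]
  exact Finset.sum_nonneg fun m hm => sub_nonneg.2 (cs_hh_le X A ht ht1 hm)

lemma moved_eq_compl (X : Submodule ℂ (Ev ι)) (A : Finset ι) {t : ℝ} (ht : 0 < t) :
    moved t A X = trA (sc (tw t A) X) Aᶜ - trA X Aᶜ := by
  have h1 := trA_add_compl X A
  have h2 := trA_add_compl (sc (tw t A) X) A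
  rw [finrank_sc (fun m => (tw_pos ht A m).ne')] at h2
  unfold moved; linarith

/-- **(CS5)** -/
lemma abs_trA_sub_le (X : Submodule ℂ (Ev ι)) (A B : Finset ι) {t : ℝ} (ht : 0 < t) (ht1 : t ≤ 1) :
    |trA (sc (tw t A) X) B - trA X B| ≤ moved t A X := by
  have key : trA (sc (tw t A) X) B - trA X B
      = ∑ m ∈ B with m ∈ A, (hh (sc (tw t A) X) m - hh X m)
        + ∑ m ∈ B with m ∉ A, (hh (sc (tw t A) X) m - hh X m) := by
    rw [Finset.sum_filter_add_sum_filter_not, Finset.sum_sub_distrib]; rfl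
  have h1 : -moved t A X ≤ ∑ m ∈ B with m ∈ A, (hh (sc (tw t A) X) m - hh X m) := by
    have : ∑ m ∈ A, (hh X m - hh (sc (tw t A) X) m)
        ≥ ∑ m ∈ B with m ∈ A, (hh X m - hh (sc (tw t A) X) m) := by
      refine Finset.sum_le_sum_of_subset_of_nonneg (fun m hm => (Finset.mem_filter.1 hm).2) ?_
      intro m hm _
      exact sub_nonneg.2 (cs_hh_le X A ht ht1 hm)
    have e : moved t A X = ∑ m ∈ A, (hh X m - hh (sc (tw t A) X) m) := by
      rw [Finset.sum_sub_distrib]; rfl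
    rw [e]
    have e2 : ∑ m ∈ B with m ∈ A, (hh (sc (tw t A) X) m - hh X m)
        = -∑ m ∈ B with m ∈ A, (hh X m - hh (sc (tw t A) X) m) := by
      rw [← Finset.sum_neg_distrib]; exact Finset.sum_congr rfl fun m _ => by ring
    rw [e2]; linarith
  have h2 : ∑ m ∈ B with m ∈ A, (hh (sc (tw t A) X) m - hh X m) ≤ 0 :=
    Finset.sum_nonpos fun m hm => sub_nonpos.2 (cs_hh_le X A ht ht1 (Finset.mem_filter.1 hm).2)
  have h3 : 0 ≤ ∑ m ∈ B with m ∉ A, (hh (sc (tw t A) X) m - hh X m) :=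
    Finset.sum_nonneg fun m hm => sub_nonneg.2 (cs_le_hh X A ht ht1 (Finset.mem_filter.1 hm).2)
  have h4 : ∑ m ∈ B with m ∉ A, (hh (sc (tw t A) X) m - hh X m) ≤ moved t A X := by
    rw [moved_eq_compl X A ht]
    have e : trA (sc (tw t A) X) Aᶜ - trA X Aᶜ
        = ∑ m ∈ Aᶜ, (hh (sc (tw t A) X) m - hh X m) := by
      rw [Finset.sum_sub_distrib]; rfl
    rw [e]
    refine Finset.sum_le_sum_of_subset_of_nonneg ?_ ?_
    · intro m hm; exact Finset.mem_compl.2 (Finset.mem_filter.1 hm).2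
    · intro m hm _
      exact sub_nonneg.2 (cs_le_hh X A ht ht1 (Finset.mem_compl.1 hm))
  rw [key, abs_le]
  constructor <;> linarith

/-- total variation of the diagonal `= 2 moved` -/
lemma sum_abs_hh_sub_eq (X : Submodule ℂ (Ev ι)) (A : Finset ι) {t : ℝ} (ht : 0 < t) (ht1 : t ≤ 1) :
    ∑ m, |hh (sc (tw t A) X) m - hh X m| = 2 * moved t A X := by
  rw [← Finset.sum_add_sum_compl A]
  have h1 : ∑ m ∈ A, |hh (sc (tw t A) X) m - hh X m| = moved t A X := by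
    have e : moved t A X = ∑ m ∈ A, (hh X m - hh (sc (tw t A) X) m) := by
      rw [Finset.sum_sub_distrib]; rfl
    rw [e]
    refine Finset.sum_congr rfl fun m hm => ?_
    rw [abs_sub_comm, abs_of_nonneg (sub_nonneg.2 (cs_hh_le X A ht ht1 hm))]
  have h2 : ∑ m ∈ Aᶜ, |hh (sc (tw t A) X) m - hh X m| = moved t A X := by
    rw [moved_eq_compl X A ht]
    have e : trA (sc (tw t A) X) Aᶜ - trA X Aᶜ
        = ∑ m ∈ Aᶜ, (hh (sc (tw t A) X) m - hh X m) := by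
      rw [Finset.sum_sub_distrib]; rfl
    rw [e]
    refine Finset.sum_congr rfl fun m hm => ?_
    rw [abs_of_nonneg (sub_nonneg.2 (cs_le_hh X A ht ht1 (Finset.mem_compl.1 hm)))]
  rw [h1, h2]; ring

lemma moved_eq_sum {X : Submodule ℂ (Ev ι)} {A : Finset ι} {t : ℝ} (_ht : 0 < t)
    {b : OrthonormalBasis (Fin (Module.finrank ℂ X)) ℂ X}
    {u : OrthonormalBasis (Fin (Module.finrank ℂ X)) ℂ (sc (tw t A) X)}
    (hn : ∀ j, 0 < t ^ 2 * ‖cp A (b j : Ev ι)‖ ^ 2 + (1 - ‖cp A (b j : Ev ι)‖ ^ 2))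
    (hu : ∀ j, (u j : Ev ι)
        = (((√(t ^ 2 * ‖cp A (b j : Ev ι)‖ ^ 2 + (1 - ‖cp A (b j : Ev ι)‖ ^ 2)))⁻¹ : ℝ) : ℂ) •
          dg (fun m => (tw t A m : ℂ)) (b j : Ev ι)) :
    moved t A X = ∑ j, (‖cp A (b j : Ev ι)‖ ^ 2 * (1 - ‖cp A (b j : Ev ι)‖ ^ 2) * (1 - t ^ 2)) /
      (t ^ 2 * ‖cp A (b j : Ev ι)‖ ^ 2 + (1 - ‖cp A (b j : Ev ι)‖ ^ 2)) := by
  unfold moved
  rw [trA_eq_basis b, trA_eq_basis u, ← Finset.sum_sub_distrib]
  refine Finset.sum_congr rfl fun j _ => ?_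
  rw [hu j]
  set n := t ^ 2 * ‖cp A (b j : Ev ι)‖ ^ 2 + (1 - ‖cp A (b j : Ev ι)‖ ^ 2) with hndef
  have hnpos : 0 < n := hn j
  have h1 : ‖cp A ((((√n)⁻¹ : ℝ) : ℂ) • dg (fun m => (tw t A m : ℂ)) (b j : Ev ι))‖ ^ 2
      = n⁻¹ * (t ^ 2 * ‖cp A (b j : Ev ι)‖ ^ 2) := by
    have e : cp A (dg (fun m => (tw t A m : ℂ)) (b j : Ev ι)) = (t : ℂ) • cp A (b j : Ev ι) := by
      ext m; by_cases h : m ∈ A <;> simp [tw, h]
    rw [map_smul, e, norm_smul, norm_smul, Complex.norm_real, Complex.norm_real,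
      mul_pow, mul_pow, Real.norm_eq_abs, Real.norm_eq_abs, sq_abs, sq_abs, inv_pow,
      Real.sq_sqrt hnpos.le]
  rw [h1]
  have hn0 : n ≠ 0 := hnpos.ne'
  field_simp
  rw [hndef]; ring

/-- **(CS4)** `moved ≥ (1-t²) cut`. -/
lemma cut_le_moved (X : Submodule ℂ (Ev ι)) (A : Finset ι) {t : ℝ} (ht : 0 < t) (ht1 : t ≤ 1) :
    (1 - t ^ 2) * cut X A ≤ moved t A X := by
  obtain ⟨b, u, hb, hn, hu⟩ := exists_cs_basis X A ht
  rw [moved_eq_sum ht hn hu, cut_eq_basis b, Finset.mul_sum]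
  refine Finset.sum_le_sum fun j _ => ?_
  set lam := ‖cp A (b j : Ev ι)‖ ^ 2 with hlam
  have h3 : ‖(b j : Ev ι)‖ = 1 := b.norm_eq_one j
  have hl0 : 0 ≤ lam := by positivity
  have hl1 : lam ≤ 1 := by
    have h1 := norm_cp_le A (b j : Ev ι)
    rw [h3] at h1
    have h2 := norm_nonneg (cp A (b j : Ev ι))
    rw [hlam]; nlinarith
  have h4 : ‖cp A (b j : Ev ι) - pj X (cp A (b j : Ev ι))‖ ^ 2 = lam * (1 - lam) := by
    have h5 := norm_sq_pj_add X (cp A (b j : Ev ι))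
    have h6 : ‖pj X (cp A (b j : Ev ι))‖ ^ 2 = lam ^ 2 := by
      rw [hb j, norm_smul, h3, mul_one, Complex.norm_real, Real.norm_eq_abs, sq_abs]
    rw [h6] at h5
    linarith
  rw [h4]
  have ht2 : t ^ 2 ≤ 1 := by nlinarith
  rw [le_div_iff₀ (hn j)]
  have hn1 : t ^ 2 * lam + (1 - lam) ≤ 1 := by nlinarith
  have h7 : 0 ≤ (1 - t ^ 2) * (lam * (1 - lam)) :=
    mul_nonneg (by linarith) (mul_nonneg hl0 (by linarith))
  nlinarith

/-- **(CS3)** `‖P_{X'} - P_X‖₂² ≤ 2 moved`. -/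
lemma hs_sc_sub_le (X : Submodule ℂ (Ev ι)) (A : Finset ι) {t : ℝ} (ht : 0 < t) (ht1 : t ≤ 1) :
    hs (pj (sc (tw t A) X) - pj X) ≤ 2 * moved t A X := by
  obtain ⟨b, u, hb, hn, hu⟩ := exists_cs_basis X A ht
  have hfr := finrank_sc (fun m => (tw_pos ht A m).ne') X
  rw [hs_sub_comm, hs_pj_sub_pj, hfr, moved_eq_sum ht hn hu]
  have h1 : hs (pj (sc (tw t A) X) * pj X) = ∑ j, ‖pj (sc (tw t A) X) (b j : Ev ι)‖ ^ 2 :=
    (sum_basis b _).symm
  have h2 : ∀ j, (t * ‖cp A (b j : Ev ι)‖ ^ 2 + (1 - ‖cp A (b j : Ev ι)‖ ^ 2)) ^ 2 /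
      (t ^ 2 * ‖cp A (b j : Ev ι)‖ ^ 2 + (1 - ‖cp A (b j : Ev ι)‖ ^ 2))
      ≤ ‖pj (sc (tw t A) X) (b j : Ev ι)‖ ^ 2 := by
    intro j
    rw [← sum_norm_inner_basis u]
    refine le_trans (le_of_eq ?_) (Finset.single_le_sum (f := fun i => ‖⟪(b j : Ev ι), (u i : Ev ι)⟫_ℂ‖ ^ 2)
      (fun i _ => by positivity) (Finset.mem_univ j))
    rw [hu j]
    set n := t ^ 2 * ‖cp A (b j : Ev ι)‖ ^ 2 + (1 - ‖cp A (b j : Ev ι)‖ ^ 2) with hndef
    have hnpos : 0 < n := hn j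
    have h3 : ⟪(b j : Ev ι), (b j : Ev ι)⟫_ℂ = 1 := by
      have := b.inner_eq_one j
      rwa [Submodule.coe_inner] at this
    have e : ⟪(b j : Ev ι), dg (fun m => (tw t A m : ℂ)) (b j : Ev ι)⟫_ℂ
        = ((t * ‖cp A (b j : Ev ι)‖ ^ 2 + (1 - ‖cp A (b j : Ev ι)‖ ^ 2) : ℝ) : ℂ) := by
      rw [dg_tw, inner_add_right, inner_smul_right, inner_cp_self, inner_cp_compl, h3,
        inner_cp_self]
      push_cast; ring
    rw [inner_smul_right, e, norm_mul, Complex.norm_real, Complex.norm_real, mul_pow,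
      Real.norm_eq_abs, Real.norm_eq_abs, sq_abs, sq_abs, inv_pow, Real.sq_sqrt hnpos.le]
    rw [div_eq_inv_mul]
  have hcard : (Module.finrank ℂ X : ℝ) = ∑ _j : Fin (Module.finrank ℂ X), (1 : ℝ) := by simp
  have h5 : (Module.finrank ℂ X : ℝ) + Module.finrank ℂ X
      - 2 * ∑ j, ‖pj (sc (tw t A) X) (b j : Ev ι)‖ ^ 2
      = 2 * ∑ j, (1 - ‖pj (sc (tw t A) X) (b j : Ev ι)‖ ^ 2) := by
    rw [Finset.sum_sub_distrib, ← hcard]; ring
  rw [h1, h5]
  refine mul_le_mul_of_nonneg_left ?_ (by norm_num)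
  refine Finset.sum_le_sum fun j _ => ?_
  have h6 := h2 j
  set lam := ‖cp A (b j : Ev ι)‖ ^ 2 with hlam
  have h3 : ‖(b j : Ev ι)‖ = 1 := b.norm_eq_one j
  have hl0 : 0 ≤ lam := by positivity
  have hl1 : lam ≤ 1 := by
    have h1 := norm_cp_le A (b j : Ev ι)
    rw [h3] at h1
    have h2 := norm_nonneg (cp A (b j : Ev ι))
    rw [hlam]; nlinarith
  have hnpos := hn j
  refine le_trans (sub_le_sub_left h6 1) ?_
  rw [sub_le_iff_le_add, ← add_div, le_div_iff₀ hnpos]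
  have h7 : 0 ≤ lam * (1 - lam) := mul_nonneg hl0 (by linarith)
  nlinarith [mul_nonneg h7 (mul_nonneg ht.le (sub_nonneg.2 ht1))]

/-! ### Monotonicity -/

/-- one two valued scaling increases `tr(P 1_B)` if `A ∩ B = ∅` or `Bᶜ ⊆ A`. -/
lemma mono_tw (X : Submodule ℂ (Ev ι)) {A B : Finset ι} {t : ℝ} (ht : 0 < t) (ht1 : t ≤ 1)
    (hAB : Disjoint A B ∨ Bᶜ ⊆ A) : trA X B ≤ trA (sc (tw t A) X) B := by
  rcases hAB with h | h
  · refine Finset.sum_le_sum fun m hm => cs_le_hh X A ht ht1 ?_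
    exact fun hmA => (Finset.disjoint_left.1 h hmA) hm
  · have h1 := trA_add_compl X B
    have h2 := trA_add_compl (sc (tw t A) X) B
    rw [finrank_sc (fun m => (tw_pos ht A m).ne')] at h2
    have h3 : trA (sc (tw t A) X) Bᶜ ≤ trA X Bᶜ :=
      Finset.sum_le_sum fun m hm => cs_hh_le X A ht ht1 (h hm)
    linarith

/-- **(MONO)**, product form. -/
lemma mono_prod {κ : Type*} [DecidableEq κ] (J : Finset κ) (A : κ → Finset ι) (t : κ → ℝ)
    (ht : ∀ j ∈ J, 0 < t j) (ht1 : ∀ j ∈ J, t j ≤ 1) {B : Finset ι}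
    (hAB : ∀ j ∈ J, Disjoint (A j) B ∨ Bᶜ ⊆ A j) (X : Submodule ℂ (Ev ι)) :
    trA X B ≤ trA (sc (fun m => ∏ j ∈ J, tw (t j) (A j) m) X) B := by
  induction J using Finset.induction_on with
  | empty => simp only [Finset.prod_empty]; rw [sc_one]
  | insert a J ha ih =>
    have h1 := ih (fun j hj => ht j (Finset.mem_insert_of_mem hj))
      (fun j hj => ht1 j (Finset.mem_insert_of_mem hj))
      (fun j hj => hAB j (Finset.mem_insert_of_mem hj))
    have h2 := mono_tw (sc (fun m => ∏ j ∈ J, tw (t j) (A j) m) X)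
      (ht a (Finset.mem_insert_self _ _)) (ht1 a (Finset.mem_insert_self _ _))
      (hAB a (Finset.mem_insert_self _ _))
    rw [sc_sc] at h2
    simp only [Finset.prod_insert ha]
    exact h1.trans h2

/-- **(MONO)** on `Fin q`: a positive nondecreasing diagonal increases all tail sums. -/
lemma mono_tail {q : ℕ} {d : Fin q → ℝ} (hd : ∀ m, 0 < d m) (hmono : Monotone d)
    (X : Submodule ℂ (Ev (Fin q))) (i : ℕ) :
    trA X {m | i ≤ m.val} ≤ trA (sc d X) {m | i ≤ m.val} := by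
  classical
  rcases Nat.eq_zero_or_pos q with hq | hq
  · subst hq
    simp [trA]
  -- d m = d (q-1) ∏_{j=1}^{q-1} (if m < j then d (j-1)/d j else 1)
  obtain ⟨p, rfl⟩ : ∃ p, q = p + 1 := ⟨q - 1, by omega⟩
  let D : ℕ → ℝ := fun k => if h : k < p + 1 then d ⟨k, h⟩ else 1
  have hD : ∀ m : Fin (p + 1), D m.val = d m := fun m => by
    have := m.2
    simp only [D]; rw [dif_pos this]
  have hDpos : ∀ k, 0 < D k := by
    intro k; simp only [D]; split_ifs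
    · exact hd _
    · norm_num
  have hDm : ∀ k, k < p → D k ≤ D (k + 1) := by
    intro k hk
    simp only [D]
    rw [dif_pos (by omega), dif_pos (by omega)]
    exact hmono (by simp [Fin.le_def])
  have key : d = fun m => D p * ∏ j ∈ Finset.range p,
      tw (D j / D (j + 1)) ({m | m.val ≤ j} : Finset (Fin (p + 1))) m := by
    funext m
    have h1 : ∀ k, k ≤ p → m.val ≤ k → D m.val = D k * ∏ j ∈ Finset.range k,
        tw (D j / D (j + 1)) ({m | m.val ≤ j} : Finset (Fin (p + 1))) m := by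
      intro k hk hmk
      induction k, hmk using Nat.le_induction with
      | base =>
        have : ∏ j ∈ Finset.range m.val,
            tw (D j / D (j + 1)) ({m | m.val ≤ j} : Finset (Fin (p + 1))) m = 1 := by
          refine Finset.prod_eq_one fun j hj => ?_
          rw [Finset.mem_range] at hj
          simp [tw]; omega
        rw [this, mul_one]
      | succ k hmk ih =>
        rw [Finset.prod_range_succ, ih (by omega)]
        have : tw (D k / D (k + 1)) ({m | m.val ≤ k} : Finset (Fin (p + 1))) m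
            = D k / D (k + 1) := by simp [tw, hmk]
        rw [this]
        have h0 := (hDpos (k + 1)).ne'
        field_simp
    rw [← hD m]
    exact h1 p le_rfl (by omega)
  have h2 := mono_prod (Finset.range p)
    (fun j => ({m | m.val ≤ j} : Finset (Fin (p + 1)))) (fun j => D j / D (j + 1))
    (fun j _ => div_pos (hDpos _) (hDpos _))
    (fun j hj => by
      rw [div_le_one (hDpos _)]; exact hDm j (Finset.mem_range.1 hj))
    (B := ({m | i ≤ m.val} : Finset (Fin (p + 1)))) ?_ X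
  · refine h2.trans (le_of_eq ?_)
    have h3 : sc d X = sc (fun _ => D p) (sc (fun m => ∏ j ∈ Finset.range p,
      tw (D j / D (j + 1)) ({m | m.val ≤ j} : Finset (Fin (p + 1))) m) X) := by
      rw [sc_sc, ← key]
    rw [h3, sc_const (hDpos p).ne']
  · intro j _
    rcases le_or_gt i j with h | h
    · right
      intro m hm
      simp only [Finset.mem_compl, Finset.mem_filter, Finset.mem_univ, true_and, not_le] at hm ⊢
      omega
    · left
      rw [Finset.disjoint_left]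
      intro m hm hm'
      simp only [Finset.mem_filter, Finset.mem_univ, true_and] at hm hm'
      omega

/-- **(MONO)** reversed: a positive nonincreasing diagonal decreases all tail sums. -/
lemma anti_tail {q : ℕ} {d : Fin q → ℝ} (hd : ∀ m, 0 < d m) (hmono : Antitone d)
    (X : Submodule ℂ (Ev (Fin q))) (i : ℕ) :
    trA (sc d X) {m | i ≤ m.val} ≤ trA X {m | i ≤ m.val} := by
  have h := mono_tail (d := fun m => (d m)⁻¹) (fun m => inv_pos.2 (hd m))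
    (fun a b hab => inv_anti₀ (hd b) (hmono hab)) (sc d X) i
  rwa [sc_inv (fun m => (hd m).ne')] at h

end Crest.Agent.R113.FD
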