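import Crest.Agent.R113.FD.MinF

set_option autoImplicit false
set_option linter.unusedSectionVars false
open scoped ComplexOrder Matrix MatrixOrder
open Matrix

namespace Crest.Agent.R113.FD

universe u
variable {ι : Type u} {β : Type*} [Fintype ι] [DecidableEq ι] [DecidableEq β]

lemma psd_conj_herm {A F : Matrix ι ι ℂ} (hA : A.PosSemidef) (hF : Fᴴ = F) :
    (F * A * F).PosSemidef := by
  have := hA.conjTranspose_mul_mul_same F
  rwa [hF] at this

/-- Sign-projection data of the minimiser. -/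
lemma sign_data (win : ι → β) {w : ℝ} (hw : 0 < w) {H S N P : Matrix ι ι ℂ} (hH : H ∈ Adm win w)
    (hSf : S = fc (adm_posDef hH).1 Real.sqrt)
    (hNf : N = fc (adm_posDef hH).1 (fun x => (Real.sqrt x)⁻¹))
    (hP : P.IsHermitian)
    (hfo : ∀ H' ∈ Adm win w, 0 ≤ 1 / 2 * ((P * (N * (H' - H) * N)).trace).re -
      1 / 4 * ((N * (H' - H) * N).trace).re) :
    ∃ F F0 Fm : Matrix ι ι ℂ, IsWin win F ∧ IsWin win F0 ∧ IsWin win Fm ∧
      IsStarProjection F ∧ IsStarProjection F0 ∧ IsStarProjection Fm ∧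
      F + F0 + Fm = 1 ∧ F * F0 = 0 ∧ F * Fm = 0 ∧ F0 * F = 0 ∧ F0 * Fm = 0 ∧ Fm * F = 0 ∧
      Fm * F0 = 0 ∧
      S * F = ((Real.exp (-w) : ℝ) : ℂ) • F ∧ F * S = ((Real.exp (-w) : ℝ) : ℂ) • F ∧
      S * Fm = Fm ∧ Fm * S = Fm ∧
      Commute F (winComp win P) ∧ Commute F0 (winComp win P) ∧ Commute Fm (winComp win P) ∧
      (1 / 2 : ℂ) • F ≤ F * winComp win P ∧ F0 * winComp win P = (1 / 2 : ℂ) • F0 ∧
      Fm * winComp win P ≤ (1 / 2 : ℂ) • Fm := by
  have hHpd := adm_posDef hH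
  have hHh : H.IsHermitian := hHpd.1
  set c : ℝ := Real.exp (-(2 * w)) with hc
  have hc0 : 0 < c := Real.exp_pos _
  have hc1 : c ≤ 1 := Real.exp_le_one_iff.mpr (by linarith)
  have hsc : Real.sqrt c = Real.exp (-w) := by
    rw [hc, Real.sqrt_eq_iff_mul_self_eq (Real.exp_pos _).le (Real.exp_pos _).le, ← Real.exp_add]
    congr 1; ring
  have hevpos : ∀ i, 0 < hHh.eigenvalues i := fun i => hHpd.eigenvalues_pos i
  have hSN : S * N = 1 := by
    rw [hSf, hNf, fc_mul]
    rw [fc_congr hHh _ (fun _ => (1:ℝ)) (fun i => ?_), fc_const]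
    · simp
    · exact mul_inv_cancel₀ (Real.sqrt_pos.mpr (hevpos i)).ne'
  have hNS : N * S = 1 := by
    rw [hSf, hNf, fc_mul]
    rw [fc_congr hHh _ (fun _ => (1:ℝ)) (fun i => ?_), fc_const]
    · simp
    · exact inv_mul_cancel₀ (Real.sqrt_pos.mpr (hevpos i)).ne'
  have hSS : S * S = H := by
    rw [hSf, fc_mul]
    rw [fc_congr hHh _ (fun x => x) (fun i => ?_), fc_id]
    exact Real.mul_self_sqrt (hevpos i).le
  have hNconj : Nᴴ = N := by rw [hNf, fc_conj]
  have hSconj : Sᴴ = S := by rw [hSf, fc_conj]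
  have hNw : IsWin win N := by rw [hNf]; exact hH.2.2.fc hHh _
  have hSw : IsWin win S := by rw [hSf]; exact hH.2.2.fc hHh _
  set R := winComp win P with hR
  have hRw : IsWin win R := isWin_winComp win P
  have hRh : R.IsHermitian := winComp_hermitian hP
  -- M
  set M : Matrix ι ι ℂ := N * (R - (1 / 2 : ℂ) • 1) * N with hM
  have hMh : M.IsHermitian := by
    show Mᴴ = M
    rw [hM, Matrix.conjTranspose_mul, Matrix.conjTranspose_mul, hNconj, Matrix.conjTranspose_sub,
      hRh.eq, Matrix.conjTranspose_smul, Matrix.conjTranspose_one, ← Matrix.mul_assoc]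
    congr 3
    simp
  have hMw : IsWin win M := (hNw.mul (hRw.sub (IsWin.one.smul _))).mul hNw
  have hSMS : S * M * S = R - (1 / 2 : ℂ) • 1 := by
    rw [hM]
    calc S * (N * (R - (1 / 2 : ℂ) • 1) * N) * S
        = (S * N) * (R - (1 / 2 : ℂ) • 1) * (N * S) := by simp only [Matrix.mul_assoc]
      _ = _ := by rw [hSN, hNS]; simp
  -- functional calculus of M
  set F := fc hMh (fun x => if 0 < x then 1 else 0) with hF
  set F0 := fc hMh (fun x => if x = 0 then 1 else 0) with hF0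
  set Fm := fc hMh (fun x => if x < 0 then 1 else 0) with hFm
  set Mp := fc hMh (fun x => max x 0) with hMp
  set Mn := fc hMh (fun x => max (-x) 0) with hMn
  have hMid : M = fc hMh (fun x => x) := (fc_id hMh).symm
  have zero_fc : fc hMh (fun _ => (0:ℝ)) = 0 := by rw [fc_const]; simp
  have one_fc : fc hMh (fun _ => (1:ℝ)) = 1 := by rw [fc_const]; simp
  have hFF : F * F = F := by
    rw [hF, fc_mul]; apply fc_congr; intro i; (try dsimp only); split_ifs <;> simp
  have hF0F0 : F0 * F0 = F0 := by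
    rw [hF0, fc_mul]; apply fc_congr; intro i; (try dsimp only); split_ifs <;> simp
  have hFmFm : Fm * Fm = Fm := by
    rw [hFm, fc_mul]; apply fc_congr; intro i; (try dsimp only); split_ifs <;> simp
  have hFF0 : F * F0 = 0 := by
    rw [hF, hF0, fc_mul, ← zero_fc]; apply fc_congr; intro i; (try dsimp only)
    split_ifs with h1 h2 h3 <;> simp_all
  have hF0F : F0 * F = 0 := by
    rw [hF, hF0, fc_mul, ← zero_fc]; apply fc_congr; intro i; (try dsimp only)
    split_ifs with h1 h2 h3 <;> simp_all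
  have hFFm : F * Fm = 0 := by
    rw [hF, hFm, fc_mul, ← zero_fc]; apply fc_congr; intro i; (try dsimp only)
    split_ifs with h1 h2 h3 <;> first | (exfalso; linarith) | simp
  have hFmF : Fm * F = 0 := by
    rw [hF, hFm, fc_mul, ← zero_fc]; apply fc_congr; intro i; (try dsimp only)
    split_ifs with h1 h2 h3 <;> first | (exfalso; linarith) | simp
  have hF0Fm : F0 * Fm = 0 := by
    rw [hF0, hFm, fc_mul, ← zero_fc]; apply fc_congr; intro i; (try dsimp only)
    split_ifs with h1 h2 h3 <;> first | (exfalso; linarith) | simp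
  have hFmF0 : Fm * F0 = 0 := by
    rw [hF0, hFm, fc_mul, ← zero_fc]; apply fc_congr; intro i; (try dsimp only)
    split_ifs with h1 h2 h3 <;> first | (exfalso; linarith) | simp
  have hsum : F + F0 + Fm = 1 := by
    rw [hF, hF0, hFm, fc_add, fc_add, ← one_fc]; apply fc_congr; intro i; (try dsimp only)
    rcases lt_trichotomy (hMh.eigenvalues i) 0 with h | h | h
    · have h1 : ¬ (0 < hMh.eigenvalues i) := not_lt.mpr h.le
      simp [h, h.ne, h1]
    · simp [h]
    · have h1 : ¬ (hMh.eigenvalues i < 0) := not_lt.mpr h.le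
      simp [h, h.ne', h1]
  have hMF : M * F = Mp := by
    have h := fc_mul hMh (fun x => x) (fun x => if 0 < x then 1 else 0)
    rw [fc_id] at h
    rw [hF, hMp, h]; apply fc_congr; intro i; (try dsimp only)
    split_ifs with h1
    · rw [max_eq_left h1.le, mul_one]
    · rw [max_eq_right (not_lt.mp h1), mul_zero]
  have hFM : F * M = Mp := by
    have h := fc_mul hMh (fun x => if 0 < x then 1 else 0) (fun x => x)
    rw [fc_id] at h
    rw [hF, hMp, h]; apply fc_congr; intro i; (try dsimp only)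
    split_ifs with h1
    · rw [max_eq_left h1.le, one_mul]
    · rw [max_eq_right (not_lt.mp h1), zero_mul]
  have hMFm : M * Fm = -Mn := by
    have : -Mn = fc hMh (fun x => -(max (-x) 0)) := by
      have h1 := fc_smul hMh (-1) (fun x => max (-x) 0)
      rw [← hMn] at h1
      simpa using h1
    have h := fc_mul hMh (fun x => x) (fun x => if x < 0 then 1 else 0)
    rw [fc_id] at h
    rw [this, hFm, h]; apply fc_congr; intro i; (try dsimp only)
    split_ifs with h1
    · rw [max_eq_left (by linarith)]; ring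
    · rw [max_eq_right (by linarith [not_lt.mp h1]), mul_zero, neg_zero]
  have hFmM : Fm * M = -Mn := by
    have : -Mn = fc hMh (fun x => -(max (-x) 0)) := by
      have h1 := fc_smul hMh (-1) (fun x => max (-x) 0)
      rw [← hMn] at h1
      simpa using h1
    have h := fc_mul hMh (fun x => if x < 0 then 1 else 0) (fun x => x)
    rw [fc_id] at h
    rw [this, hFm, h]; apply fc_congr; intro i; (try dsimp only)
    split_ifs with h1
    · rw [max_eq_left (by linarith)]; ring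
    · rw [max_eq_right (by linarith [not_lt.mp h1]), zero_mul, neg_zero]
  have hMF0 : M * F0 = 0 := by
    have h := fc_mul hMh (fun x => x) (fun x => if x = 0 then 1 else 0)
    rw [fc_id] at h
    rw [hF0, h, ← zero_fc]; apply fc_congr; intro i; (try dsimp only)
    split_ifs with h1
    · rw [h1, zero_mul]
    · rw [mul_zero]
  have hF0M : F0 * M = 0 := by
    have h := fc_mul hMh (fun x => if x = 0 then 1 else 0) (fun x => x)
    rw [fc_id] at h
    rw [hF0, h, ← zero_fc]; apply fc_congr; intro i; (try dsimp only)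
    split_ifs with h1
    · rw [h1, mul_zero]
    · rw [zero_mul]
  have hMdec : M = Mp - Mn := by
    refine (fc_id hMh).symm.trans ?_
    rw [hMp, hMn, fc_sub]; apply fc_congr; intro i; (try dsimp only)
    rcases le_total (hMh.eigenvalues i) 0 with h | h
    · rw [max_eq_right h, max_eq_left (by linarith)]; ring
    · rw [max_eq_left h, max_eq_right (by linarith)]; ring
  have hFc : Fᴴ = F := fc_conj _ _
  have hF0c : F0ᴴ = F0 := fc_conj _ _
  have hFmc : Fmᴴ = Fm := fc_conj _ _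
  have hMppsd : Mp.PosSemidef := fc_nonneg _ _ (fun i => le_max_right _ _)
  have hMnpsd : Mn.PosSemidef := fc_nonneg _ _ (fun i => le_max_right _ _)
  have hFpsd : F.PosSemidef := fc_nonneg _ _ (fun i => by split_ifs <;> norm_num)
  have hF0psd : F0.PosSemidef := fc_nonneg _ _ (fun i => by split_ifs <;> norm_num)
  have hFmpsd : Fm.PosSemidef := fc_nonneg _ _ (fun i => by split_ifs <;> norm_num)
  have hFw : IsWin win F := hMw.fc hMh _
  have hF0w : IsWin win F0 := hMw.fc hMh _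
  have hFmw : IsWin win Fm := hMw.fc hMh _
  -- the test point
  set H' : Matrix ι ι ℂ := (c : ℂ) • F + Fm + F0 * H * F0 with hH'
  have hHc : (H - (c : ℂ) • 1).PosSemidef := hH.1
  have hH1 : (1 - H).PosSemidef := hH.2.1
  have hH'adm : H' ∈ Adm win w := by
    refine ⟨?_, ?_, ?_⟩
    · rw [Matrix.le_iff]
      have : H' - (c : ℂ) • 1 = ((1 - c : ℝ) : ℂ) • Fm + F0 * (H - (c : ℂ) • 1) * F0 := by
        rw [hH', ← hsum]
        simp only [Matrix.mul_sub, Matrix.sub_mul, Matrix.mul_smul, Matrix.smul_mul, smul_add,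
          Matrix.mul_add, Matrix.add_mul, hF0F, hF0Fm, hF0F0, Matrix.zero_mul]
        push_cast
        simp only [sub_smul, one_smul, smul_zero, zero_add, add_zero]
        abel
      show (H' - (c : ℂ) • 1).PosSemidef
      rw [this]
      apply PosSemidef.add
      · apply Matrix.PosSemidef.smul hFmpsd
        exact_mod_cast sub_nonneg.mpr hc1
      · exact psd_conj_herm hHc hF0c
    · rw [Matrix.le_iff]
      have : 1 - H' = ((1 - c : ℝ) : ℂ) • F + F0 * (1 - H) * F0 := by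
        rw [hH']
        nth_rewrite 1 [← hsum]
        simp only [Matrix.mul_sub, Matrix.sub_mul, Matrix.mul_one, hF0F0]
        push_cast
        simp only [sub_smul, one_smul]
        abel
      rw [this]
      apply PosSemidef.add
      · apply Matrix.PosSemidef.smul hFpsd
        exact_mod_cast sub_nonneg.mpr hc1
      · exact psd_conj_herm hH1 hF0c
    · exact ((hFw.smul _).add hFmw).add ((hF0w.mul hH.2.2).mul hF0w)
  have hK := hfo H' hH'adm
  -- rewrite first order condition as re tr (M K) ≥ 0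
  have hKw : IsWin win (N * (H' - H) * N) := (hNw.mul (hH'adm.2.2.sub hH.2.2)).mul hNw
  have hMK : 1 / 2 * ((P * (N * (H' - H) * N)).trace).re -
      1 / 4 * ((N * (H' - H) * N).trace).re = 1 / 2 * ((M * (H' - H)).trace).re := by
    rw [← trace_winComp_mul P hKw, ← hR]
    have h1 : (M * (H' - H)).trace = (R * (N * (H' - H) * N)).trace -
        (1 / 2 : ℂ) * (N * (H' - H) * N).trace := by
      rw [hM]
      have : N * (R - (1 / 2 : ℂ) • 1) * N * (H' - H) =
        N * ((R - (1 / 2 : ℂ) • 1) * N * (H' - H)) := by simp only [Matrix.mul_assoc]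
      rw [this, Matrix.trace_mul_comm]
      have : (R - (1 / 2 : ℂ) • 1) * N * (H' - H) * N = R * (N * (H' - H) * N) -
        (1 / 2 : ℂ) • (N * (H' - H) * N) := by
        simp only [Matrix.sub_mul, Matrix.smul_mul, Matrix.one_mul, Matrix.mul_assoc]
      rw [this, Matrix.trace_sub, Matrix.trace_smul, smul_eq_mul]
    rw [h1, Complex.sub_re]
    have h2 : ((1 / 2 : ℂ) * (N * (H' - H) * N).trace).re =
        1 / 2 * ((N * (H' - H) * N).trace).re := by
      have : (1 / 2 : ℂ) = ((1 / 2 : ℝ) : ℂ) := by push_cast; rfl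
      rw [this, Complex.re_ofReal_mul]
    rw [h2]; ring
  rw [hMK] at hK
  have hMKval : M * (H' - H) = -(Mp * (H - (c : ℂ) • 1)) - Mn * (1 - H) := by
    have e1 : M * H' = (c : ℂ) • Mp - Mn := by
      rw [hH', Matrix.mul_add, Matrix.mul_add, Matrix.mul_smul, hMF, hMFm, ← Matrix.mul_assoc,
        ← Matrix.mul_assoc, hMF0]
      simp [sub_eq_add_neg]
    rw [Matrix.mul_sub, e1]
    nth_rewrite 1 [hMdec]
    simp only [Matrix.mul_sub, Matrix.sub_mul, Matrix.mul_smul, Matrix.mul_one]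
    abel
  have hMKtr : ((M * (H' - H)).trace).re =
      -((Mp * (H - (c : ℂ) • 1)).trace).re - ((Mn * (1 - H)).trace).re := by
    rw [hMKval, Matrix.trace_sub, Matrix.trace_neg]; simp
  have ha := psd_trace_mul_nonneg hMppsd hHc
  have hb := psd_trace_mul_nonneg hMnpsd hH1
  have hMpH : Mp * (H - (c : ℂ) • 1) = 0 := psd_mul_eq_zero hMppsd hHc (by linarith)
  have hMnH : Mn * (1 - H) = 0 := psd_mul_eq_zero hMnpsd hH1 (by linarith)
  -- F (H - c) = 0
  have hFH : F * (H - (c : ℂ) • 1) = 0 := by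
    have : F = fc hMh (fun x => if 0 < x then x⁻¹ else 0) * Mp := by
      rw [hF, hMp, fc_mul]; apply fc_congr; intro i; (try dsimp only)
      split_ifs with h1
      · rw [max_eq_left h1.le, inv_mul_cancel₀ h1.ne']
      · simp
    rw [this, Matrix.mul_assoc, hMpH, Matrix.mul_zero]
  have hFmH : Fm * (1 - H) = 0 := by
    have : Fm = fc hMh (fun x => if x < 0 then (-x)⁻¹ else 0) * Mn := by
      rw [hFm, hMn, fc_mul]; apply fc_congr; intro i; (try dsimp only)
      split_ifs with h1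
      · rw [max_eq_left (by linarith), inv_mul_cancel₀ (by linarith)]
      · simp
    rw [this, Matrix.mul_assoc, hMnH, Matrix.mul_zero]
  have hHF : H * F = (c : ℂ) • F := by
    have h1 := congrArg Matrix.conjTranspose hFH
    rw [Matrix.conjTranspose_mul, Matrix.conjTranspose_sub, hHh.eq, hFc,
      Matrix.conjTranspose_smul, Matrix.conjTranspose_one, Matrix.conjTranspose_zero,
      Complex.star_def, Complex.conj_ofReal, Matrix.sub_mul, Matrix.smul_mul, Matrix.one_mul] at h1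
    exact sub_eq_zero.mp h1
  have hHFm : H * Fm = ((1:ℝ) : ℂ) • Fm := by
    have h1 := congrArg Matrix.conjTranspose hFmH
    rw [Matrix.conjTranspose_mul, Matrix.conjTranspose_sub, hHh.eq, hFmc,
      Matrix.conjTranspose_one, Matrix.conjTranspose_zero,
      Matrix.sub_mul, Matrix.one_mul] at h1
    rw [Complex.ofReal_one, one_smul]
    exact (sub_eq_zero.mp h1).symm
  have hSF : S * F = ((Real.exp (-w) : ℝ) : ℂ) • F := by
    rw [hSf, fc_eigen hHh Real.sqrt F c hHF, hsc]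
  have hSFm : S * Fm = Fm := by
    rw [hSf, fc_eigen hHh Real.sqrt Fm 1 hHFm, Real.sqrt_one]; simp
  have hFS : F * S = ((Real.exp (-w) : ℝ) : ℂ) • F := by
    have h1 := congrArg Matrix.conjTranspose hSF
    rw [Matrix.conjTranspose_mul, hSconj, hFc, Matrix.conjTranspose_smul, hFc, Complex.star_def,
      Complex.conj_ofReal] at h1
    exact h1
  have hFmS : Fm * S = Fm := by
    have h1 := congrArg Matrix.conjTranspose hSFm
    rw [Matrix.conjTranspose_mul, hSconj, hFmc] at h1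
    exact h1
  have hSF0 : S * F0 = F0 * S := by
    have : F0 = 1 - F - Fm := by rw [← hsum]; abel
    rw [this]
    simp only [Matrix.mul_sub, Matrix.sub_mul, Matrix.mul_one, Matrix.one_mul, hSF, hFS, hSFm,
      hFmS]
  -- R - 1/2
  set e : ℂ := ((Real.exp (-w) : ℝ) : ℂ) with he
  have hRF : (R - (1 / 2 : ℂ) • 1) * F = (e * e) • Mp := by
    rw [← hSMS, Matrix.mul_assoc, hSF, Matrix.mul_smul, Matrix.mul_assoc, hMF, ← hFM,
      ← Matrix.mul_assoc, hSF, Matrix.smul_mul, hFM, smul_smul]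
  have hFR : F * (R - (1 / 2 : ℂ) • 1) = (e * e) • Mp := by
    rw [← hSMS, ← Matrix.mul_assoc, ← Matrix.mul_assoc, hFS, Matrix.smul_mul, Matrix.smul_mul,
      hFM, ← hMF, Matrix.mul_assoc, hFS, Matrix.mul_smul, hMF, smul_smul]
  have hRFm : (R - (1 / 2 : ℂ) • 1) * Fm = -Mn := by
    rw [← hSMS, Matrix.mul_assoc, hSFm, Matrix.mul_assoc, hMFm, ← hFmM, ← Matrix.mul_assoc, hSFm]
  have hFmR : Fm * (R - (1 / 2 : ℂ) • 1) = -Mn := by
    rw [← hSMS, ← Matrix.mul_assoc, ← Matrix.mul_assoc, hFmS, hFmM, ← hMFm, Matrix.mul_assoc,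
      hFmS]
  have hRF0 : (R - (1 / 2 : ℂ) • 1) * F0 = 0 := by
    rw [← hSMS, Matrix.mul_assoc, hSF0, ← Matrix.mul_assoc, Matrix.mul_assoc S, hMF0]
    simp
  have hF0R : F0 * (R - (1 / 2 : ℂ) • 1) = 0 := by
    rw [← hSMS, ← Matrix.mul_assoc, ← Matrix.mul_assoc, ← hSF0, Matrix.mul_assoc S, hF0M]
    simp
  have comm_of : ∀ X Y : Matrix ι ι ℂ, X * (R - (1 / 2 : ℂ) • 1) = Y →
      (R - (1 / 2 : ℂ) • 1) * X = Y → Commute X R := by
    intro X Y h1 h2
    have h3 : X * R - (1 / 2 : ℂ) • X = R * X - (1 / 2 : ℂ) • X := by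
      have e1 : X * R - (1 / 2 : ℂ) • X = X * (R - (1 / 2 : ℂ) • 1) := by
        rw [Matrix.mul_sub, Matrix.mul_smul, Matrix.mul_one]
      have e2 : R * X - (1 / 2 : ℂ) • X = (R - (1 / 2 : ℂ) • 1) * X := by
        rw [Matrix.sub_mul, Matrix.smul_mul, Matrix.one_mul]
      rw [e1, e2, h1, h2]
    exact sub_left_injective h3
  have hee : (0:ℂ) ≤ e * e := by
    rw [he, ← Complex.ofReal_mul]
    exact_mod_cast (mul_pos (Real.exp_pos _) (Real.exp_pos _)).le
  refine ⟨F, F0, Fm, hFw, hF0w, hFmw, ⟨hFF, hFc⟩, ⟨hF0F0, hF0c⟩, ⟨hFmFm, hFmc⟩, hsum, hFF0, hFFm,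
    hF0F, hF0Fm, hFmF, hFmF0, hSF, hFS, hSFm, hFmS, comm_of _ _ hFR hRF, comm_of _ _ hF0R hRF0,
    comm_of _ _ hFmR hRFm, ?_, ?_, ?_⟩
  · rw [Matrix.le_iff]
    have : F * R - (1 / 2 : ℂ) • F = F * (R - (1 / 2 : ℂ) • 1) := by
      rw [Matrix.mul_sub, Matrix.mul_smul, Matrix.mul_one]
    rw [this, hFR]
    exact Matrix.PosSemidef.smul hMppsd hee
  · have : F0 * R - (1 / 2 : ℂ) • F0 = F0 * (R - (1 / 2 : ℂ) • 1) := by
      rw [Matrix.mul_sub, Matrix.mul_smul, Matrix.mul_one]
    rw [hF0R] at this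
    exact sub_eq_zero.mp this
  · rw [Matrix.le_iff]
    have : (1 / 2 : ℂ) • Fm - Fm * R = -(Fm * (R - (1 / 2 : ℂ) • 1)) := by
      rw [Matrix.mul_sub, Matrix.mul_smul, Matrix.mul_one]; abel
    rw [this, hFmR, neg_neg]
    exact hMnpsd

/-- (MIN), matrix form.  `Q` = orthogonal projection onto `E`, `P` = orthogonal projection onto
`X = S e^{-sg} E`, `S = H^{1/2}`. -/
theorem min_matrix (win : ι → β) (Q : Matrix ι ι ℂ) (hQ : IsStarProjection Q)
    (g : ι → ℝ) (hgw : ∀ m m', win m = win m' → g m = g m')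
    (w θ₀ : ℝ) (hw : 0 < w) (hθ : 0 < θ₀) :
    ∃ (s : ℝ) (S S' P F F0 Fm : Matrix ι ι ℂ),
      0 ≤ s ∧ s ≤ w / θ₀ ∧
      S.PosDef ∧ S * S' = 1 ∧ S' * S = 1 ∧ ((Real.exp (-w) : ℝ) : ℂ) • (1 : Matrix ι ι ℂ) ≤ S ∧
      S ≤ 1 ∧
      IsWin win S ∧ IsWin win F ∧ IsWin win F0 ∧ IsWin win Fm ∧
      IsStarProjection F ∧ IsStarProjection F0 ∧ IsStarProjection Fm ∧
      F + F0 + Fm = 1 ∧ F * F0 = 0 ∧ F * Fm = 0 ∧ F0 * F = 0 ∧ F0 * Fm = 0 ∧ Fm * F = 0 ∧
      Fm * F0 = 0 ∧
      S * F = ((Real.exp (-w) : ℝ) : ℂ) • F ∧ F * S = ((Real.exp (-w) : ℝ) : ℂ) • F ∧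
      S * Fm = Fm ∧ Fm * S = Fm ∧
      -- P is the orthogonal projection onto the range of S e^{-sg} Q
      IsStarProjection P ∧
      P * (S * dgM (fun m => Real.exp (-s * g m)) * Q) =
        S * dgM (fun m => Real.exp (-s * g m)) * Q ∧
      (∃ Y : Matrix ι ι ℂ, P = S * dgM (fun m => Real.exp (-s * g m)) * Q * Y) ∧
      -- sign projections of R - 1/2
      Commute F (winComp win P) ∧ Commute F0 (winComp win P) ∧ Commute Fm (winComp win P) ∧
      (1 / 2 : ℂ) • F ≤ F * winComp win P ∧ F0 * winComp win P = (1 / 2 : ℂ) • F0 ∧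
      Fm * winComp win P ≤ (1 / 2 : ℂ) • Fm ∧
      -- the g-flux inequality
      ∑ m, (P m m).re * g m ≤ ∑ m, (Q m m).re * g m + θ₀ * Fintype.card ι := by
  obtain ⟨k, hk1, hk2, V, hV, hVQ, hkc⟩ := exists_isometry hQ
  set τ : ℝ := ∑ m, g m * ((V * Vᴴ) m m).re + θ₀ * Fintype.card ι with hτ
  have hb0 : 0 < 2 * (w / θ₀) := by positivity
  obtain ⟨H, hH, s, hs, hmin⟩ := exists_minimiser V hV win g τ w (2 * (w / θ₀)) hw.le hb0.le
  -- choice of s in the empty case
  have hsle : s ≤ w / θ₀ ∨ IsEmpty ι := by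
    rcases isEmpty_or_nonempty ι with h | h
    · right; exact h
    · left
      exact s_bound V hV win g w θ₀ hw hθ hkc hH s (hmin 1 (one_mem_adm win hw.le) 0
        ⟨le_refl _, hb0.le⟩)
  rcases hsle with hsle | hempty
  swap
  · refine ⟨0, 1, 1, 1, 0, 0, 0, le_refl _, by positivity, Matrix.PosDef.one, ?_⟩
    have hsub : ∀ A B : Matrix ι ι ℂ, A = B := fun A B => by ext i; exact hempty.elim i
    have hle : ∀ A B : Matrix ι ι ℂ, A ≤ B := fun A B => (hsub A B) ▸ le_refl _
    have hsp : ∀ A : Matrix ι ι ℂ, IsStarProjection A := fun A => ⟨hsub _ _, hsub _ _⟩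
    have hwn : ∀ A : Matrix ι ι ℂ, IsWin win A := fun A m => hempty.elim m
    refine ⟨hsub _ _, hsub _ _, hle _ _, hle _ _, hwn _, hwn _, hwn _, hwn _, hsp _, hsp _, hsp _,
      hsub _ _, hsub _ _, hsub _ _, hsub _ _, hsub _ _, hsub _ _, hsub _ _, hsub _ _, hsub _ _,
      hsub _ _, hsub _ _, hsp _, hsub _ _, ⟨1, hsub _ _⟩, hsub _ _, hsub _ _, hsub _ _, hle _ _,
      hsub _ _, hle _ _, ?_⟩
    simp
  have hHpd := adm_posDef hH
  have hHh : H.IsHermitian := hHpd.1
  have hevpos : ∀ i, 0 < hHh.eigenvalues i := fun i => hHpd.eigenvalues_pos i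
  obtain ⟨S, hSf⟩ : ∃ S, S = fc hHh Real.sqrt := ⟨_, rfl⟩
  obtain ⟨N, hNf⟩ : ∃ N, N = fc hHh (fun x => (Real.sqrt x)⁻¹) := ⟨_, rfl⟩
  have hSN : S * N = 1 := by
    rw [hSf, hNf, fc_mul]
    rw [fc_congr hHh _ (fun _ => (1:ℝ)) (fun i => ?_), fc_const]
    · simp
    · exact mul_inv_cancel₀ (Real.sqrt_pos.mpr (hevpos i)).ne'
  have hNS : N * S = 1 := by
    rw [hSf, hNf, fc_mul]
    rw [fc_congr hHh _ (fun _ => (1:ℝ)) (fun i => ?_), fc_const]
    · simp
    · exact inv_mul_cancel₀ (Real.sqrt_pos.mpr (hevpos i)).ne'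
  have hSS : S * S = H := by
    rw [hSf, fc_mul]
    rw [fc_congr hHh _ (fun x => x) (fun i => ?_), fc_id]
    exact Real.mul_self_sqrt (hevpos i).le
  have hSconj : Sᴴ = S := by rw [hSf, fc_conj]
  have hSw : IsWin win S := by rw [hSf]; exact hH.2.2.fc hHh _
  have hSpsd : S.PosSemidef := by rw [hSf]; exact fc_nonneg _ _ (fun i => Real.sqrt_nonneg _)
  have hSpd : S.PosDef := by
    rw [hSpsd.posDef_iff_isUnit]
    exact IsUnit.of_mul_eq_one N hSN
  have hSge : ((Real.exp (-w) : ℝ) : ℂ) • (1 : Matrix ι ι ℂ) ≤ S := by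
    rw [← fc_const hHh, hSf]
    apply fc_mono
    intro i
    have h1 := ev_ge hHh _ hH.1 i
    have hsc : Real.sqrt (Real.exp (-(2 * w))) = Real.exp (-w) := by
      rw [Real.sqrt_eq_iff_mul_self_eq (Real.exp_pos _).le (Real.exp_pos _).le, ← Real.exp_add]
      congr 1; ring
    rw [← hsc]
    exact Real.sqrt_le_sqrt h1
  have hSle : S ≤ 1 := by
    have h0 : (1 : Matrix ι ι ℂ) = fc hHh (fun _ => (1:ℝ)) := by rw [fc_const]; simp
    rw [h0, hSf]
    apply fc_mono
    intro i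
    have h1 := ev_le hHh 1 (by simpa using hH.2.1) i
    exact Real.sqrt_le_one.mpr h1
  obtain ⟨P, hPdef⟩ : ∃ P, P = PP V g H S s := ⟨_, rfl⟩
  have hPc : Pᴴ = P := by rw [hPdef]; exact PP_conj hV g hHpd hSconj s
  have hPi : P * P = P := by rw [hPdef]; exact PP_idem hV g hHpd hSS s
  obtain ⟨F, F0, Fm, hall⟩ := sign_data win hw hH hSf hNf (P := P) hPc (by
    intro H' hH'
    rw [hPdef]
    exact first_order V hV win g w τ hH hH' hSS hSN hNS s (fun H'' hH'' => hmin H'' hH'' s hs))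
  obtain ⟨a1, a2, a3, a4, a5, a6, a7, a8, a9, a10, a11, a12, a13, a14, a15, a16, a17, a18, a19,
    a20, a21, a22, a23⟩ := hall
  have hflux := flux_bound V hV win g hgw w τ (2 * (w / θ₀)) hH hSS hSw s hs.1
    (by have : 0 < w / θ₀ := by positivity
        linarith) (fun s' hs' => hmin H hH s' hs')
  refine ⟨s, S, N, P, F, F0, Fm, hs.1, hsle, hSpd, hSN, hNS, hSge, hSle, hSw, a1, a2, a3, a4, a5,
    a6, a7, a8, a9, a10, a11, a12, a13, a14, a15, a16, a17, ⟨hPi, hPc⟩, ?_, ?_, a18, a19, a20, a21,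
    a22, a23, ?_⟩
  · show P * (S * eD g s * Q) = S * eD g s * Q
    rw [← hVQ, hPdef]
    calc PP V g H S s * (S * eD g s * (V * Vᴴ))
        = (PP V g H S s * (S * eD g s * V)) * Vᴴ := by simp only [Matrix.mul_assoc]
      _ = _ := by rw [PP_mul hV g hHpd hSS]; simp only [Matrix.mul_assoc]
  · refine ⟨V * (GG V g H s)⁻¹ * Vᴴ * eD g s * S, ?_⟩
    show P = S * eD g s * Q * (V * (GG V g H s)⁻¹ * Vᴴ * eD g s * S)
    rw [hPdef, ← hVQ]
    unfold PP
    calc S * eD g s * V * (GG V g H s)⁻¹ * Vᴴ * eD g s * S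
        = S * eD g s * V * (Vᴴ * V) * (GG V g H s)⁻¹ * Vᴴ * eD g s * S := by
          rw [hV, Matrix.mul_one]
      _ = _ := by simp only [Matrix.mul_assoc]
  · rw [hPdef]
    refine hflux.trans ?_
    rw [hτ, hVQ]
    have : ∑ m, g m * (Q m m).re = ∑ m, (Q m m).re * g m := by
      apply Finset.sum_congr rfl; intro m _; ring
    rw [this]

end Crest.Agent.R113.FD
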