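import Mathlib

set_option autoImplicit false
open scoped ComplexOrder Matrix MatrixOrder
open Matrix

namespace Crest.Agent.R113.FD

section LogDet
variable {n : Type*} [Fintype n] [DecidableEq n]

/-- `log det` (real part) of a complex matrix. -/
noncomputable def ld (A : Matrix n n ℂ) : ℝ := Real.log (A.det.re)

lemma posDef_det_re_pos {A : Matrix n n ℂ} (hA : A.PosDef) : 0 < A.det.re := by
  have h := hA.det_pos
  exact (Complex.lt_def.mp h).1

lemma posDef_det_ne {A : Matrix n n ℂ} (hA : A.PosDef) : A.det ≠ 0 := hA.det_pos.ne'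

lemma ld_eq_sum {A : Matrix n n ℂ} (hA : A.PosDef) :
    ld A = ∑ i, Real.log (hA.1.eigenvalues i) := by
  unfold ld
  rw [hA.1.det_eq_prod_eigenvalues]
  have : (∏ i, ((hA.1.eigenvalues i : ℝ) : ℂ)).re = ∏ i, hA.1.eigenvalues i := by
    rw [← Complex.ofReal_prod, Complex.ofReal_re]
  erw [this]
  rw [Real.log_prod]
  intro i _
  exact (hA.eigenvalues_pos i).ne'

lemma ld_le_trace_sub {A : Matrix n n ℂ} (hA : A.PosDef) :
    ld A ≤ (A.trace).re - Fintype.card n := by
  rw [ld_eq_sum hA, hA.1.trace_eq_sum_eigenvalues]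
  have : (∑ i, ((hA.1.eigenvalues i : ℝ) : ℂ)).re = ∑ i, hA.1.eigenvalues i := by
    rw [← Complex.ofReal_sum, Complex.ofReal_re]
  erw [this]
  have h2 : (Fintype.card n : ℝ) = ∑ _i : n, (1 : ℝ) := by simp
  rw [h2, ← Finset.sum_sub_distrib]
  apply Finset.sum_le_sum
  intro i _
  exact Real.log_le_sub_one_of_pos (hA.eigenvalues_pos i)

lemma ld_mul {A B : Matrix n n ℂ} (hA : 0 < A.det.re) (hA' : A.det.im = 0) (hB : 0 < B.det.re) : ld (A * B) = ld A + ld B := by
  unfold ld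
  rw [Matrix.det_mul, Complex.mul_re, hA', zero_mul, sub_zero, Real.log_mul hA.ne' hB.ne']

lemma posDef_det_im {A : Matrix n n ℂ} (hA : A.PosDef) : A.det.im = 0 := by
  have h := hA.det_pos
  exact (Complex.lt_def.mp h).2.symm

/-- Tangent inequality (concavity of log det). -/
lemma ld_le_tangent {A B : Matrix n n ℂ} (hA : A.PosDef) (hB : B.PosDef) :
    ld B ≤ ld A + ((A⁻¹ * (B - A)).trace).re := by
  obtain ⟨C, hCu, hAC⟩ := CStarAlgebra.isStrictlyPositive_iff_eq_star_mul_self.mp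
    hA.isStrictlyPositive
  have hCdet : IsUnit C.det := (Matrix.isUnit_iff_isUnit_det C).mp hCu
  have hinj : Function.Injective (C⁻¹).mulVec := by
    rw [Matrix.mulVec_injective_iff_isUnit]
    exact (Matrix.isUnit_nonsing_inv_iff).mpr hCu
  have hG : ((C⁻¹)ᴴ * B * C⁻¹).PosDef := hB.conjTranspose_mul_mul_same hinj
  have h1 := ld_le_trace_sub hG
  have hCC : C⁻¹ * (C⁻¹)ᴴ = A⁻¹ := by
    rw [hAC, star_eq_conjTranspose, Matrix.mul_inv_rev, Matrix.conjTranspose_nonsing_inv]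
  have htr : ((C⁻¹)ᴴ * B * C⁻¹).trace = (A⁻¹ * B).trace := by
    rw [Matrix.trace_mul_comm, ← Matrix.mul_assoc, hCC]
  have hdet : ((C⁻¹)ᴴ * B * C⁻¹).det * A.det = B.det := by
    have hs : (star C.det) ≠ 0 := by simpa using hCdet.ne_zero
    have hc : C.det ≠ 0 := hCdet.ne_zero
    rw [hAC, star_eq_conjTranspose]
    simp only [Matrix.det_mul, Matrix.det_conjTranspose, Matrix.det_nonsing_inv,
      Ring.inverse_eq_inv']
    rw [star_inv₀]
    field_simp
  have hld : ld ((C⁻¹)ᴴ * B * C⁻¹) + ld A = ld B := by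
    have h := ld_mul (posDef_det_re_pos hG) (posDef_det_im hG) (posDef_det_re_pos hA)
    rw [← h]
    unfold ld
    rw [Matrix.det_mul, hdet]
  have hAA : A⁻¹ * A = 1 := Matrix.nonsing_inv_mul _ ((Matrix.isUnit_iff_isUnit_det A).mp hA.isUnit)
  have : ((A⁻¹ * (B - A)).trace).re = ((A⁻¹ * B).trace).re - Fintype.card n := by
    rw [Matrix.mul_sub, hAA, Matrix.trace_sub, Matrix.trace_one]; simp
  rw [this]
  rw [htr] at h1
  linarith

/-- monotonicity -/
lemma ld_mono {A B : Matrix n n ℂ} (hA : A.PosDef) (hB : B.PosDef) (h : A ≤ B) :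
    ld A ≤ ld B := by
  have h1 := ld_le_tangent hB hA
  have h2 : 0 ≤ ((B⁻¹ * (B - A)).trace).re := by
    obtain ⟨D, hD⟩ := CStarAlgebra.nonneg_iff_eq_star_mul_self.mp hB.inv.posSemidef.nonneg
    rw [hD, star_eq_conjTranspose]
    have h3 : (Dᴴ * D * (B - A)).trace = (D * (B - A) * Dᴴ).trace := by
      rw [Matrix.trace_mul_comm (D * (B - A)) Dᴴ, Matrix.mul_assoc]
    rw [h3]
    have h4 : (D * (B - A) * Dᴴ).PosSemidef := PosSemidef.mul_mul_conjTranspose_same h D
    exact (Complex.le_def.mp h4.trace_nonneg).1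
  have h5 : ((B⁻¹ * (A - B)).trace).re = - ((B⁻¹ * (B - A)).trace).re := by
    rw [← Complex.neg_re, ← Matrix.trace_neg, ← Matrix.mul_neg, neg_sub]
  linarith

lemma ld_one : ld (1 : Matrix n n ℂ) = 0 := by
  unfold ld; simp

lemma ld_smul (c : ℝ) (hc : 0 < c) {A : Matrix n n ℂ} (hA : A.PosDef) :
    ld ((c : ℂ) • A) = Fintype.card n * Real.log c + ld A := by
  unfold ld
  rw [Matrix.det_smul, ← Complex.ofReal_pow, Complex.re_ofReal_mul, Real.log_mul
    (pow_pos hc _).ne' (posDef_det_re_pos hA).ne', Real.log_pow]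

end LogDet

end Crest.Agent.R113.FD
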