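import Crest.Agent.R113.FD.MinA

set_option autoImplicit false
set_option linter.unusedSectionVars false
open scoped ComplexOrder Matrix MatrixOrder
open Matrix

namespace Crest.Agent.R113.FD

section Jensen
variable {n k : Type*} [Fintype n] [DecidableEq n] [Fintype k] [DecidableEq k]

lemma isometry_inj {V : Matrix n k ℂ} (hV : Vᴴ * V = 1) : Function.Injective V.mulVec := by
  intro x y h
  have := congrArg (Vᴴ.mulVec) h
  simpa [Matrix.mulVec_mulVec, hV] using this

lemma diag_conj_apply (W : Matrix n k ℂ) (d : n → ℝ) (j : k) :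
    (Wᴴ * diagonal (fun m => (d m : ℂ)) * W) j j = ((∑ m, Complex.normSq (W m j) * d m : ℝ) : ℂ) := by
  rw [Matrix.mul_apply]
  simp only [Matrix.mul_diagonal, Matrix.conjTranspose_apply]
  push_cast
  apply Finset.sum_congr rfl
  intro m _
  rw [Complex.normSq_eq_conj_mul_self]
  simp only [Complex.star_def]
  ring

/-- Jensen (Peierls) inequality for `log det`. -/
lemma ld_jensen {V : Matrix n k ℂ} (hV : Vᴴ * V = 1) (x : n → ℝ) :
    ∑ m, x m * ((V * Vᴴ) m m).re ≤
      ld (Vᴴ * diagonal (fun m => ((Real.exp (x m) : ℝ) : ℂ)) * V) := by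
  have hD : (diagonal (fun m => ((Real.exp (x m) : ℝ) : ℂ))).PosDef := by
    apply Matrix.PosDef.diagonal
    intro i
    exact_mod_cast Real.exp_pos _
  have hG : (Vᴴ * diagonal (fun m => ((Real.exp (x m) : ℝ) : ℂ)) * V).PosDef :=
    hD.conjTranspose_mul_mul_same (isometry_inj hV)
  set G := Vᴴ * diagonal (fun m => ((Real.exp (x m) : ℝ) : ℂ)) * V with hGdef
  set U : Matrix k k ℂ := (hG.1.eigenvectorUnitary : Matrix k k ℂ) with hU
  have hUU : Uᴴ * U = 1 := by
    rw [← star_eq_conjTranspose]
    exact Unitary.coe_star_mul_self hG.1.eigenvectorUnitary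
  have hUU' : U * Uᴴ = 1 := by
    rw [← star_eq_conjTranspose]
    exact Unitary.coe_mul_star_self hG.1.eigenvectorUnitary
  have hdiag : Uᴴ * G * U = diagonal (fun i => ((hG.1.eigenvalues i : ℝ) : ℂ)) := by
    have h := hG.1.conjStarAlgAut_star_eigenvectorUnitary
    rw [Unitary.conjStarAlgAut_apply] at h
    simpa [star_eq_conjTranspose, hU] using! h
  set W : Matrix n k ℂ := V * U with hW
  have hWW : Wᴴ * W = 1 := by
    rw [hW, Matrix.conjTranspose_mul, Matrix.mul_assoc, ← Matrix.mul_assoc Vᴴ, hV, Matrix.one_mul,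
      hUU]
  have hWV : W * Wᴴ = V * Vᴴ := by
    rw [hW, Matrix.conjTranspose_mul, Matrix.mul_assoc, ← Matrix.mul_assoc U, hUU', Matrix.one_mul]
  have hlam : ∀ j, hG.1.eigenvalues j = ∑ m, Complex.normSq (W m j) * Real.exp (x m) := by
    intro j
    have h1 : (Wᴴ * diagonal (fun m => ((Real.exp (x m) : ℝ) : ℂ)) * W) j j =
        ((hG.1.eigenvalues j : ℝ) : ℂ) := by
      have : Wᴴ * diagonal (fun m => ((Real.exp (x m) : ℝ) : ℂ)) * W = Uᴴ * G * U := by
        rw [hW, Matrix.conjTranspose_mul, hGdef]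
        simp only [Matrix.mul_assoc]
      rw [this, hdiag]; simp
    rw [diag_conj_apply] at h1
    exact_mod_cast h1.symm
  have hsum1 : ∀ j, ∑ m, Complex.normSq (W m j) = 1 := by
    intro j
    have h1 := diag_conj_apply W (fun _ => (1:ℝ)) j
    have h2 : (Wᴴ * diagonal (fun _ : n => (((1:ℝ)) : ℂ)) * W) = 1 := by
      have : diagonal (fun _ : n => (((1:ℝ)) : ℂ)) = (1 : Matrix n n ℂ) := by
        simp
      rw [this, Matrix.mul_one, hWW]
    rw [h2] at h1
    simp only [Matrix.one_apply_eq, mul_one] at h1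
    exact_mod_cast h1.symm
  rw [ld_eq_sum hG]
  have hj : ∀ j, ∑ m, Complex.normSq (W m j) * x m ≤ Real.log (hG.1.eigenvalues j) := by
    intro j
    rw [hlam j]
    have h := (strictConcaveOn_log_Ioi.concaveOn).le_map_sum (t := Finset.univ)
      (w := fun m => Complex.normSq (W m j)) (p := fun m => Real.exp (x m))
      (fun i _ => Complex.normSq_nonneg _) (hsum1 j) (fun i _ => Real.exp_pos _)
    simpa [smul_eq_mul, Real.log_exp] using h
  calc ∑ m, x m * ((V * Vᴴ) m m).re = ∑ m, x m * ∑ j, Complex.normSq (W m j) := by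
        apply Finset.sum_congr rfl
        intro m _
        congr 1
        rw [← hWV, Matrix.mul_apply, Complex.re_sum]
        apply Finset.sum_congr rfl
        intro j _
        rw [Matrix.conjTranspose_apply, Complex.star_def, Complex.mul_conj, Complex.ofReal_re]
    _ = ∑ j, ∑ m, Complex.normSq (W m j) * x m := by
        simp only [Finset.mul_sum]
        rw [Finset.sum_comm]
        apply Finset.sum_congr rfl; intro j _
        apply Finset.sum_congr rfl; intro m _
        ring
    _ ≤ ∑ j, Real.log (hG.1.eigenvalues j) := Finset.sum_le_sum (fun j _ => hj j)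

end Jensen

end Crest.Agent.R113.FD
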