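import Crest.Agent.R113.FD.MinB

set_option autoImplicit false
set_option linter.unusedSectionVars false
open scoped ComplexOrder Matrix MatrixOrder
open Matrix

namespace Crest.Agent.R113.FD

section FC
variable {n : Type*} [Fintype n] [DecidableEq n]

/-- unitary of eigenvectors -/
noncomputable def eU {A : Matrix n n ℂ} (hA : A.IsHermitian) : Matrix n n ℂ :=
  (hA.eigenvectorUnitary : Matrix n n ℂ)

lemma eU_star_mul {A : Matrix n n ℂ} (hA : A.IsHermitian) : (eU hA)ᴴ * eU hA = 1 := by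
  rw [← star_eq_conjTranspose]
  exact Unitary.coe_star_mul_self hA.eigenvectorUnitary

lemma eU_mul_star {A : Matrix n n ℂ} (hA : A.IsHermitian) : eU hA * (eU hA)ᴴ = 1 := by
  rw [← star_eq_conjTranspose]
  exact Unitary.coe_mul_star_self hA.eigenvectorUnitary

lemma eU_diag {A : Matrix n n ℂ} (hA : A.IsHermitian) :
    (eU hA)ᴴ * A * eU hA = diagonal (fun i => ((hA.eigenvalues i : ℝ) : ℂ)) := by
  have h := hA.conjStarAlgAut_star_eigenvectorUnitary
  rw [Unitary.conjStarAlgAut_apply] at h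
  simpa [star_eq_conjTranspose, eU] using! h

/-- Functional calculus of a Hermitian matrix. -/
noncomputable def fc {A : Matrix n n ℂ} (hA : A.IsHermitian) (f : ℝ → ℝ) : Matrix n n ℂ :=
  eU hA * diagonal (fun i => ((f (hA.eigenvalues i) : ℝ) : ℂ)) * (eU hA)ᴴ

lemma fc_id {A : Matrix n n ℂ} (hA : A.IsHermitian) : fc hA (fun x => x) = A := by
  unfold fc
  rw [← eU_diag hA]
  calc eU hA * ((eU hA)ᴴ * A * eU hA) * (eU hA)ᴴ
      = (eU hA * (eU hA)ᴴ) * A * (eU hA * (eU hA)ᴴ) := by simp only [Matrix.mul_assoc]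
    _ = A := by rw [eU_mul_star]; simp

lemma fc_mul {A : Matrix n n ℂ} (hA : A.IsHermitian) (f g : ℝ → ℝ) :
    fc hA f * fc hA g = fc hA (fun x => f x * g x) := by
  unfold fc
  calc eU hA * diagonal (fun i => ((f (hA.eigenvalues i) : ℝ) : ℂ)) * (eU hA)ᴴ *
      (eU hA * diagonal (fun i => ((g (hA.eigenvalues i) : ℝ) : ℂ)) * (eU hA)ᴴ)
      = eU hA * diagonal (fun i => ((f (hA.eigenvalues i) : ℝ) : ℂ)) * ((eU hA)ᴴ * eU hA) *
        diagonal (fun i => ((g (hA.eigenvalues i) : ℝ) : ℂ)) * (eU hA)ᴴ := by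
          simp only [Matrix.mul_assoc]
    _ = _ := by
      rw [eU_star_mul, Matrix.mul_one, Matrix.mul_assoc (eU hA), Matrix.diagonal_mul_diagonal]
      congr 3
      ext i
      push_cast
      rfl

lemma fc_add {A : Matrix n n ℂ} (hA : A.IsHermitian) (f g : ℝ → ℝ) :
    fc hA f + fc hA g = fc hA (fun x => f x + g x) := by
  unfold fc
  rw [← Matrix.add_mul, ← Matrix.mul_add, Matrix.diagonal_add]
  congr 3
  ext i
  push_cast
  rfl

lemma fc_sub {A : Matrix n n ℂ} (hA : A.IsHermitian) (f g : ℝ → ℝ) :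
    fc hA f - fc hA g = fc hA (fun x => f x - g x) := by
  unfold fc
  rw [← Matrix.sub_mul, ← Matrix.mul_sub, Matrix.diagonal_sub]
  congr 3
  ext i
  push_cast
  rfl

lemma fc_const {A : Matrix n n ℂ} (hA : A.IsHermitian) (c : ℝ) :
    fc hA (fun _ => c) = (c : ℂ) • 1 := by
  unfold fc
  have : diagonal (fun _ : n => ((c : ℝ) : ℂ)) = (c : ℂ) • (1 : Matrix n n ℂ) := by
    ext i j; simp [Matrix.diagonal, Matrix.one_apply]
  rw [this]
  simp [eU_mul_star]

lemma fc_smul {A : Matrix n n ℂ} (hA : A.IsHermitian) (c : ℝ) (f : ℝ → ℝ) :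
    (c : ℂ) • fc hA f = fc hA (fun x => c * f x) := by
  rw [← fc_mul, fc_const]; simp

lemma fc_congr {A : Matrix n n ℂ} (hA : A.IsHermitian) (f g : ℝ → ℝ)
    (h : ∀ i, f (hA.eigenvalues i) = g (hA.eigenvalues i)) : fc hA f = fc hA g := by
  unfold fc
  simp only [h]

lemma fc_conj {A : Matrix n n ℂ} (hA : A.IsHermitian) (f : ℝ → ℝ) : (fc hA f)ᴴ = fc hA f := by
  unfold fc
  rw [Matrix.conjTranspose_mul, Matrix.conjTranspose_mul, Matrix.conjTranspose_conjTranspose,
    Matrix.diagonal_conjTranspose, Matrix.mul_assoc]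
  congr 3
  ext i
  simp

lemma fc_nonneg {A : Matrix n n ℂ} (hA : A.IsHermitian) (f : ℝ → ℝ)
    (h : ∀ i, 0 ≤ f (hA.eigenvalues i)) : (fc hA f).PosSemidef := by
  unfold fc
  have : (diagonal (fun i => ((f (hA.eigenvalues i) : ℝ) : ℂ))).PosSemidef := by
    apply Matrix.PosSemidef.diagonal
    intro i
    show (0:ℂ) ≤ ((f (hA.eigenvalues i) : ℝ) : ℂ)
    exact_mod_cast h i
  exact this.mul_mul_conjTranspose_same _

lemma fc_mono {A : Matrix n n ℂ} (hA : A.IsHermitian) (f g : ℝ → ℝ)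
    (h : ∀ i, f (hA.eigenvalues i) ≤ g (hA.eigenvalues i)) : fc hA f ≤ fc hA g := by
  rw [Matrix.le_iff, fc_sub]
  exact fc_nonneg hA _ (fun i => sub_nonneg.mpr (h i))

lemma fc_commute {A : Matrix n n ℂ} (hA : A.IsHermitian) (f : ℝ → ℝ) (B : Matrix n n ℂ)
    (hB : B * A = A * B) : B * fc hA f = fc hA f * B := by
  set U := eU hA with hU
  have h1 : (Uᴴ * B * U) * diagonal (fun i => ((hA.eigenvalues i : ℝ) : ℂ)) =
      diagonal (fun i => ((hA.eigenvalues i : ℝ) : ℂ)) * (Uᴴ * B * U) := by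
    rw [← eU_diag hA, ← hU]
    calc Uᴴ * B * U * (Uᴴ * A * U) = Uᴴ * B * (U * Uᴴ) * A * U := by simp only [Matrix.mul_assoc]
      _ = Uᴴ * (B * A) * U := by rw [hU, eU_mul_star]; simp [Matrix.mul_assoc]
      _ = Uᴴ * (A * B) * U := by rw [hB]
      _ = Uᴴ * A * (U * Uᴴ) * B * U := by rw [hU, eU_mul_star]; simp [Matrix.mul_assoc]
      _ = _ := by simp only [Matrix.mul_assoc]
  have h2 : (Uᴴ * B * U) * diagonal (fun i => ((f (hA.eigenvalues i) : ℝ) : ℂ)) =
      diagonal (fun i => ((f (hA.eigenvalues i) : ℝ) : ℂ)) * (Uᴴ * B * U) := by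
    ext i j
    have h3 := congrFun (congrFun h1 i) j
    rw [Matrix.mul_diagonal, Matrix.diagonal_mul] at h3 ⊢
    by_cases hz : (Uᴴ * B * U) i j = 0
    · rw [hz]; simp
    · have h4 : ((hA.eigenvalues j : ℝ) : ℂ) = ((hA.eigenvalues i : ℝ) : ℂ) := by
        rw [mul_comm] at h3
        exact mul_right_cancel₀ hz h3
      have h5 : hA.eigenvalues j = hA.eigenvalues i := by exact_mod_cast h4
      rw [h5, mul_comm]
  unfold fc
  rw [← hU]
  calc B * (U * diagonal (fun i => ((f (hA.eigenvalues i) : ℝ) : ℂ)) * Uᴴ)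
      = (U * Uᴴ) * B * U * diagonal (fun i => ((f (hA.eigenvalues i) : ℝ) : ℂ)) * Uᴴ := by
        rw [hU, eU_mul_star]; simp [Matrix.mul_assoc]
    _ = U * ((Uᴴ * B * U) * diagonal (fun i => ((f (hA.eigenvalues i) : ℝ) : ℂ))) * Uᴴ := by
        simp only [Matrix.mul_assoc]
    _ = U * (diagonal (fun i => ((f (hA.eigenvalues i) : ℝ) : ℂ)) * (Uᴴ * B * U)) * Uᴴ := by
        rw [h2]
    _ = U * diagonal (fun i => ((f (hA.eigenvalues i) : ℝ) : ℂ)) * Uᴴ * B * (U * Uᴴ) := by
        simp only [Matrix.mul_assoc]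
    _ = _ := by rw [hU, eU_mul_star]; simp

lemma fc_eigen {m : Type*} [Fintype m] {A : Matrix n n ℂ} (hA : A.IsHermitian) (f : ℝ → ℝ)
    (X : Matrix n m ℂ) (c : ℝ) (hX : A * X = (c : ℂ) • X) :
    fc hA f * X = ((f c : ℝ) : ℂ) • X := by
  set U := eU hA with hU
  have h1 : diagonal (fun i => ((hA.eigenvalues i : ℝ) : ℂ)) * (Uᴴ * X) = (c : ℂ) • (Uᴴ * X) := by
    rw [← eU_diag hA, ← hU]
    calc Uᴴ * A * U * (Uᴴ * X) = Uᴴ * A * (U * Uᴴ) * X := by simp only [Matrix.mul_assoc]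
      _ = Uᴴ * (A * X) := by rw [hU, eU_mul_star]; simp [Matrix.mul_assoc]
      _ = _ := by rw [hX, Matrix.mul_smul]
  have h2 : diagonal (fun i => ((f (hA.eigenvalues i) : ℝ) : ℂ)) * (Uᴴ * X) =
      ((f c : ℝ) : ℂ) • (Uᴴ * X) := by
    ext i j
    have h3 := congrFun (congrFun h1 i) j
    rw [Matrix.diagonal_mul, Matrix.smul_apply, smul_eq_mul] at h3 ⊢
    by_cases hz : (Uᴴ * X) i j = 0
    · rw [hz]; simp
    · have h4 : ((hA.eigenvalues i : ℝ) : ℂ) = (c : ℂ) := mul_right_cancel₀ hz h3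
      have h5 : hA.eigenvalues i = c := by exact_mod_cast h4
      rw [h5]
  unfold fc
  rw [← hU, Matrix.mul_assoc, Matrix.mul_assoc, h2, Matrix.mul_smul, ← Matrix.mul_assoc, hU,
    eU_mul_star, Matrix.one_mul]

lemma ev_ge {A : Matrix n n ℂ} (hA : A.IsHermitian) (c : ℝ) (h : (c : ℂ) • (1 : Matrix n n ℂ) ≤ A)
    (i : n) : c ≤ hA.eigenvalues i := by
  have h1 : ((eU hA)ᴴ * (A - (c : ℂ) • 1) * eU hA).PosSemidef :=
    PosSemidef.conjTranspose_mul_mul_same h _
  have h2 : (eU hA)ᴴ * (A - (c : ℂ) • 1) * eU hA =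
      diagonal (fun i => ((hA.eigenvalues i - c : ℝ) : ℂ)) := by
    rw [Matrix.mul_sub, Matrix.sub_mul, eU_diag]
    simp only [Matrix.mul_smul, Matrix.mul_one, Matrix.smul_mul, eU_star_mul]
    ext a b
    by_cases hab : a = b
    · subst hab; simp
    · simp [hab]
  rw [h2, Matrix.posSemidef_diagonal_iff] at h1
  have h3 := h1 i
  have h4 : (0:ℝ) ≤ hA.eigenvalues i - c := by exact_mod_cast h3
  linarith

lemma ev_le {A : Matrix n n ℂ} (hA : A.IsHermitian) (c : ℝ) (h : A ≤ (c : ℂ) • (1 : Matrix n n ℂ))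
    (i : n) : hA.eigenvalues i ≤ c := by
  have h1 : ((eU hA)ᴴ * ((c : ℂ) • 1 - A) * eU hA).PosSemidef :=
    PosSemidef.conjTranspose_mul_mul_same h _
  have h2 : (eU hA)ᴴ * ((c : ℂ) • 1 - A) * eU hA =
      diagonal (fun i => ((c - hA.eigenvalues i : ℝ) : ℂ)) := by
    rw [Matrix.mul_sub, Matrix.sub_mul, eU_diag]
    simp only [Matrix.mul_smul, Matrix.mul_one, Matrix.smul_mul, eU_star_mul]
    ext a b
    by_cases hab : a = b
    · subst hab; simp
    · simp [hab]
  rw [h2, Matrix.posSemidef_diagonal_iff] at h1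
  have h3 := h1 i
  have h4 : (0:ℝ) ≤ c - hA.eigenvalues i := by exact_mod_cast h3
  linarith

/-- PSD matrices with orthogonal trace pairing have zero product. -/
lemma psd_mul_eq_zero {A B : Matrix n n ℂ} (hA : A.PosSemidef) (hB : B.PosSemidef)
    (h : ((A * B).trace).re ≤ 0) : A * B = 0 := by
  obtain ⟨X, hX⟩ := CStarAlgebra.nonneg_iff_eq_star_mul_self.mp hA.nonneg
  obtain ⟨Y, hY⟩ := CStarAlgebra.nonneg_iff_eq_star_mul_self.mp hB.nonneg
  rw [star_eq_conjTranspose] at hX hY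
  have h1 : (A * B).trace = ((X * Yᴴ) * (X * Yᴴ)ᴴ).trace := by
    rw [hX, hY, Matrix.conjTranspose_mul, Matrix.conjTranspose_conjTranspose]
    rw [show Xᴴ * X * (Yᴴ * Y) = Xᴴ * (X * Yᴴ * Y) by simp only [Matrix.mul_assoc],
      Matrix.trace_mul_comm]
    simp only [Matrix.mul_assoc]
  have h2 : ((X * Yᴴ) * (X * Yᴴ)ᴴ).PosSemidef := Matrix.posSemidef_self_mul_conjTranspose _
  have h3 := h2.trace_nonneg
  have h4 : ((X * Yᴴ) * (X * Yᴴ)ᴴ).trace = 0 := by
    rw [h1] at h
    have h5 := Complex.le_def.mp h3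
    apply Complex.ext
    · simp only [Complex.zero_re] at h5 ⊢; exact le_antisymm h h5.1
    · simpa using h5.2.symm
  have h5 : X * Yᴴ = 0 := Matrix.trace_mul_conjTranspose_self_eq_zero_iff.mp h4
  rw [hX, hY, show Xᴴ * X * (Yᴴ * Y) = Xᴴ * (X * Yᴴ) * Y by simp only [Matrix.mul_assoc], h5]
  simp

lemma psd_trace_mul_nonneg {A B : Matrix n n ℂ} (hA : A.PosSemidef) (hB : B.PosSemidef) :
    0 ≤ ((A * B).trace).re := by
  obtain ⟨X, hX⟩ := CStarAlgebra.nonneg_iff_eq_star_mul_self.mp hA.nonneg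
  rw [star_eq_conjTranspose] at hX
  have h1 : (A * B).trace = (X * B * Xᴴ).trace := by
    rw [hX, Matrix.mul_assoc, Matrix.trace_mul_comm]
  rw [h1]
  exact (Complex.le_def.mp (hB.mul_mul_conjTranspose_same X).trace_nonneg).1

end FC

section Win
variable {ι β : Type*} [Fintype ι] [DecidableEq ι] [DecidableEq β]

/-- window compression of a matrix (conditional expectation onto window-block-diagonal matrices) -/
def winComp (win : ι → β) (P : Matrix ι ι ℂ) : Matrix ι ι ℂ :=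
  Matrix.of fun m m' => if win m = win m' then P m m' else 0

/-- window-block-diagonal matrices -/
def IsWin (win : ι → β) (H : Matrix ι ι ℂ) : Prop := ∀ m m', win m ≠ win m' → H m m' = 0

/-- diagonal matrix of a real function -/
noncomputable abbrev dgM (d : ι → ℝ) : Matrix ι ι ℂ := Matrix.diagonal (fun m => (d m : ℂ))

lemma IsWin.comm {win : ι → β} {H : Matrix ι ι ℂ} (hH : IsWin win H) (d : ι → ℂ)
    (hd : ∀ m m', win m = win m' → d m = d m') : diagonal d * H = H * diagonal d := by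
  ext m m'
  rw [Matrix.diagonal_mul, Matrix.mul_diagonal]
  by_cases h : win m = win m'
  · rw [hd m m' h, mul_comm]
  · rw [hH m m' h]; simp

lemma isWin_of_comm {win : ι → β} {H : Matrix ι ι ℂ}
    (h : ∀ b : β, diagonal (fun m => if win m = b then (1:ℂ) else 0) * H =
      H * diagonal (fun m => if win m = b then (1:ℂ) else 0)) : IsWin win H := by
  intro m m' hm
  have h1 := congrFun (congrFun (h (win m)) m) m'
  rw [Matrix.diagonal_mul, Matrix.mul_diagonal] at h1
  simpa [Ne.symm hm] using h1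

lemma isWin_iff {win : ι → β} {H : Matrix ι ι ℂ} : IsWin win H ↔
    ∀ b : β, diagonal (fun m => if win m = b then (1:ℂ) else 0) * H =
      H * diagonal (fun m => if win m = b then (1:ℂ) else 0) := by
  refine ⟨fun h b => h.comm _ ?_, isWin_of_comm⟩
  intro m m' hmm
  simp [hmm]

lemma IsWin.mul {win : ι → β} {A B : Matrix ι ι ℂ} (hA : IsWin win A) (hB : IsWin win B) :
    IsWin win (A * B) := by
  rw [isWin_iff] at *
  intro b
  rw [← Matrix.mul_assoc, hA b, Matrix.mul_assoc, hB b, Matrix.mul_assoc]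

lemma IsWin.add {win : ι → β} {A B : Matrix ι ι ℂ} (hA : IsWin win A) (hB : IsWin win B) :
    IsWin win (A + B) := by
  intro m m' h
  simp [hA m m' h, hB m m' h]

lemma IsWin.sub {win : ι → β} {A B : Matrix ι ι ℂ} (hA : IsWin win A) (hB : IsWin win B) :
    IsWin win (A - B) := by
  intro m m' h
  simp [hA m m' h, hB m m' h]

lemma IsWin.smul {win : ι → β} {A : Matrix ι ι ℂ} (hA : IsWin win A) (c : ℂ) :
    IsWin win (c • A) := by
  intro m m' h
  simp [hA m m' h]

lemma IsWin.one {win : ι → β} : IsWin win (1 : Matrix ι ι ℂ) := by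
  intro m m' h
  have : m ≠ m' := fun h' => h (by rw [h'])
  simp [this]

lemma IsWin.fc {win : ι → β} {A : Matrix ι ι ℂ} (hA : IsWin win A) (hH : A.IsHermitian)
    (f : ℝ → ℝ) : IsWin win (fc hH f) := by
  rw [isWin_iff] at *
  intro b
  exact fc_commute hH f _ (hA b)

lemma isWin_winComp (win : ι → β) (P : Matrix ι ι ℂ) : IsWin win (winComp win P) := by
  intro m m' h
  simp [winComp, h]

lemma trace_winComp_mul {win : ι → β} (P : Matrix ι ι ℂ) {K : Matrix ι ι ℂ} (hK : IsWin win K) :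
    (winComp win P * K).trace = (P * K).trace := by
  simp only [Matrix.trace, Matrix.diag, Matrix.mul_apply]
  apply Finset.sum_congr rfl; intro i _
  apply Finset.sum_congr rfl; intro j _
  by_cases h : win i = win j
  · simp [winComp, h]
  · rw [hK j i (fun h' => h h'.symm)]; simp

lemma winComp_hermitian {win : ι → β} {P : Matrix ι ι ℂ} (hP : P.IsHermitian) :
    (winComp win P).IsHermitian := by
  ext i j
  simp only [winComp, Matrix.conjTranspose_apply, Matrix.of_apply]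
  by_cases h : win j = win i
  · have := hP.apply i j
    simp [h, this]
  · have h2 : ¬ win i = win j := fun h' => h h'.symm
    simp [h, h2]

/-! equation lemmas realised once -/

theorem winComp_eqna (win : ι → β) (P : Matrix ι ι ℂ) :
    winComp win P = Matrix.of fun m m' => if win m = win m' then P m m' else 0 := by
  rw [winComp.eq_1]

theorem winComp_eqnb (win : ι → β) (P : Matrix ι ι ℂ) :
    winComp win P = Matrix.of fun m m' => if win m = win m' then P m m' else 0 := by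
  rw [winComp.eq_def]

theorem IsWin_eqna (win : ι → β) (H : Matrix ι ι ℂ) :
    IsWin win H = ∀ m m', win m ≠ win m' → H m m' = 0 := by
  rw [IsWin.eq_1]

theorem IsWin_eqnb (win : ι → β) (H : Matrix ι ι ℂ) :
    IsWin win H = ∀ m m', win m ≠ win m' → H m m' = 0 := by
  rw [IsWin.eq_def]

theorem dgM_eqna (d : ι → ℝ) :
    (dgM d : Matrix ι ι ℂ) = Matrix.diagonal (fun m => (d m : ℂ)) := by
  rw [dgM.eq_1]

theorem dgM_eqnb (d : ι → ℝ) :
    (dgM d : Matrix ι ι ℂ) = Matrix.diagonal (fun m => (d m : ℂ)) := by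
  rw [dgM.eq_def]

theorem winComp_apply (win : ι → β) (P : Matrix ι ι ℂ) (m m' : ι) :
    winComp win P m m' = if win m = win m' then P m m' else 0 := by
  rw [winComp_eqna]; rfl

end Win

theorem fc_eqna {n : Type*} [Fintype n] [DecidableEq n] {A : Matrix n n ℂ} (hA : A.IsHermitian)
    (f : ℝ → ℝ) : fc hA f =
      eU hA * diagonal (fun i => ((f (hA.eigenvalues i) : ℝ) : ℂ)) * (eU hA)ᴴ := by
  rw [fc.eq_1]

theorem fc_eqnb {n : Type*} [Fintype n] [DecidableEq n] {A : Matrix n n ℂ} (hA : A.IsHermitian)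
    (f : ℝ → ℝ) : fc hA f =
      eU hA * diagonal (fun i => ((f (hA.eigenvalues i) : ℝ) : ℂ)) * (eU hA)ᴴ := by
  rw [fc.eq_def]

end Crest.Agent.R113.FD
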