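import Crest.Agent.R113.FD.MinC

set_option autoImplicit false
set_option linter.unusedSectionVars false
open scoped ComplexOrder Matrix MatrixOrder
open Matrix

namespace Crest.Agent.R113.FD

universe u
variable {ι : Type u} {β : Type*} [Fintype ι] [DecidableEq ι] [DecidableEq β]

/-- A star projection is `V Vᴴ` with `Vᴴ V = 1`. -/
lemma exists_isometry {Q : Matrix ι ι ℂ} (hQ : IsStarProjection Q) :
    ∃ (k : Type u) (_ : Fintype k) (_ : DecidableEq k) (V : Matrix ι k ℂ),
      Vᴴ * V = 1 ∧ V * Vᴴ = Q ∧ Fintype.card k ≤ Fintype.card ι := by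
  classical
  have hH : Q.IsHermitian := hQ.isSelfAdjoint
  have hid : Q * Q = Q := hQ.isIdempotentElem
  have hev : ∀ i, hH.eigenvalues i = 0 ∨ hH.eigenvalues i = 1 := by
    intro i
    have h1 : (diagonal (fun i => ((hH.eigenvalues i : ℝ) : ℂ))) *
        (diagonal (fun i => ((hH.eigenvalues i : ℝ) : ℂ))) =
        diagonal (fun i => ((hH.eigenvalues i : ℝ) : ℂ)) := by
      rw [← eU_diag hH]
      calc (eU hH)ᴴ * Q * eU hH * ((eU hH)ᴴ * Q * eU hH)
          = (eU hH)ᴴ * Q * (eU hH * (eU hH)ᴴ) * Q * eU hH := by simp only [Matrix.mul_assoc]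
        _ = (eU hH)ᴴ * (Q * Q) * eU hH := by rw [eU_mul_star]; simp [Matrix.mul_assoc]
        _ = _ := by rw [hid]
    rw [Matrix.diagonal_mul_diagonal] at h1
    have h2 := congrFun (Matrix.diagonal_injective h1) i
    have h3 : hH.eigenvalues i * hH.eigenvalues i = hH.eigenvalues i := by exact_mod_cast h2
    have h4 : hH.eigenvalues i * (hH.eigenvalues i - 1) = 0 := by linarith
    rcases mul_eq_zero.mp h4 with h | h
    · left; exact h
    · right; linarith
  refine ⟨{i // hH.eigenvalues i = 1}, inferInstance, inferInstance,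
    (eU hH).submatrix id Subtype.val, ?_, ?_, Fintype.card_subtype_le _⟩
  · ext i j
    have h1 := congrFun (congrFun (eU_star_mul hH) i.val) j.val
    simp only [Matrix.mul_apply, Matrix.conjTranspose_apply, Matrix.submatrix_apply, id] at h1 ⊢
    rw [h1]
    simp [Matrix.one_apply, Subtype.ext_iff]
  · refine Eq.trans ?_ (fc_id hH)
    ext m m'
    unfold fc
    rw [Matrix.mul_assoc, Matrix.mul_apply, Matrix.mul_apply]
    simp only [Matrix.diagonal_mul, Matrix.conjTranspose_apply, Matrix.submatrix_apply, id]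
    rw [← Finset.sum_subtype (Finset.univ.filter fun i => hH.eigenvalues i = 1)
      (p := fun i => hH.eigenvalues i = 1) (by simp)
      (fun j => eU hH m j * star (eU hH m' j)), Finset.sum_filter]
    apply Finset.sum_congr rfl
    intro j _
    rcases hev j with h | h
    · simp [h]
    · simp [h]

/-- admissible set -/
def Adm (win : ι → β) (w : ℝ) : Set (Matrix ι ι ℂ) :=
  {H | ((Real.exp (-(2 * w)) : ℝ) : ℂ) • (1 : Matrix ι ι ℂ) ≤ H ∧ H ≤ 1 ∧ IsWin win H}

lemma adm_posDef {win : ι → β} {w : ℝ} {H : Matrix ι ι ℂ} (hH : H ∈ Adm win w) : H.PosDef := by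
  have h1 : (((Real.exp (-(2 * w)) : ℝ) : ℂ) • (1 : Matrix ι ι ℂ)).PosDef := by
    apply Matrix.PosDef.smul Matrix.PosDef.one
    exact_mod_cast Real.exp_pos _
  have h2 := h1.add_posSemidef hH.1
  simpa using h2

lemma one_mem_adm (win : ι → β) {w : ℝ} (hw : 0 ≤ w) : (1 : Matrix ι ι ℂ) ∈ Adm win w := by
  refine ⟨?_, le_refl _, IsWin.one⟩
  rw [Matrix.le_iff]
  have : (1 : Matrix ι ι ℂ) - ((Real.exp (-(2 * w)) : ℝ) : ℂ) • (1 : Matrix ι ι ℂ) =
      ((1 - Real.exp (-(2 * w)) : ℝ) : ℂ) • (1 : Matrix ι ι ℂ) := by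
    push_cast; rw [sub_smul, one_smul]
  rw [this]
  apply Matrix.PosSemidef.smul Matrix.PosSemidef.one
  have : Real.exp (-(2 * w)) ≤ 1 := Real.exp_le_one_iff.mpr (by linarith)
  exact_mod_cast sub_nonneg.mpr this

lemma isClosed_posSemidef : IsClosed {A : Matrix ι ι ℂ | A.PosSemidef} := by
  have : {A : Matrix ι ι ℂ | A.PosSemidef} =
      {A : Matrix ι ι ℂ | Aᴴ = A} ∩ ⋂ x : ι → ℂ, {A | 0 ≤ star x ⬝ᵥ (A *ᵥ x)} := by
    ext A
    simp only [Set.mem_ofPred_eq, Set.mem_inter_iff, Set.mem_iInter,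
      Matrix.posSemidef_iff_dotProduct_mulVec]
    rfl
  rw [this]
  apply IsClosed.inter
  · exact isClosed_eq (by fun_prop) continuous_id
  · apply isClosed_iInter
    intro x
    apply isClosed_le continuous_const
    fun_prop

lemma entry_le {H : Matrix ι ι ℂ} (h0 : H.PosSemidef) (h1 : H ≤ 1) (i j : ι) : ‖H i j‖ ≤ 1 := by
  obtain ⟨D, hD⟩ := CStarAlgebra.nonneg_iff_eq_star_mul_self.mp h0.nonneg
  rw [star_eq_conjTranspose] at hD
  have hdiag : ∀ i, ∑ k, ‖D k i‖ ^ 2 ≤ 1 := by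
    intro i
    have h2 : (1 - H).PosSemidef := h1
    have h3 := h2.diag_nonneg (i := i)
    rw [Matrix.sub_apply, Matrix.one_apply_eq] at h3
    have h4 : H i i = ((∑ k, ‖D k i‖ ^ 2 : ℝ) : ℂ) := by
      rw [hD, Matrix.mul_apply]
      push_cast
      apply Finset.sum_congr rfl
      intro k _
      rw [Matrix.conjTranspose_apply, Complex.star_def, Complex.conj_mul']
    rw [h4] at h3
    have h5 : (0:ℝ) ≤ 1 - ∑ k, ‖D k i‖ ^ 2 := by exact_mod_cast h3
    linarith
  rw [hD, Matrix.mul_apply]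
  calc ‖∑ k, Dᴴ i k * D k j‖ ≤ ∑ k, ‖Dᴴ i k * D k j‖ := norm_sum_le _ _
    _ ≤ ∑ k, ((1/2) * ‖D k i‖ ^ 2 + (1/2) * ‖D k j‖ ^ 2) := by
        apply Finset.sum_le_sum
        intro k _
        rw [norm_mul, Matrix.conjTranspose_apply, norm_star]
        nlinarith [sq_nonneg (‖D k i‖ - ‖D k j‖)]
    _ = (1/2) * ∑ k, ‖D k i‖ ^ 2 + (1/2) * ∑ k, ‖D k j‖ ^ 2 := by
        rw [Finset.sum_add_distrib, Finset.mul_sum, Finset.mul_sum]
    _ ≤ 1 := by
        have h5 := hdiag i
        have h6 := hdiag j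
        linarith

lemma isCompact_adm (win : ι → β) (w : ℝ) : IsCompact (Adm win w) := by
  have hc : IsCompact (Set.univ.pi fun _ : ι => Set.univ.pi fun _ : ι =>
      Metric.closedBall (0:ℂ) 1) :=
    isCompact_univ_pi fun _ => isCompact_univ_pi fun _ => isCompact_closedBall _ _
  refine IsCompact.of_isClosed_subset hc ?_ ?_
  · have : Adm win w = {H : Matrix ι ι ℂ | (H - ((Real.exp (-(2 * w)) : ℝ) : ℂ) •
        (1 : Matrix ι ι ℂ)).PosSemidef} ∩ ({H | (1 - H).PosSemidef} ∩ {H | IsWin win H}) := rfl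
    rw [this]
    apply IsClosed.inter
    · exact isClosed_posSemidef.preimage (f := fun H : Matrix ι ι ℂ =>
        H - ((Real.exp (-(2 * w)) : ℝ) : ℂ) • (1 : Matrix ι ι ℂ)) (by fun_prop)
    apply IsClosed.inter
    · exact isClosed_posSemidef.preimage (f := fun H : Matrix ι ι ℂ => 1 - H) (by fun_prop)
    · have : {H : Matrix ι ι ℂ | IsWin win H} =
          ⋂ m, ⋂ m', ⋂ (_ : win m ≠ win m'), {H | H m m' = 0} := by
        ext H; simp [IsWin]
      rw [this]
      refine isClosed_iInter fun m => isClosed_iInter fun m' => isClosed_iInter fun _ => ?_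
      exact isClosed_eq (by fun_prop) continuous_const
  · intro H hH i _ j _
    simp only [Metric.mem_closedBall, dist_zero_right]
    exact entry_le (adm_posDef hH).posSemidef hH.2.1 i j

end Crest.Agent.R113.FD
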