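import Crest.Agent.R113.FD.MinD

set_option autoImplicit false
set_option linter.unusedSectionVars false
open scoped ComplexOrder Matrix MatrixOrder
open Matrix

namespace Crest.Agent.R113.FD

universe u
variable {ι k : Type u} {β : Type*} [Fintype ι] [DecidableEq ι] [DecidableEq β]
  [Fintype k] [DecidableEq k]

/-- `e^{-s g}` as a diagonal matrix. -/
noncomputable def eD (g : ι → ℝ) (s : ℝ) : Matrix ι ι ℂ := dgM (fun m => Real.exp (-s * g m))

lemma eD_conj (g : ι → ℝ) (s : ℝ) : (eD g s)ᴴ = eD g s := by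
  unfold eD dgM
  rw [Matrix.diagonal_conjTranspose]
  congr 1
  ext m
  exact Complex.conj_ofReal _

lemma eD_mul (g : ι → ℝ) (s t : ℝ) : eD g s * eD g t = eD g (s + t) := by
  unfold eD dgM
  rw [Matrix.diagonal_mul_diagonal]
  congr 1
  ext m
  rw [← Complex.ofReal_mul, ← Real.exp_add]
  congr 2
  ring

lemma eD_zero (g : ι → ℝ) : eD g 0 = 1 := by
  unfold eD dgM
  simp

lemma eD_comm_win {win : ι → β} {H : Matrix ι ι ℂ} (hH : IsWin win H) {g : ι → ℝ}
    (hgw : ∀ m m', win m = win m' → g m = g m') (s : ℝ) : eD g s * H = H * eD g s :=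
  hH.comm _ (fun m m' h => by simp only [hgw m m' h])

/-- compressed Gram matrix -/
noncomputable def GG (V : Matrix ι k ℂ) (g : ι → ℝ) (H : Matrix ι ι ℂ) (s : ℝ) : Matrix k k ℂ :=
  Vᴴ * (eD g s * H * eD g s) * V

lemma GG_posDef {V : Matrix ι k ℂ} (hV : Vᴴ * V = 1) (g : ι → ℝ) {H : Matrix ι ι ℂ}
    (hH : H.PosDef) (s : ℝ) : (GG V g H s).PosDef := by
  have h1 : GG V g H s = (eD g s * V)ᴴ * H * (eD g s * V) := by
    unfold GG
    rw [Matrix.conjTranspose_mul, eD_conj]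
    simp only [Matrix.mul_assoc]
  rw [h1]
  apply hH.conjTranspose_mul_mul_same
  intro x y hxy
  apply isometry_inj hV
  have h2 := congrArg (eD g (-s)).mulVec hxy
  simp only [Matrix.mulVec_mulVec] at h2
  rw [← Matrix.mul_assoc, eD_mul, neg_add_cancel, eD_zero, Matrix.one_mul] at h2
  exact h2

/-- The functional. -/
noncomputable def LL (V : Matrix ι k ℂ) (g : ι → ℝ) (τ : ℝ) (H : Matrix ι ι ℂ) (s : ℝ) : ℝ :=
  1 / 2 * ld (GG V g H s) - 1 / 4 * ld H + s * τ

lemma continuous_GG (V : Matrix ι k ℂ) (g : ι → ℝ) :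
    Continuous (fun p : Matrix ι ι ℂ × ℝ => GG V g p.1 p.2) := by
  unfold GG eD dgM
  have h1 : Continuous (fun p : Matrix ι ι ℂ × ℝ =>
      (Matrix.diagonal (fun m => ((Real.exp (-p.2 * g m) : ℝ) : ℂ)) : Matrix ι ι ℂ)) := by
    apply Continuous.matrix_diagonal
    fun_prop
  exact (continuous_const.matrix_mul ((h1.matrix_mul continuous_fst).matrix_mul h1)).matrix_mul
    continuous_const

lemma exists_minimiser (V : Matrix ι k ℂ) (hV : Vᴴ * V = 1) (win : ι → β) (g : ι → ℝ) (τ w b : ℝ)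
    (hw : 0 ≤ w) (hb : 0 ≤ b) :
    ∃ H ∈ Adm win w, ∃ s ∈ Set.Icc (0:ℝ) b, ∀ H' ∈ Adm win w, ∀ s' ∈ Set.Icc (0:ℝ) b,
      LL V g τ H s ≤ LL V g τ H' s' := by
  have hc : IsCompact (Adm win w ×ˢ Set.Icc (0:ℝ) b) := (isCompact_adm win w).prod isCompact_Icc
  have hne : (Adm win w ×ˢ Set.Icc (0:ℝ) b).Nonempty :=
    ⟨(1, 0), one_mem_adm win hw, ⟨le_refl _, hb⟩⟩
  have hcont : ContinuousOn (fun p : Matrix ι ι ℂ × ℝ => LL V g τ p.1 p.2)
      (Adm win w ×ˢ Set.Icc (0:ℝ) b) := by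
    unfold LL ld
    apply ContinuousOn.add
    · apply ContinuousOn.sub
      · apply ContinuousOn.mul continuousOn_const
        apply ContinuousOn.log
        · apply Continuous.continuousOn
          exact Complex.continuous_re.comp (continuous_GG V g).matrix_det
        · intro p hp
          exact (posDef_det_re_pos (GG_posDef hV g (adm_posDef hp.1) p.2)).ne'
      · apply ContinuousOn.mul continuousOn_const
        apply ContinuousOn.log
        · apply Continuous.continuousOn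
          exact Complex.continuous_re.comp (continuous_fst.matrix_det)
        · intro p hp
          exact (posDef_det_re_pos (adm_posDef hp.1)).ne'
    · fun_prop
  obtain ⟨p, hp, hmin⟩ := hc.exists_isMinOn hne hcont
  rw [isMinOn_iff] at hmin
  exact ⟨p.1, hp.1, p.2, hp.2, fun H' hH' s' hs' => hmin (H', s') (Set.mk_mem_prod hH' hs')⟩

/-- Part A: bound on `s`. -/
lemma s_bound (V : Matrix ι k ℂ) (hV : Vᴴ * V = 1) (win : ι → β) (g : ι → ℝ) (w θ₀ : ℝ)
    (hw : 0 < w) (hθ : 0 < θ₀) [Nonempty ι] (hk : Fintype.card k ≤ Fintype.card ι)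
    {H : Matrix ι ι ℂ} (hH : H ∈ Adm win w) (s : ℝ)
    (hmin : LL V g (∑ m, g m * ((V * Vᴴ) m m).re + θ₀ * Fintype.card ι) H s ≤
      LL V g (∑ m, g m * ((V * Vᴴ) m m).re + θ₀ * Fintype.card ι) 1 0) :
    s ≤ w / θ₀ := by
  have h0 : LL V g (∑ m, g m * ((V * Vᴴ) m m).re + θ₀ * Fintype.card ι) 1 0 = 0 := by
    unfold LL GG
    rw [eD_zero]
    simp [hV, ld_one]
  rw [h0] at hmin
  have hHpd := adm_posDef hH
  -- lower bound of the first term
  have h1 : ld H ≤ 0 := by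
    rw [← ld_one (n := ι)]
    exact ld_mono hHpd Matrix.PosDef.one hH.2.1
  have h2 : GG V g (((Real.exp (-(2 * w)) : ℝ) : ℂ) • (1 : Matrix ι ι ℂ)) s ≤ GG V g H s := by
    rw [Matrix.le_iff]
    have : GG V g H s - GG V g (((Real.exp (-(2 * w)) : ℝ) : ℂ) • (1 : Matrix ι ι ℂ)) s =
        (eD g s * V)ᴴ * (H - ((Real.exp (-(2 * w)) : ℝ) : ℂ) • (1 : Matrix ι ι ℂ)) *
          (eD g s * V) := by
      unfold GG
      rw [Matrix.conjTranspose_mul, eD_conj]
      simp only [Matrix.mul_sub, Matrix.sub_mul, Matrix.mul_assoc]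
    rw [this]
    exact PosSemidef.conjTranspose_mul_mul_same hH.1 _
  have h3 : GG V g (((Real.exp (-(2 * w)) : ℝ) : ℂ) • (1 : Matrix ι ι ℂ)) s =
      ((Real.exp (-(2 * w)) : ℝ) : ℂ) • GG V g 1 s := by
    unfold GG
    simp only [Matrix.mul_smul, Matrix.smul_mul]
  have hpos1 : (((Real.exp (-(2 * w)) : ℝ) : ℂ) • (1 : Matrix ι ι ℂ)).PosDef := by
    apply Matrix.PosDef.smul Matrix.PosDef.one
    exact_mod_cast Real.exp_pos _
  have h4 := ld_mono (GG_posDef hV g hpos1 s) (GG_posDef hV g hHpd s) h2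
  rw [h3, ld_smul _ (Real.exp_pos _) (GG_posDef hV g Matrix.PosDef.one s), Real.log_exp] at h4
  have h5 : GG V g 1 s = Vᴴ * diagonal (fun m => ((Real.exp (-(2 * s) * g m) : ℝ) : ℂ)) * V := by
    unfold GG
    rw [Matrix.mul_one, eD_mul]
    unfold eD dgM
    congr 3
    ext m
    congr 3
    ring_nf
  have h6 := ld_jensen hV (fun m => -(2 * s) * g m)
  rw [← h5] at h6
  have h7 : ∑ m, -(2 * s) * g m * ((V * Vᴴ) m m).re =
      -(2 * s) * ∑ m, g m * ((V * Vᴴ) m m).re := by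
    rw [Finset.mul_sum]
    apply Finset.sum_congr rfl; intro m _; ring
  rw [h7] at h6
  unfold LL at hmin
  have hkq : (Fintype.card k : ℝ) ≤ Fintype.card ι := by exact_mod_cast hk
  have hq : (0:ℝ) < Fintype.card ι := by exact_mod_cast Fintype.card_pos
  have h8 : s * (θ₀ * Fintype.card ι) ≤ w * Fintype.card k := by nlinarith
  have h9 : s * θ₀ * Fintype.card ι ≤ w * Fintype.card ι := by nlinarith
  have h10 : s * θ₀ ≤ w := le_of_mul_le_mul_right h9 hq
  rwa [le_div_iff₀ hθ]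

end Crest.Agent.R113.FD
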