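import Crest.Agent.R113.FD.MinE

set_option autoImplicit false
set_option linter.unusedSectionVars false
open scoped ComplexOrder Matrix MatrixOrder
open Matrix

namespace Crest.Agent.R113.FD

universe u
variable {ι k : Type u} {β : Type*} [Fintype ι] [DecidableEq ι] [DecidableEq β]
  [Fintype k] [DecidableEq k]

lemma right_deriv_nonneg {F : ℝ → ℝ} {F' δ : ℝ} (hF : HasDerivAt F F' 0) (hδ : 0 < δ)
    (h : ∀ t, 0 < t → t ≤ δ → F 0 ≤ F t) : 0 ≤ F' := by
  have h1 := hF.tendsto_slope_zero_right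
  refine ge_of_tendsto h1 ?_
  have h2 : ∀ᶠ t in nhdsWithin (0:ℝ) (Set.Ioi 0), t ∈ Set.Ioc (0:ℝ) δ :=
    Ioc_mem_nhdsGT hδ
  filter_upwards [h2] with t ht
  simp only [smul_eq_mul, zero_add]
  exact mul_nonneg (inv_nonneg.mpr ht.1.le) (sub_nonneg.mpr (h t ht.1 ht.2))

/-- The projection onto the range of `S e^{-sg} V`. -/
noncomputable def PP (V : Matrix ι k ℂ) (g : ι → ℝ) (H S : Matrix ι ι ℂ) (s : ℝ) : Matrix ι ι ℂ :=
  S * eD g s * V * (GG V g H s)⁻¹ * Vᴴ * eD g s * S

lemma GG_det_unit {V : Matrix ι k ℂ} (hV : Vᴴ * V = 1) (g : ι → ℝ) {H : Matrix ι ι ℂ}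
    (hH : H.PosDef) (s : ℝ) : IsUnit (GG V g H s).det :=
  (Matrix.isUnit_iff_isUnit_det _).mp (GG_posDef hV g hH s).isUnit

lemma PP_conj {V : Matrix ι k ℂ} (hV : Vᴴ * V = 1) (g : ι → ℝ) {H S : Matrix ι ι ℂ}
    (hH : H.PosDef) (hS : Sᴴ = S) (s : ℝ) : (PP V g H S s)ᴴ = PP V g H S s := by
  unfold PP
  have h1 : ((GG V g H s)⁻¹)ᴴ = (GG V g H s)⁻¹ := (GG_posDef hV g hH s).inv.1
  simp only [Matrix.conjTranspose_mul, h1, hS, eD_conj, Matrix.conjTranspose_conjTranspose,
    Matrix.mul_assoc]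

lemma GG_eq {V : Matrix ι k ℂ} (g : ι → ℝ) {H S : Matrix ι ι ℂ} (hSS : S * S = H) (s : ℝ) :
    Vᴴ * eD g s * S * (S * eD g s * V) = GG V g H s := by
  unfold GG
  rw [← hSS]
  simp only [Matrix.mul_assoc]

lemma PP_mul {V : Matrix ι k ℂ} (hV : Vᴴ * V = 1) (g : ι → ℝ) {H S : Matrix ι ι ℂ}
    (hH : H.PosDef) (hSS : S * S = H) (s : ℝ) :
    PP V g H S s * (S * eD g s * V) = S * eD g s * V := by
  have h2 : (GG V g H s)⁻¹ * GG V g H s = 1 := Matrix.nonsing_inv_mul _ (GG_det_unit hV g hH s)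
  calc PP V g H S s * (S * eD g s * V)
      = S * eD g s * V * ((GG V g H s)⁻¹ * (Vᴴ * eD g s * S * (S * eD g s * V))) := by
        unfold PP; simp only [Matrix.mul_assoc]
    _ = _ := by rw [GG_eq g hSS, h2, Matrix.mul_one]

lemma PP_idem {V : Matrix ι k ℂ} (hV : Vᴴ * V = 1) (g : ι → ℝ) {H S : Matrix ι ι ℂ}
    (hH : H.PosDef) (hSS : S * S = H) (s : ℝ) :
    PP V g H S s * PP V g H S s = PP V g H S s := by
  calc PP V g H S s * PP V g H S s
      = (PP V g H S s * (S * eD g s * V)) * ((GG V g H s)⁻¹ * Vᴴ * eD g s * S) := by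
        conv_lhs => rw [show PP V g H S s * PP V g H S s =
          PP V g H S s * (S * eD g s * V * (GG V g H s)⁻¹ * Vᴴ * eD g s * S) from rfl]
        simp only [Matrix.mul_assoc]
    _ = _ := by rw [PP_mul hV g hH hSS]; unfold PP; simp only [Matrix.mul_assoc]

lemma trace_G_inv (V : Matrix ι k ℂ) (g : ι → ℝ) (H S X : Matrix ι ι ℂ) (s : ℝ) :
    ((GG V g H s)⁻¹ * (Vᴴ * (eD g s * (S * X * S) * eD g s) * V)).trace =
      (PP V g H S s * X).trace := by
  have : (GG V g H s)⁻¹ * (Vᴴ * (eD g s * (S * X * S) * eD g s) * V) =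
      ((GG V g H s)⁻¹ * Vᴴ * eD g s * S * X) * (S * eD g s * V) := by
    simp only [Matrix.mul_assoc]
  rw [this, Matrix.trace_mul_comm]
  unfold PP
  simp only [Matrix.mul_assoc]

/-- Part B: flux inequality. -/
lemma flux_bound (V : Matrix ι k ℂ) (hV : Vᴴ * V = 1) (win : ι → β) (g : ι → ℝ)
    (hgw : ∀ m m', win m = win m' → g m = g m') (w τ b : ℝ)
    {H S : Matrix ι ι ℂ} (hH : H ∈ Adm win w) (hSS : S * S = H) (hSw : IsWin win S)
    (s : ℝ) (hs0 : 0 ≤ s) (hsb : s < b)
    (hmin : ∀ s' ∈ Set.Icc (0:ℝ) b, LL V g τ H s ≤ LL V g τ H s') :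
    ∑ m, ((PP V g H S s) m m).re * g m ≤ τ := by
  have hHpd := adm_posDef hH
  have key : ∀ t, 0 < t → t ≤ b - s →
      0 ≤ 1 / 2 * ∑ m, ((PP V g H S s) m m).re * (Real.exp (-(2 * t) * g m) - 1) + t * τ := by
    intro t ht0 htb
    have h1 := hmin (s + t) ⟨by linarith, by linarith⟩
    unfold LL at h1
    have h2 := ld_le_tangent (GG_posDef hV g hHpd s) (GG_posDef hV g hHpd (s + t))
    have h3 : GG V g H (s + t) - GG V g H s =
        Vᴴ * (eD g s * (S * (eD g (2 * t) - 1) * S) * eD g s) * V := by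
      have e1 : eD g (s + t) = eD g s * eD g t := (eD_mul g s t).symm
      have e2 : eD g (s + t) = eD g t * eD g s := by rw [eD_mul, add_comm]
      have e3 : eD g t * S = S * eD g t := eD_comm_win hSw hgw t
      have e4 : eD g (2 * t) = eD g t * eD g t := by rw [eD_mul]; congr 1; ring
      have e5 : eD g (s + t) * H * eD g (s + t) = eD g s * (S * eD g (2 * t) * S) * eD g s := by
        rw [← hSS]
        nth_rewrite 1 [e1]
        rw [e2, e4]
        calc eD g s * eD g t * (S * S) * (eD g t * eD g s)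
            = eD g s * (eD g t * S) * (S * eD g t) * eD g s := by simp only [Matrix.mul_assoc]
          _ = eD g s * (S * eD g t) * (eD g t * S) * eD g s := by rw [e3]
          _ = _ := by simp only [Matrix.mul_assoc]
      unfold GG
      rw [e5, ← Matrix.sub_mul, ← Matrix.mul_sub, ← Matrix.sub_mul, ← Matrix.mul_sub]
      congr 4
      rw [← hSS, Matrix.mul_sub, Matrix.sub_mul, Matrix.mul_one]
    rw [h3, trace_G_inv] at h2
    have h4 : ((PP V g H S s * (eD g (2 * t) - 1)).trace).re =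
        ∑ m, ((PP V g H S s) m m).re * (Real.exp (-(2 * t) * g m) - 1) := by
      have : eD g (2 * t) - 1 =
          diagonal (fun m => ((Real.exp (-(2 * t) * g m) - 1 : ℝ) : ℂ)) := by
        unfold eD dgM
        rw [← Matrix.diagonal_one, Matrix.diagonal_sub]
        congr 1
        ext m
        push_cast
        rfl
      rw [this]
      simp only [Matrix.trace, Matrix.diag, Matrix.mul_diagonal, Complex.re_sum,
        Complex.re_mul_ofReal]
    rw [h4] at h2
    nlinarith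
  have hder : HasDerivAt (fun t : ℝ => 1 / 2 * ∑ m, ((PP V g H S s) m m).re *
      (Real.exp (-(2 * t) * g m) - 1) + t * τ)
      (1 / 2 * ∑ m, ((PP V g H S s) m m).re * (-2 * g m) + τ) 0 := by
    apply HasDerivAt.add
    · apply HasDerivAt.const_mul
      apply HasDerivAt.fun_sum
      intro m _
      apply HasDerivAt.const_mul
      have h1 : HasDerivAt (fun t : ℝ => -(2 * t) * g m) (-2 * g m) 0 := by
        have h2 : HasDerivAt (fun t : ℝ => (-2 * g m) * t) (-2 * g m) 0 := by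
          simpa using (hasDerivAt_id (0:ℝ)).const_mul (-2 * g m)
        have h3 : (fun t : ℝ => -(2 * t) * g m) = (fun t => (-2 * g m) * t) := by
          ext t; ring
        rw [h3]
        exact h2
      have h3 := (h1.exp).sub_const 1
      simpa using h3
    · simpa using (hasDerivAt_id (0:ℝ)).mul_const τ
  have h5 := right_deriv_nonneg hder (δ := b - s) (by linarith) (by
    intro t ht0 htb
    simpa using key t ht0 htb)
  have h6 : ∑ m, ((PP V g H S s) m m).re * (-2 * g m) =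
      -2 * ∑ m, ((PP V g H S s) m m).re * g m := by
    rw [Finset.mul_sum]
    apply Finset.sum_congr rfl; intro m _; ring
  rw [h6] at h5
  linarith

lemma adm_convex {win : ι → β} {w : ℝ} {H H' : Matrix ι ι ℂ} (hH : H ∈ Adm win w)
    (hH' : H' ∈ Adm win w) {t : ℝ} (ht0 : 0 ≤ t) (ht1 : t ≤ 1) :
    H + (t : ℂ) • (H' - H) ∈ Adm win w := by
  have c0 : (0:ℂ) ≤ (t : ℂ) := by exact_mod_cast ht0
  have c1 : (0:ℂ) ≤ ((1 - t : ℝ) : ℂ) := by exact_mod_cast sub_nonneg.mpr ht1
  refine ⟨?_, ?_, ?_⟩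
  · rw [Matrix.le_iff]
    have : H + (t : ℂ) • (H' - H) - ((Real.exp (-(2 * w)) : ℝ) : ℂ) • (1 : Matrix ι ι ℂ) =
        ((1 - t : ℝ) : ℂ) • (H - ((Real.exp (-(2 * w)) : ℝ) : ℂ) • (1 : Matrix ι ι ℂ)) +
        (t : ℂ) • (H' - ((Real.exp (-(2 * w)) : ℝ) : ℂ) • (1 : Matrix ι ι ℂ)) := by
      push_cast
      simp only [smul_sub, sub_smul, one_smul]
      abel
    rw [this]
    exact (Matrix.PosSemidef.smul hH.1 c1).add (Matrix.PosSemidef.smul hH'.1 c0)
  · rw [Matrix.le_iff]
    have : 1 - (H + (t : ℂ) • (H' - H)) =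
        ((1 - t : ℝ) : ℂ) • (1 - H) + (t : ℂ) • (1 - H') := by
      push_cast
      simp only [smul_sub, sub_smul, one_smul]
      abel
    rw [this]
    exact (Matrix.PosSemidef.smul hH.2.1 c1).add (Matrix.PosSemidef.smul hH'.2.1 c0)
  · exact hH.2.2.add ((hH'.2.2.sub hH.2.2).smul _)

/-- Part C: first order condition. -/
lemma first_order (V : Matrix ι k ℂ) (hV : Vᴴ * V = 1) (win : ι → β) (g : ι → ℝ) (w τ : ℝ)
    {H H' S N : Matrix ι ι ℂ} (hH : H ∈ Adm win w) (hH' : H' ∈ Adm win w) (hSS : S * S = H)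
    (hSN : S * N = 1) (hNS : N * S = 1) (s : ℝ)
    (hmin : ∀ H' ∈ Adm win w, LL V g τ H s ≤ LL V g τ H' s) :
    0 ≤ 1 / 2 * ((PP V g H S s * (N * (H' - H) * N)).trace).re -
      1 / 4 * ((N * (H' - H) * N).trace).re := by
  have hHpd := adm_posDef hH
  obtain ⟨K, hK⟩ : ∃ K, K = H' - H := ⟨_, rfl⟩
  rw [← hK]
  have hSNK : S * (N * K * N) * S = K := by
    calc S * (N * K * N) * S = (S * N) * K * (N * S) := by simp only [Matrix.mul_assoc]
      _ = K := by rw [hSN, hNS]; simp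
  have hinv : H⁻¹ = N * N := by
    apply Matrix.inv_eq_left_inv
    rw [← hSS]
    calc N * N * (S * S) = N * (N * S) * S := by simp only [Matrix.mul_assoc]
      _ = 1 := by rw [hNS]; simp [hNS]
  have htr2 : ((N * K * N).trace) = (H⁻¹ * K).trace := by
    rw [Matrix.trace_mul_comm, ← Matrix.mul_assoc, hinv]
  have key : ∀ t : ℝ, 0 < t → t ≤ 1 → 0 ≤ 1 / 2 * ((PP V g H S s * (N * K * N)).trace).re -
      1 / 4 * (((H + (t : ℂ) • K)⁻¹ * K).trace).re := by
    intro t ht0 ht1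
    have hHt : H + (t : ℂ) • K ∈ Adm win w := by
      rw [hK]
      exact adm_convex (t := t) hH hH' ht0.le ht1
    have hHtpd := adm_posDef hHt
    have h1 := hmin _ hHt
    unfold LL at h1
    have h2 := ld_le_tangent (GG_posDef hV g hHpd s) (GG_posDef hV g hHtpd s)
    have h3 := ld_le_tangent hHtpd hHpd
    have h4 : GG V g (H + (t : ℂ) • K) s - GG V g H s =
        (t : ℂ) • (Vᴴ * (eD g s * (S * (N * K * N) * S) * eD g s) * V) := by
      rw [hSNK]
      unfold GG
      simp only [Matrix.mul_add, Matrix.add_mul, Matrix.mul_smul, Matrix.smul_mul]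
      abel
    have h5 : H - (H + (t : ℂ) • K) = -((t : ℂ) • K) := by abel
    rw [h4, Matrix.mul_smul, Matrix.trace_smul, trace_G_inv, smul_eq_mul,
      Complex.re_ofReal_mul] at h2
    rw [h5, Matrix.mul_neg, Matrix.mul_smul, Matrix.trace_neg, Matrix.trace_smul, smul_eq_mul,
      Complex.neg_re, Complex.re_ofReal_mul] at h3
    have h6 : 0 ≤ t * (1 / 2 * ((PP V g H S s * (N * K * N)).trace).re -
      1 / 4 * (((H + (t : ℂ) • K)⁻¹ * K).trace).re) := by nlinarith
    exact nonneg_of_mul_nonneg_right h6 ht0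
  have hcont : ContinuousAt (fun t : ℝ => 1 / 2 * ((PP V g H S s * (N * K * N)).trace).re -
      1 / 4 * (((H + (t : ℂ) • K)⁻¹ * K).trace).re) 0 := by
    apply ContinuousAt.sub continuousAt_const
    apply ContinuousAt.mul continuousAt_const
    have hc1 : Continuous (fun t : ℝ => H + (t : ℂ) • K) := by fun_prop
    have hc2 : ContinuousAt (fun t : ℝ => (H + (t : ℂ) • K)⁻¹) 0 := by
      simp only [Matrix.inv_def, Ring.inverse_eq_inv']
      apply ContinuousAt.fun_smul
      · apply ContinuousAt.inv₀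
        · exact hc1.matrix_det.continuousAt
        · simpa using posDef_det_ne hHpd
      · exact hc1.matrix_adjugate.continuousAt
    have hc3 : ContinuousAt (fun t : ℝ => ((H + (t : ℂ) • K)⁻¹ * K)) 0 := by
      have : Continuous (fun X : Matrix ι ι ℂ => X * K) := by fun_prop
      exact this.continuousAt.comp hc2
    have hc4 : Continuous (fun X : Matrix ι ι ℂ => (X.trace).re) := by fun_prop
    exact hc4.continuousAt.comp hc3
  have hlim := hcont.tendsto
  simp only [Complex.ofReal_zero, zero_smul, add_zero] at hlim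
  rw [htr2]
  refine ge_of_tendsto (hlim.mono_left (nhdsWithin_le_nhds (s := Set.Ioi 0))) ?_
  filter_upwards [Ioc_mem_nhdsGT (zero_lt_one (α := ℝ))] with t ht
  exact key t ht.1 ht.2

end Crest.Agent.R113.FD
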