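import Crest.Agent.R113.FD.Min
import Crest.Agent.R113.Basic

/-! # (MIN) in Submodule form: bridge from `min_matrix` to the names of `Defs.lean`. -/

set_option autoImplicit false
set_option linter.unusedSectionVars false
open scoped ComplexOrder Matrix MatrixOrder
open Matrix

namespace Crest.Agent.R113.FD

universe u
variable {ι : Type u} {β : Type*} [Fintype ι] [DecidableEq ι] [DecidableEq β]

/-- matrices as operators on `EuclideanSpace ℂ ι` -/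
noncomputable abbrev Φ : Matrix ι ι ℂ ≃⋆ₐ[ℂ] (EuclideanSpace ℂ ι →L[ℂ] EuclideanSpace ℂ ι) :=
  Matrix.toEuclideanCLM (n := ι) (𝕜 := ℂ)

lemma Φ_apply (A : Matrix ι ι ℂ) (v : EuclideanSpace ℂ ι) (i : ι) :
    Φ A v i = ∑ j, A i j * v j := by
  show (A *ᵥ v.ofLp) i = _
  simp [Matrix.mulVec, dotProduct]

lemma Φ_mul (A B : Matrix ι ι ℂ) (v : EuclideanSpace ℂ ι) : Φ (A * B) v = Φ A (Φ B v) := by
  rw [map_mul]; rfl

lemma Φ_inner (A : Matrix ι ι ℂ) (v w : EuclideanSpace ℂ ι) :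
    inner ℂ (Φ A v) w = inner ℂ v (Φ Aᴴ w) := by
  rw [← star_eq_conjTranspose, map_star, ContinuousLinearMap.star_eq_adjoint,
    ContinuousLinearMap.adjoint_inner_right]

lemma Φ_single (A : Matrix ι ι ℂ) (i j : ι) : Φ A (ev j) i = A i j := by
  rw [Φ_apply]
  simp [ev]

lemma Φ_inj : Function.Injective
    (fun A : Matrix ι ι ℂ => (Φ A : EuclideanSpace ℂ ι →L[ℂ] EuclideanSpace ℂ ι)) :=
  EquivLike.injective (Φ (ι := ι))

/-- The matrix of the projection onto `X`. -/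
noncomputable def pm (X : Submodule ℂ (EuclideanSpace ℂ ι)) : Matrix ι ι ℂ :=
  Φ.symm X.starProjection

lemma pm_eqna (X : Submodule ℂ (EuclideanSpace ℂ ι)) : pm X = Φ.symm X.starProjection := by
  rw [pm.eq_1]

lemma pm_eqnb (X : Submodule ℂ (EuclideanSpace ℂ ι)) : pm X = Φ.symm X.starProjection := by
  rw [pm.eq_def]

lemma Φ_pm (X : Submodule ℂ (EuclideanSpace ℂ ι)) : Φ (pm X) = X.starProjection := by
  unfold pm; simp

lemma pm_apply (X : Submodule ℂ (EuclideanSpace ℂ ι)) (i j : ι) : pm X i j = ent X i j := by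
  rw [ent_eq_apply, ← Φ_pm, Φ_single]

lemma pm_proj (X : Submodule ℂ (EuclideanSpace ℂ ι)) : IsStarProjection (pm X) := by
  have h : IsStarProjection X.starProjection := isStarProjection_starProjection
  refine ⟨?_, ?_⟩
  · apply Φ_inj
    show Φ (pm X * pm X) = Φ (pm X)
    rw [map_mul, Φ_pm]
    exact h.isIdempotentElem
  · apply Φ_inj
    show Φ (star (pm X)) = Φ (pm X)
    rw [map_star, Φ_pm]
    exact h.isSelfAdjoint

lemma pm_apply_self_re (X : Submodule ℂ (EuclideanSpace ℂ ι)) (i : ι) :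
    (pm X i i).re = Crest.Agent.R113.dg X i := by
  rw [pm_apply, ent_self, Complex.ofReal_re]

/-- A star projection with range in `X` and fixing `X` is the projection onto `X`. -/
lemma eq_pm_of {P : Matrix ι ι ℂ} (hP : IsStarProjection P)
    (X : Submodule ℂ (EuclideanSpace ℂ ι)) (h1 : ∀ v, Φ P v ∈ X) (h2 : ∀ v ∈ X, Φ P v = v) :
    P = pm X := by
  apply Φ_inj
  show Φ P = Φ (pm X)
  rw [Φ_pm]
  ext1 v
  symm
  apply Submodule.eq_starProjection_of_mem_of_inner_eq_zero (h1 v)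
  intro w hw
  have hPc : Pᴴ = P := hP.isSelfAdjoint
  have hPi : P * P = P := hP.isIdempotentElem
  rw [← h2 w hw, ← inner_conj_symm, Φ_inner, hPc, map_sub, ← Φ_mul, hPi, sub_self, inner_zero_right,
    map_zero]

lemma Φ_dgM (d : ι → ℝ) (v : EuclideanSpace ℂ ι) : Φ (dgM d) v = mulD d v := by
  ext i
  rw [Φ_apply, mulD_apply]
  simp [Matrix.diagonal_apply]

lemma Φ_dgM_lin (d : ι → ℝ) :
    ((Φ (dgM d) : EuclideanSpace ℂ ι →L[ℂ] EuclideanSpace ℂ ι) :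
      EuclideanSpace ℂ ι →ₗ[ℂ] EuclideanSpace ℂ ι) = mulD d := by
  ext1 v
  exact Φ_dgM d v

lemma psd_inner {A : Matrix ι ι ℂ} (hA : A.PosSemidef) (v : EuclideanSpace ℂ ι) :
    0 ≤ (inner ℂ v (Φ A v)).re := by
  have h := hA.re_dotProduct_nonneg v.ofLp
  rw [EuclideanSpace.inner_eq_star_dotProduct, dotProduct_comm]
  exact h

lemma inner_mono {A B : Matrix ι ι ℂ} (h : A ≤ B) (v : EuclideanSpace ℂ ι) :
    (inner ℂ v (Φ A v)).re ≤ (inner ℂ v (Φ B v)).re := by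
  have h1 := psd_inner (show (B - A).PosSemidef from h) v
  rw [map_sub, _root_.sub_apply, inner_sub_right, Complex.sub_re] at h1
  linarith

lemma norm_sq_Φ (A : Matrix ι ι ℂ) (v : EuclideanSpace ℂ ι) :
    ‖Φ A v‖ ^ 2 = (inner ℂ v (Φ (Aᴴ * A) v)).re := by
  rw [Φ_mul, ← Matrix.conjTranspose_conjTranspose A, ← Φ_inner, Matrix.conjTranspose_conjTranspose,
    ← inner_self_eq_norm_sq (𝕜 := ℂ)]
  rfl

lemma inner_smul_one (c : ℝ) (v : EuclideanSpace ℂ ι) :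
    (inner ℂ v (Φ ((c : ℂ) • (1 : Matrix ι ι ℂ)) v)).re = c * ‖v‖ ^ 2 := by
  rw [map_smul, map_one]
  simp only [_root_.smul_apply, one_apply_eq_self]
  rw [inner_smul_right, Complex.re_ofReal_mul, ← inner_self_eq_norm_sq (𝕜 := ℂ)]
  rfl

lemma norm_Φ_le {S : Matrix ι ι ℂ} (hS : S.PosDef) (h1 : S ≤ 1) (v : EuclideanSpace ℂ ι) :
    ‖Φ S v‖ ≤ ‖v‖ := by
  have hh : S.IsHermitian := hS.1
  have h2 : S * S ≤ ((1:ℝ) : ℂ) • (1 : Matrix ι ι ℂ) := by
    have hSS : S * S = fc hh (fun x => x * x) := by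
      have h := fc_mul hh (fun x => x) (fun x => x)
      rwa [fc_id] at h
    rw [hSS, ← fc_const hh]
    apply fc_mono
    intro i
    have e1 := ev_le hh 1 (by simpa using h1) i
    have e2 := hS.eigenvalues_pos i
    nlinarith
  have h3 := inner_mono h2 v
  rw [inner_smul_one] at h3
  have h4 := norm_sq_Φ S v
  rw [hh.eq] at h4
  have h5 : ‖Φ S v‖ ^ 2 ≤ ‖v‖ ^ 2 := by rw [h4]; simpa using h3
  exact (sq_le_sq₀ (norm_nonneg _) (norm_nonneg _)).mp h5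

lemma le_norm_Φ {S : Matrix ι ι ℂ} (hS : S.PosDef) {c : ℝ} (hc : 0 ≤ c)
    (h1 : (c : ℂ) • (1 : Matrix ι ι ℂ) ≤ S) (v : EuclideanSpace ℂ ι) :
    c * ‖v‖ ≤ ‖Φ S v‖ := by
  have hh : S.IsHermitian := hS.1
  have h2 : ((c ^ 2 : ℝ) : ℂ) • (1 : Matrix ι ι ℂ) ≤ S * S := by
    have hSS : S * S = fc hh (fun x => x * x) := by
      have h := fc_mul hh (fun x => x) (fun x => x)
      rwa [fc_id] at h
    rw [hSS, ← fc_const hh]
    apply fc_mono
    intro i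
    have e1 := ev_ge hh c h1 i
    nlinarith
  have h3 := inner_mono h2 v
  rw [inner_smul_one] at h3
  have h4 := norm_sq_Φ S v
  rw [hh.eq] at h4
  have h5 : (c * ‖v‖) ^ 2 ≤ ‖Φ S v‖ ^ 2 := by rw [h4, mul_pow]; exact h3
  exact (sq_le_sq₀ (by positivity) (norm_nonneg _)).mp h5

lemma norm_mulD_le {d : ι → ℝ} (h0 : ∀ i, 0 ≤ d i) (h1 : ∀ i, d i ≤ 1)
    (v : EuclideanSpace ℂ ι) : ‖mulD d v‖ ≤ ‖v‖ := by
  rw [← sq_le_sq₀ (norm_nonneg _) (norm_nonneg _), EuclideanSpace.norm_sq_eq,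
    EuclideanSpace.norm_sq_eq]
  apply Finset.sum_le_sum
  intro i _
  rw [mulD_apply, norm_mul, Complex.norm_real, Real.norm_eq_abs, abs_of_nonneg (h0 i), mul_pow]
  have : d i ^ 2 ≤ 1 := by
    have := h0 i; have := h1 i; nlinarith
  nlinarith [sq_nonneg ‖v i‖]

lemma le_norm_mulD {d : ι → ℝ} {c : ℝ} (hc : 0 ≤ c) (h1 : ∀ i, c ≤ d i)
    (v : EuclideanSpace ℂ ι) : c * ‖v‖ ≤ ‖mulD d v‖ := by
  rw [← sq_le_sq₀ (by positivity) (norm_nonneg _), mul_pow, EuclideanSpace.norm_sq_eq,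
    EuclideanSpace.norm_sq_eq, Finset.mul_sum]
  apply Finset.sum_le_sum
  intro i _
  rw [mulD_apply, norm_mul, Complex.norm_real, Real.norm_eq_abs,
    abs_of_nonneg (hc.trans (h1 i)), mul_pow]
  have : c ^ 2 ≤ d i ^ 2 := by
    have := h1 i; nlinarith
  nlinarith [sq_nonneg ‖v i‖]

lemma restr_eq_Φ (A : Set ι) [DecidablePred (· ∈ A)] (v : EuclideanSpace ℂ ι) :
    restr A v = Φ (Matrix.diagonal (fun m => if m ∈ A then (1:ℂ) else 0)) v := by
  ext i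
  rw [restr_apply, Φ_apply]
  simp [Matrix.diagonal_apply]

lemma blockDiag_of_isWin {win : ι → β} {A : Matrix ι ι ℂ} (hA : IsWin win A) :
    BlockDiag win ((Φ A : EuclideanSpace ℂ ι →L[ℂ] EuclideanSpace ℂ ι) :
      EuclideanSpace ℂ ι →ₗ[ℂ] EuclideanSpace ℂ ι) := by
  intro c v
  rw [restr_eq_Φ, restr_eq_Φ]
  show Φ A (Φ _ v) = Φ _ (Φ A v)
  rw [← Φ_mul, ← Φ_mul]
  congr 2
  exact ((isWin_iff.mp hA) c).symm

lemma isWin_dgM {win : ι → β} (d : ι → ℝ) : IsWin win (dgM d : Matrix ι ι ℂ) := by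
  intro m m' h
  have : m ≠ m' := fun h' => h (by rw [h'])
  simp [this]

/-- (MIN) in Submodule form. -/
theorem min_sub (win : ι → β) (E : Submodule ℂ (EuclideanSpace ℂ ι)) (g : ι → ℝ)
    (hgw : ∀ i j, win i = win j → g i = g j) (w θ : ℝ) (hw : 0 < w) (hθ : 0 < θ) :
    ∃ (s : ℝ) (S S' F F0 Fm : Matrix ι ι ℂ)
      (a : EuclideanSpace ℂ ι →ₗ[ℂ] EuclideanSpace ℂ ι),
      0 ≤ s ∧ s ≤ w / θ ∧
      S.PosDef ∧ S * S' = 1 ∧ S' * S = 1 ∧ ((Real.exp (-w) : ℝ) : ℂ) • (1 : Matrix ι ι ℂ) ≤ S ∧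
      S ≤ 1 ∧
      (∀ v, ‖Φ S v‖ ≤ ‖v‖) ∧ (∀ v, Real.exp (-w) * ‖v‖ ≤ ‖Φ S v‖) ∧
      IsWin win S ∧ IsWin win F ∧ IsWin win F0 ∧ IsWin win Fm ∧
      IsStarProjection F ∧ IsStarProjection F0 ∧ IsStarProjection Fm ∧
      F + F0 + Fm = 1 ∧ F * F0 = 0 ∧ F * Fm = 0 ∧ F0 * F = 0 ∧ F0 * Fm = 0 ∧ Fm * F = 0 ∧
      Fm * F0 = 0 ∧
      S * F = ((Real.exp (-w) : ℝ) : ℂ) • F ∧ F * S = ((Real.exp (-w) : ℝ) : ℂ) • F ∧
      S * Fm = Fm ∧ Fm * S = Fm ∧ F0 * S = S * F0 ∧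
      -- the scaling operator `a = S e^{-sg}`
      a = ((Φ (S * dgM (fun m => Real.exp (-s * g m))) :
        EuclideanSpace ℂ ι →L[ℂ] EuclideanSpace ℂ ι) : EuclideanSpace ℂ ι →ₗ[ℂ] EuclideanSpace ℂ ι) ∧
      (∀ v, a v = Φ S (mulD (fun m => Real.exp (-s * g m)) v)) ∧
      BlockDiag win a ∧
      ((∀ i, 0 ≤ g i) → ∀ v, ‖a v‖ ≤ ‖v‖) ∧
      (∀ G : ℝ, (∀ i, g i ≤ G) → ∀ v, Real.exp (-(w + s * G)) * ‖v‖ ≤ ‖a v‖) ∧
      -- sign projections of R - 1/2, R = winComp win P, P = pm (E.map a)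
      Commute F (winComp win (pm (E.map a))) ∧ Commute F0 (winComp win (pm (E.map a))) ∧
      Commute Fm (winComp win (pm (E.map a))) ∧
      (1 / 2 : ℂ) • F ≤ F * winComp win (pm (E.map a)) ∧
      F0 * winComp win (pm (E.map a)) = (1 / 2 : ℂ) • F0 ∧
      Fm * winComp win (pm (E.map a)) ≤ (1 / 2 : ℂ) • Fm ∧
      -- the g-flux inequality
      ∑ i, dg (E.map a) i * g i ≤ ∑ i, dg E i * g i + θ * Fintype.card ι := by
  obtain ⟨s, S, S', P, F, F0, Fm, b1, b2, b3, b4, b5, b6, b7, b8, b9, b10, b11, b12, b13, b14,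
    b15, b16, b17, b18, b19, b20, b21, b22, b23, b24, b25, b26, b27, ⟨Y, b28⟩, b29, b30, b31, b32,
    b33, b34, b35⟩ := min_matrix win (pm E) (pm_proj E) g hgw w θ hw hθ
  obtain ⟨a, ha⟩ : ∃ a : EuclideanSpace ℂ ι →ₗ[ℂ] EuclideanSpace ℂ ι,
    a = ((Φ (S * dgM (fun m => Real.exp (-s * g m))) :
        EuclideanSpace ℂ ι →L[ℂ] EuclideanSpace ℂ ι) :
        EuclideanSpace ℂ ι →ₗ[ℂ] EuclideanSpace ℂ ι) := ⟨_, rfl⟩
  have hav : ∀ v, a v = Φ (S * dgM (fun m => Real.exp (-s * g m))) v := by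
    intro v; rw [ha]; rfl
  have hav2 : ∀ v, a v = Φ S (mulD (fun m => Real.exp (-s * g m)) v) := by
    intro v; rw [hav, Φ_mul, Φ_dgM]
  have hPm : P = pm (E.map a) := by
    apply eq_pm_of b26
    · intro v
      rw [b28, Φ_mul, Φ_mul, ← hav]
      refine Submodule.mem_map_of_mem ?_
      rw [Φ_pm]
      exact Submodule.starProjection_apply_mem _ _
    · rintro v ⟨e, he, rfl⟩
      have h1 : Φ (pm E) e = e := by
        rw [Φ_pm]
        exact Submodule.starProjection_eq_self_iff.mpr he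
      rw [hav]
      nth_rewrite 1 [← h1]
      nth_rewrite 2 [← h1]
      rw [← Φ_mul, ← Φ_mul, Matrix.mul_assoc, b27, Φ_mul]
  rw [hPm] at b29 b30 b31 b32 b33 b34 b35
  have hS1 := norm_Φ_le b3 b7
  have hS2 := le_norm_Φ b3 (Real.exp_pos (-w)).le b6
  have hF0S : F0 * S = S * F0 := by
    have : F0 = 1 - F - Fm := by rw [← b15]; abel
    rw [this]
    simp only [Matrix.mul_sub, Matrix.sub_mul, Matrix.mul_one, Matrix.one_mul, b22, b23, b24, b25]
  refine ⟨s, S, S', F, F0, Fm, a, b1, b2, b3, b4, b5, b6, b7, hS1, hS2, b8, b9, b10, b11, b12, b13,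
    b14, b15, b16, b17, b18, b19, b20, b21, b22, b23, b24, b25, hF0S, ha, hav2, ?_, ?_, ?_, b29,
    b30, b31, b32, b33, b34, ?_⟩
  · rw [ha]
    exact blockDiag_of_isWin (b8.mul (isWin_dgM _))
  · intro hg0 v
    rw [hav2]
    refine (hS1 _).trans (norm_mulD_le (fun i => (Real.exp_pos _).le) (fun i => ?_) v)
    apply Real.exp_le_one_iff.mpr
    have := mul_nonneg b1 (hg0 i)
    linarith
  · intro G hG v
    rw [hav2]
    have h1 := hS2 (mulD (fun m => Real.exp (-s * g m)) v)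
    have h2 := le_norm_mulD (c := Real.exp (-(s * G))) (d := fun m => Real.exp (-s * g m))
      (Real.exp_pos _).le (fun i => by
        apply Real.exp_le_exp.mpr
        have := mul_le_mul_of_nonneg_left (hG i) b1
        linarith) v
    calc Real.exp (-(w + s * G)) * ‖v‖ = Real.exp (-w) * (Real.exp (-(s * G)) * ‖v‖) := by
          rw [← mul_assoc, ← Real.exp_add]; congr 2; ring
      _ ≤ Real.exp (-w) * ‖mulD (fun m => Real.exp (-s * g m)) v‖ :=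
          mul_le_mul_of_nonneg_left h2 (Real.exp_pos _).le
      _ ≤ _ := h1
  · simpa only [pm_apply_self_re] using b35

end Crest.Agent.R113.FD
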