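import Crest.Agent.R113.FD.CS

/-!
# Row 113 (T1/T7): the drop under `exp(-J)` (helper600)
-/

set_option autoImplicit false
set_option linter.unusedSectionVars false

namespace Crest.Agent.R113.FD

open Finset
open scoped InnerProductSpace

/-- the tail `{m | k ≤ m}` -/
abbrev tl (q k : ℕ) : Finset (Fin q) := Finset.univ.filter (fun m : Fin q => k ≤ m.val)

/-- `exp(-j)` -/
noncomputable def eJ (q : ℕ) : Fin q → ℝ := fun m => Real.exp (-(m.val : ℝ))

lemma eJ_pos (q : ℕ) (m : Fin q) : 0 < eJ q m := Real.exp_pos _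

/-- one tail: the mass of `tl k` drops by at least `(1-e^{-2}) cut`. -/
lemma drop_one {q : ℕ} (X : Submodule ℂ (Ev (Fin q))) (k : ℕ) :
    (1 - Real.exp (-2)) * cut X (tl q k) ≤ trA X (tl q k) - trA (sc (eJ q) X) (tl q k) := by
  have h1 := cut_le_moved X (tl q k) (Real.exp_pos (-1)) (Real.exp_le_one_iff.2 (by norm_num))
  have h2 : Real.exp (-1) ^ 2 = Real.exp (-2) := by
    rw [← Real.exp_nat_mul]; norm_num
  rw [h2] at h1
  -- remaining factor
  let d : Fin q → ℝ := fun m => Real.exp (-(m.val : ℝ) + if k ≤ m.val then 1 else 0)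
  have hd : ∀ m, 0 < d m := fun m => Real.exp_pos _
  have hanti : Antitone d := by
    intro a b hab
    simp only [d]
    apply Real.exp_le_exp.2
    have hab' : a.val ≤ b.val := hab
    rcases eq_or_lt_of_le hab' with h | h
    · rw [h]
    · have h3 : (a.val : ℝ) + 1 ≤ b.val := by exact_mod_cast h
      split_ifs with h4 h5 <;> linarith
  have h3 := anti_tail hd hanti (sc (tw (Real.exp (-1)) (tl q k)) X) k
  rw [sc_sc] at h3
  have h4 : (fun m => d m * tw (Real.exp (-1)) (tl q k) m) = eJ q := by
    funext m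
    simp only [d, tw, eJ, Finset.mem_filter, Finset.mem_univ, true_and]
    split_ifs with h
    · rw [← Real.exp_add]; ring_nf
    · simp
  rw [h4] at h3
  have h5 : moved (Real.exp (-1)) (tl q k) X
      = trA X (tl q k) - trA (sc (tw (Real.exp (-1)) (tl q k)) X) (tl q k) := rfl
  rw [h5] at h1
  have h6 : trA (sc (eJ q) X) (tl q k) ≤ trA (sc (tw (Real.exp (-1)) (tl q k)) X) (tl q k) := h3
  linarith

/-- layer cake: `∑ m h_m = ∑_{k=1}^{q-1} tr(P 1_{tail k})`. -/
lemma sum_hh_mul_val {q : ℕ} (X : Submodule ℂ (Ev (Fin q))) :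
    ∑ m, hh X m * (m.val : ℝ) = ∑ k ∈ Finset.Ico 1 q, trA X (tl q k) := by
  unfold trA
  have h1 : ∀ k ∈ Finset.Ico 1 q, ∑ m ∈ tl q k, hh X m
      = ∑ m : Fin q, if k ≤ m.val then hh X m else 0 := by
    intro k _; rw [Finset.sum_filter]
  rw [Finset.sum_congr rfl h1, Finset.sum_comm]
  refine Finset.sum_congr rfl fun m _ => ?_
  rw [← Finset.sum_filter, Finset.sum_const]
  have : ((Finset.Ico 1 q).filter fun k => k ≤ m.val) = Finset.Icc 1 m.val := by
    ext k; simp only [Finset.mem_filter, Finset.mem_Ico, Finset.mem_Icc]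
    have := m.2
    omega
  rw [this, Nat.card_Icc, nsmul_eq_mul]
  simp [mul_comm]

/-- total drop -/
lemma drop_sum {q : ℕ} (X : Submodule ℂ (Ev (Fin q))) :
    (1 - Real.exp (-2)) * ∑ k ∈ Finset.Ico 1 q, cut X (tl q k) ≤
      ∑ m, hh X m * (m.val : ℝ) - ∑ m, hh (sc (eJ q) X) m * (m.val : ℝ) := by
  rw [sum_hh_mul_val, sum_hh_mul_val, ← Finset.sum_sub_distrib, Finset.mul_sum]
  exact Finset.sum_le_sum fun k _ => drop_one X k

/-- off-diagonal mass is controlled by the cuts of the tails -/
lemma off_le_cuts {q : ℕ} (X : Submodule ℂ (Ev (Fin q))) :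
    ∑ m, hh X m * (1 - hh X m) ≤ 2 * ∑ k ∈ Finset.Ico 1 q, cut X (tl q k) := by
  -- entries
  set en : Fin q → Fin q → ℝ := fun m m' => ‖(pj X (dl m)) m'‖ ^ 2 with hen
  have hsymm : ∀ m m', en m m' = en m' m := fun m m' => by
    simp only [hen]; rw [norm_entry_comm]
  have hrow : ∀ m, hh X m = ∑ m', en m m' := fun m => hh_eq_row X m
  have hdiag : ∀ m, en m m = hh X m ^ 2 := by
    intro m
    simp only [hen]
    rw [pj_dl_self, Complex.norm_real, Real.norm_eq_abs, sq_abs]
  have h1 : ∀ m, hh X m * (1 - hh X m) = (∑ m' with m' < m, en m m') + ∑ m' with m < m', en m m' := by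
    intro m
    have h2 : ∑ m', en m m' = en m m + ((∑ m' with m' < m, en m m') + ∑ m' with m < m', en m m') := by
      rw [← Finset.sum_filter_add_sum_filter_not Finset.univ (fun m' => m' < m)]
      rw [← Finset.sum_filter_add_sum_filter_not (Finset.univ.filter fun m' => ¬ m' < m)
        (fun m' => m < m')]
      rw [Finset.filter_filter, Finset.filter_filter]
      have e1 : (Finset.univ.filter fun m' : Fin q => ¬ m' < m ∧ m < m')
          = Finset.univ.filter fun m' => m < m' := by
        ext m'; simp only [Finset.mem_filter, Finset.mem_univ, true_and, not_lt]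
        exact ⟨fun h => h.2, fun h => ⟨h.le, h⟩⟩
      have e2 : (Finset.univ.filter fun m' : Fin q => ¬ m' < m ∧ ¬ m < m') = {m} := by
        ext m'; simp only [Finset.mem_filter, Finset.mem_univ, true_and, not_lt,
          Finset.mem_singleton]
        exact ⟨fun h => le_antisymm h.2 h.1, fun h => by subst h; exact ⟨le_rfl, le_rfl⟩⟩
      rw [e1, e2, Finset.sum_singleton]; ring
    have h3 := hrow m
    rw [h2, hdiag] at h3
    nlinarith
  have h4 : ∑ m : Fin q, ∑ m' with m < m', en m m' = ∑ m : Fin q, ∑ m' with m' < m, en m m' := by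
    simp_rw [Finset.sum_filter]
    rw [Finset.sum_comm]
    refine Finset.sum_congr rfl fun m _ => Finset.sum_congr rfl fun m' _ => ?_
    rw [hsymm]
  have h5 : ∑ m : Fin q, ∑ m' with m' < m, en m m' ≤ ∑ k ∈ Finset.Ico 1 q, cut X (tl q k) := by
    have hc : ∀ k, cut X (tl q k) = ∑ m : Fin q, if k ≤ m.val then
        ∑ m' ∈ (tl q k)ᶜ, en m m' else 0 := by
      intro k; unfold cut; rw [Finset.sum_filter]
    simp_rw [hc]
    rw [Finset.sum_comm]
    refine Finset.sum_le_sum fun m _ => ?_
    rcases Nat.eq_zero_or_pos m.val with h0 | h0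
    · have : (Finset.univ.filter fun m' : Fin q => m' < m) = ∅ := by
        ext m'
        simp only [Finset.mem_filter, Finset.mem_univ, true_and, Finset.notMem_empty, iff_false,
          not_lt]
        rw [Fin.le_def, h0]; exact Nat.zero_le _
      rw [this, Finset.sum_empty]
      exact Finset.sum_nonneg fun k _ => by
        split_ifs
        · exact Finset.sum_nonneg fun m' _ => by simp only [hen]; positivity
        · exact le_rfl
    · have hmem : m.val ∈ Finset.Ico 1 q := Finset.mem_Ico.2 ⟨h0, m.2⟩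
      refine le_trans (le_of_eq ?_) (Finset.single_le_sum (f := fun k => if k ≤ m.val then
        ∑ m' ∈ (tl q k)ᶜ, en m m' else 0) (fun k _ => ?_) hmem)
      · simp only [le_refl, if_true]
        refine Finset.sum_congr ?_ fun _ _ => rfl
        ext m'
        simp only [Finset.mem_filter, Finset.mem_univ, true_and, Finset.mem_compl, not_le]
        exact Fin.lt_def
      · split_ifs
        · exact Finset.sum_nonneg fun m' _ => by simp only [hen]; positivity
        · exact le_rfl
  simp_rw [h1]
  rw [Finset.sum_add_distrib, h4]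
  linarith

end Crest.Agent.R113.FD
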