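import Crest.Agent.R113.FD.OrbitC
import Crest.Agent.R113.Bes

/-!
Row 113, S0149, task T10: mass of pairs in different windows, auxiliary statements. (helper292)
-/

set_option autoImplicit false

namespace Crest.Agent.R113.Orb

open Finset

variable {w : ℕ → ℕ → Bool} {c e : ℕ → ℝ} {g : ℕ → ℕ} {u : ℤ → ℝ} {lev : ℕ → ℤ → ℕ}
  {bad : ℕ → Set ℤ} {q N B J b0 l D K : ℕ}

section mass

variable {μ : Fin q → Fin q → ℝ} {h : Fin q → ℝ}

theorem Mass.h_nonneg (hμ : Mass μ h) (m : Fin q) : 0 ≤ h m := by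
  rw [← hμ.row m]
  exact Finset.sum_nonneg fun _ _ => hμ.nonneg _ _

/-- mass of the pairs with a given property of one end -/
theorem mass_left (hμ : Mass μ h) (P : Fin q → Prop) [DecidablePred P] :
    ∑ m, ∑ m', (if P m then μ m m' else 0) ≤ ((univ.filter P).card : ℝ) := by
  have : ∀ m, ∑ m', (if P m then μ m m' else 0) = if P m then h m else 0 := by
    intro m
    split_ifs
    · exact hμ.row m
    · simp
  simp only [this]
  rw [← Finset.sum_filter, Finset.card_eq_sum_ones]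
  push_cast
  exact Finset.sum_le_sum fun m _ => hμ.le_one m

theorem mass_either (hμ : Mass μ h) (P : Fin q → Prop) [DecidablePred P] :
    ∑ m, ∑ m', (if P m ∨ P m' then μ m m' else 0) ≤ 2 * ((univ.filter P).card : ℝ) := by
  have h1 := mass_left hμ P
  have h2 : ∑ m, ∑ m', (if P m' then μ m m' else 0) ≤ ((univ.filter P).card : ℝ) := by
    rw [Finset.sum_comm]
    refine le_trans (le_of_eq ?_) h1
    refine Finset.sum_congr rfl fun m _ => Finset.sum_congr rfl fun m' _ => ?_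
    rw [hμ.symm]
  have h3 : ∑ m, ∑ m', (if P m ∨ P m' then μ m m' else 0) ≤
      ∑ m, ∑ m', (if P m then μ m m' else 0) + ∑ m, ∑ m', (if P m' then μ m m' else 0) := by
    rw [← Finset.sum_add_distrib]
    refine Finset.sum_le_sum fun m _ => ?_
    rw [← Finset.sum_add_distrib]
    refine Finset.sum_le_sum fun m' _ => ?_
    have := hμ.nonneg m m'
    by_cases hP : P m <;> by_cases hP' : P m' <;> simp [hP, hP'] <;> linarith
  linarith

/-- pairs with different window number inside the cell -/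
theorem near_mass (hμ : Mass μ h) (hlD : D * l = Mb b0) :
    ∑ m : Fin q, ∑ m' : Fin q,
      (if pw lev b0 l ((m : ℕ) : ℤ) ≠ pw lev b0 l ((m' : ℕ) : ℤ) then μ m m' else 0) ≤
      2 * ∑ i : Fin (D - 1), cutM μ (near lev b0 l D ((i : ℕ) + 1)) := by
  classical
  have key : ∑ m : Fin q, ∑ m' : Fin q,
      (if pw lev b0 l ((m' : ℕ) : ℤ) < pw lev b0 l ((m : ℕ) : ℤ) then μ m m' else 0) ≤
      ∑ i : Fin (D - 1), cutM μ (near lev b0 l D ((i : ℕ) + 1)) := by
    unfold cutM
    rw [Finset.sum_comm (s := (univ : Finset (Fin (D - 1))))]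
    refine Finset.sum_le_sum fun m _ => ?_
    rw [Finset.sum_comm (s := (univ : Finset (Fin (D - 1))))]
    refine Finset.sum_le_sum fun m' _ => ?_
    have hnn : ∀ i ∈ (univ : Finset (Fin (D - 1))), (0 : ℝ) ≤
        (if ((m : ℕ) : ℤ) ∈ near lev b0 l D ((i : ℕ) + 1) ∧
          ((m' : ℕ) : ℤ) ∉ near lev b0 l D ((i : ℕ) + 1) then μ m m' else 0) := by
      intro i _
      split_ifs
      · exact hμ.nonneg _ _
      · exact le_rfl
    split_ifs with hlt
    · have h1 := pw_lt (lev := lev) hlD ((m : ℕ) : ℤ)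
      have h2 : D - pw lev b0 l ((m : ℕ) : ℤ) - 1 < D - 1 := by omega
      refine le_trans (le_of_eq ?_) (Finset.single_le_sum hnn
        (Finset.mem_univ (⟨D - pw lev b0 l ((m : ℕ) : ℤ) - 1, h2⟩ : Fin (D - 1))))
      rw [if_pos]
      constructor
      · show D ≤ pw lev b0 l ((m : ℕ) : ℤ) + (D - pw lev b0 l ((m : ℕ) : ℤ) - 1 + 1)
        omega
      · intro hh
        have : D ≤ pw lev b0 l ((m' : ℕ) : ℤ) + (D - pw lev b0 l ((m : ℕ) : ℤ) - 1 + 1) := hh
        omega
    · exact Finset.sum_nonneg hnn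
  have key' : ∑ m : Fin q, ∑ m' : Fin q,
      (if pw lev b0 l ((m : ℕ) : ℤ) < pw lev b0 l ((m' : ℕ) : ℤ) then μ m m' else 0) ≤
      ∑ i : Fin (D - 1), cutM μ (near lev b0 l D ((i : ℕ) + 1)) := by
    rw [Finset.sum_comm]
    refine le_trans (le_of_eq ?_) key
    refine Finset.sum_congr rfl fun m _ => Finset.sum_congr rfl fun m' _ => ?_
    rw [hμ.symm]
  have h3 : ∑ m : Fin q, ∑ m' : Fin q,
      (if pw lev b0 l ((m : ℕ) : ℤ) ≠ pw lev b0 l ((m' : ℕ) : ℤ) then μ m m' else 0) =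
      ∑ m : Fin q, ∑ m' : Fin q,
      (if pw lev b0 l ((m' : ℕ) : ℤ) < pw lev b0 l ((m : ℕ) : ℤ) then μ m m' else 0) +
      ∑ m : Fin q, ∑ m' : Fin q,
      (if pw lev b0 l ((m : ℕ) : ℤ) < pw lev b0 l ((m' : ℕ) : ℤ) then μ m m' else 0) := by
    rw [← Finset.sum_add_distrib]
    refine Finset.sum_congr rfl fun m _ => ?_
    rw [← Finset.sum_add_distrib]
    refine Finset.sum_congr rfl fun m' _ => ?_
    rcases lt_trichotomy (pw lev b0 l ((m : ℕ) : ℤ)) (pw lev b0 l ((m' : ℕ) : ℤ)) with h | h | h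
    · rw [if_pos h.ne, if_neg h.le.not_gt, if_pos h]; ring
    · rw [if_neg (by simp [h]), if_neg (by simp [h]), if_neg (by simp [h])]; ring
    · rw [if_pos h.ne', if_pos h, if_neg h.le.not_gt]; ring
  rw [h3]
  linarith

end mass

/-! ### incongruent cells -/

theorem incong (hO : OrbitData w c e g u lev bad) {b : ℕ} (hb : 1 ≤ b) {m m' : ℤ} (h : m ≤ m')
    (hm : m ∉ bad b) (hd : m' - m ≤ ((Pib b - 1) * Mb b : ℕ))
    (hc : cell lev b m ≠ cell lev b m') :
    ¬ cell lev b m ≡ cell lev b m' [MOD Pib b] := by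
  have hM := Mb_pos b
  have hP := Pib_ge b
  have hPM : (Pib b - 1) * Mb b ≤ Pib b * Mb b := Nat.mul_le_mul_right _ (by omega)
  have hlev := lev_good hO hb hm (m' := m') (by rw [abs_le]; push_cast at *; omega)
  obtain ⟨d, hd'⟩ := Int.eq_ofNat_of_zero_le (sub_nonneg.2 h)
  rw [hd'] at hlev hd
  have hlev' : lev b m' = lev b m + d := by omega
  have hdle : d ≤ (Pib b - 1) * Mb b := by exact_mod_cast hd
  have h1 : cell lev b m ≤ cell lev b m' := by
    unfold cell
    exact Nat.div_le_div_right (by omega)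
  have h2 : cell lev b m' ≤ cell lev b m + (Pib b - 1) := by
    unfold cell
    rw [hlev']
    calc (lev b m + d) / Mb b ≤ (lev b m + (Pib b - 1) * Mb b) / Mb b :=
          Nat.div_le_div_right (by omega)
      _ = _ := Nat.add_mul_div_right _ _ hM
  intro hcong
  have h3 : Pib b ∣ cell lev b m' - cell lev b m := (Nat.modEq_iff_dvd' h1).1 hcong
  have h4 := Nat.eq_zero_of_dvd_of_lt h3 (by omega)
  omega

theorem cell_ne_of_far (hO : OrbitData w c e g u lev bad) {b : ℕ} (hb : 1 ≤ b) {m m' : ℤ}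
    (hm : m ∉ bad b) (h : (Mb b : ℤ) ≤ m' - m) (hd : m' - m ≤ ((Pib b - 1) * Mb b : ℕ)) :
    cell lev b m ≠ cell lev b m' := by
  have hM := Mb_pos b
  have hPM : (Pib b - 1) * Mb b ≤ Pib b * Mb b := Nat.mul_le_mul_right _ (by omega)
  have hlev := lev_good hO hb hm (m' := m') (by rw [abs_le]; push_cast at *; omega)
  have h1 : lev b m + Mb b ≤ lev b m' := by omega
  have h2 : (lev b m + Mb b) / Mb b ≤ lev b m' / Mb b := Nat.div_le_div_right h1
  rw [Nat.add_div_right _ hM] at h2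
  unfold cell
  omega

/-- same `p`, different windows, good lower end: different cells -/
theorem cell_ne_of_win (hO : OrbitData w c e g u lev bad) (hb : 1 ≤ b0)
    (hlD : D * l = Mb b0) {m m' : ℤ} (h : m ≤ m') (hm : m ∉ bad b0)
    (hd : m' - m ≤ ((Pib b0 - 1) * Mb b0 : ℕ)) (hp : pw lev b0 l m = pw lev b0 l m')
    (hw : win lev b0 l m ≠ win lev b0 l m') : cell lev b0 m ≠ cell lev b0 m' := by
  have hM := Mb_pos b0
  have hPM : (Pib b0 - 1) * Mb b0 ≤ Pib b0 * Mb b0 := Nat.mul_le_mul_right _ (by omega)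
  have hlev := lev_good hO hb hm (m' := m') (by rw [abs_le]; push_cast at *; omega)
  intro hc
  apply hw
  apply win_eq hlev
  rw [pw_eq hlD, pw_eq hlD] at hp
  rw [cell_eq hlD, cell_eq hlD] at hc
  rw [← Nat.div_add_mod (lev b0 m' / l) D, ← Nat.div_add_mod (lev b0 m / l) D, hp, hc]

/-- ordered version of the classification of pairs -/
theorem classify_aux (hO : OrbitData w c e g u lev bad) (hb : 1 ≤ b0) (hlD : D * l = Mb b0)
    (β : ℕ → ℕ) {J' : ℕ} (hβ1 : ∀ i < J', 4 ^ i * b0 + 1 ≤ β i)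
    (hβ2 : ∀ i < J', β i ≤ 4 ^ (i + 1) * b0) {m m' : ℤ} (h : m ≤ m')
    (hw : win lev b0 l m ≠ win lev b0 l m') :
    pw lev b0 l m ≠ pw lev b0 l m' ∨
    (m ∈ bad b0 ∨ ¬ cell lev b0 m ≡ cell lev b0 m' [MOD Pib b0]) ∨
    (∃ i < J', m ∈ bad (β i) ∨ ¬ cell lev (β i) m ≡ cell lev (β i) m' [MOD Pib (β i)]) ∨
    2 * (Mb (4 ^ (J' + 1) * b0) : ℤ) < m' - m := by
  by_cases hp : pw lev b0 l m = pw lev b0 l m'
  swap
  · exact Or.inl hp
  right
  by_cases hd0 : m' - m ≤ 2 * (Mb (4 * b0) : ℤ)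
  · left
    by_cases hm : m ∈ bad b0
    · exact Or.inl hm
    right
    have h16 := Mb16 (b := b0) (b' := 4 * b0) (by omega)
    have hd : m' - m ≤ ((Pib b0 - 1) * Mb b0 : ℕ) := by
      generalize (Pib b0 - 1) * Mb b0 = z at *
      omega
    exact incong hO hb h hm hd (cell_ne_of_win hO hb hlD h hm hd hp hw)
  · right
    by_cases hd1 : 2 * (Mb (4 ^ (J' + 1) * b0) : ℤ) < m' - m
    · exact Or.inr hd1
    left
    push Not at hd0 hd1
    -- find the class
    have : ∃ i < J', 2 * (Mb (4 ^ (i + 1) * b0) : ℤ) < m' - m ∧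
        m' - m ≤ 2 * (Mb (4 ^ (i + 2) * b0) : ℤ) := by
      by_contra hcon
      push Not at hcon
      have key : ∀ i ≤ J', 2 * (Mb (4 ^ (i + 1) * b0) : ℤ) < m' - m := by
        intro i
        induction i with
        | zero => intro _; simpa using hd0
        | succ i ih =>
          intro hi
          exact hcon i (by omega) (ih (by omega))
      exact absurd (key J' le_rfl) (by omega)
    obtain ⟨i, hi, hi1, hi2⟩ := this
    refine ⟨i, hi, ?_⟩
    by_cases hm : m ∈ bad (β i)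
    · exact Or.inl hm
    right
    have hβi1 := hβ1 i hi
    have hβi2 := hβ2 i hi
    have hbi : 1 ≤ β i := by omega
    have h16 := Mb16 (b := β i) (b' := 4 ^ (i + 2) * b0) (by
      have : 4 ^ (i + 2) * b0 = 16 * (4 ^ i * b0) := by ring
      omega)
    have hd : m' - m ≤ ((Pib (β i) - 1) * Mb (β i) : ℕ) := by
      generalize (Pib (β i) - 1) * Mb (β i) = z at *
      omega
    have hMle := Mb_mono hβi2
    exact incong hO hbi h hm hd (cell_ne_of_far hO hbi hm (by omega) hd)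

end Crest.Agent.R113.Orb
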