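import Crest.Agent.R113.Seq
import Crest.Agent.R113.Flux
import Crest.Agent.R113.FluxE
import Crest.Agent.R113.FD.OrbitA
import Crest.Agent.R113.FD.OffBridge

/-!
Row 113, S0149, task T12/A2 (helper251): the base fluxes at `E` are small (`base_flux_E`), and the
diagonals of `E` and of `e^{-s g} E` are `ℓ¹`-close (`seq_base`), `g` the base function.
-/

set_option autoImplicit false

namespace Crest.Agent.R113.SeqApp

open Finset
open Crest.Agent.R113.Orb (win cell pw near far gfun ind BIdx bset bshift bcoef IsBd flux)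

attribute [local irreducible] Mb rb Pib

variable {w : ℕ → ℕ → Bool} {c e : ℕ → ℝ} {g : ℕ → ℕ} {u : ℤ → ℝ} {lev : ℕ → ℤ → ℕ}
  {bad : ℕ → Set ℤ} {q N B J b0 l D K : ℕ}

/-- base sets depend only on the window number of the level -/
theorem bset_eq_phi (hlD : D * l = Mb b0) (j : BIdx D K) :
    ∃ φ : ℕ → Prop, bset w lev b0 l D K j = {m : ℤ | φ (lev b0 m / l)} := by
  refine ⟨fun x => ∃ m : ℤ, lev b0 m / l = x ∧ m ∈ bset w lev b0 l D K j, ?_⟩
  ext m
  constructor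
  · intro hm
    exact ⟨m, rfl, hm⟩
  · rintro ⟨m', h1, h2⟩
    exact (Orb.bset_congr hlD h1 j).mp h2

theorem bshift_le (hlD : D * l = Mb b0) (hK : K ≤ rb b0) (j : BIdx D K) :
    bshift b0 l D K j ≤ rb b0 * Mb b0 := by
  have hr := rb_pos b0
  rcases j with i | ks
  · have h1 : (i : ℕ) + 1 ≤ D := by have := i.2; omega
    calc ((i : ℕ) + 1) * l ≤ D * l := Nat.mul_le_mul_right _ h1
      _ = 1 * Mb b0 := by rw [hlD, one_mul]
      _ ≤ rb b0 * Mb b0 := Nat.mul_le_mul_right _ hr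
  · have h1 : (ks.1 : ℕ) + 1 ≤ rb b0 := by have := ks.1.2; omega
    exact Nat.mul_le_mul_right _ h1

/-- fluxes of the base sets at `E` -/
theorem base_flux_E (hO : OrbitData w c e g u lev bad) (hC : OrbitCounts q N B J lev bad)
    (hb : 1 ≤ b0) (hB : B ≤ b0) (hJ : b0 ≤ J) (hN : rb b0 * Mb b0 ≤ N)
    (hq : 4 ^ b0 * (Pib b0 * Mb b0) ≤ q)
    (hl : 0 < l) (hlD : D * l = Mb b0) (hK : K ≤ rb b0) (hE : Fin q → ℝ)
    (h0 : ∀ m, 0 ≤ hE m) (h1 : ∀ m, hE m ≤ 1) {ρ η1 : ℝ} (hρ0 : 0 ≤ ρ) (hρ1 : ρ ≤ 1) {lh : ℕ}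
    (hlh : 0 < lh) (hlhl : lh ≤ l)
    (hE5 : ∑ m ∈ range (q - lh),
      |∑ i ∈ range lh, ((if h : m + i < q then hE ⟨m + i, h⟩ else 0) - ρ)| ≤ η1 * lh * q)
    (j : BIdx D K) :
    |flux hE (bset w lev b0 l D K j) (bshift b0 l D K j)| ≤
      (2 * η1 + 2 * lh / l + 8 * zb b0) * q := by
  obtain ⟨φ, hφ⟩ := bset_eq_phi (w := w) (lev := lev) (K := K) hlD j
  set h : ℕ → ℝ := fun m => if hm : m < q then hE ⟨m, hm⟩ else 0 with hhdef
  have hh0 : ∀ m, 0 ≤ h m := by
    intro m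
    simp only [hhdef]
    split_ifs
    · exact h0 _
    · exact le_rfl
  have hh1 : ∀ m, h m ≤ 1 := by
    intro m
    simp only [hhdef]
    split_ifs
    · exact h1 _
    · exact zero_le_one
  have hlM : l ≤ Mb b0 := Orb.l_le hlD
  have hP := Pib_pos b0
  have hM := Mb_pos b0
  have hr1 := rb_pos b0
  have hr := Orb.rb_le_Pib b0
  have hlPM : l ≤ Pib b0 * Mb b0 := hlM.trans (Nat.le_mul_of_pos_left _ hP)
  have hrP : rb b0 * Mb b0 ≤ Pib b0 * Mb b0 := Nat.mul_le_mul_right _ (by omega)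
  have hsh := bshift_le hlD hK j
  obtain ⟨z, hz⟩ := Orb.bshift_dvd (K := K) hlD j
  have key := FluxE.flux_E_le hO hC hB hJ hb hl hlPM (n := bshift b0 l D K j)
    (hz ▸ Dvd.intro_left z rfl) (hsh.trans hrP) (hsh.trans hN) h hh0 hh1 hρ0 hρ1 hlh hlhl hE5 φ
  rw [← hφ] at key
  have hfe : flux (fun m : Fin q => h m) (bset w lev b0 l D K j) (bshift b0 l D K j) =
      flux hE (bset w lev b0 l D K j) (bshift b0 l D K j) := by
    unfold flux
    refine Finset.sum_congr rfl fun m _ => ?_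
    simp only [hhdef, m.2, dif_pos]
  rw [hfe] at key
  refine key.trans ?_
  -- `4 l + n ≤ 5 * Pib * Mb ≤ 5 * zb * q`
  have h4 : ((Pib b0 * Mb b0 : ℕ) : ℝ) ≤ zb b0 * q := by
    have h5 : ((4 ^ b0 * (Pib b0 * Mb b0) : ℕ) : ℝ) ≤ q := by exact_mod_cast hq
    have h6 : zb b0 * ((4 ^ b0 * (Pib b0 * Mb b0) : ℕ) : ℝ) ≤ zb b0 * q :=
      mul_le_mul_of_nonneg_left h5 (by unfold zb; positivity)
    refine le_trans ?_ h6
    have h7 : (1 : ℝ) ≤ zb b0 * 4 ^ b0 := by
      unfold zb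
      rw [← mul_pow]
      norm_num
      exact one_le_pow₀ (by norm_num)
    push_cast
    rw [← mul_assoc]
    have h8 : (0 : ℝ) ≤ (Pib b0 : ℝ) * Mb b0 := by positivity
    nlinarith
  have h9 : (l : ℝ) ≤ ((Pib b0 * Mb b0 : ℕ) : ℝ) := by exact_mod_cast hlPM
  have h10 : (bshift b0 l D K j : ℝ) ≤ ((Pib b0 * Mb b0 : ℕ) : ℝ) := by
    exact_mod_cast hsh.trans hrP
  have h11 : 2 * (η1 * q + lh * (q / l)) = (2 * η1 + 2 * lh / l) * q := by ring
  rw [h11]
  nlinarith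

section Seq

theorem mulD_comp_map {ι : Type*} (X : Submodule ℂ (EuclideanSpace ℂ ι)) (d d' : ι → ℝ) :
    (X.map (mulD d)).map (mulD d') = X.map (mulD (fun i => d i * d' i)) := by
  rw [← Submodule.map_comp]
  congr 1
  ext v i
  simp [mul_left_comm, mul_assoc]

/-- successive two-valued scalings -/
noncomputable def chain {ι : Type*} [Fintype ι] [DecidableEq ι]
    (E : Submodule ℂ (EuclideanSpace ℂ ι)) (A : ℕ → Finset ι) (s : ℕ → ℝ) (j : ℕ) :
    Submodule ℂ (EuclideanSpace ℂ ι) :=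
  E.map (mulD (fun m => Real.exp (-(∑ i ∈ range j, if m ∈ A i then s i else 0))))

theorem chain_zero {ι : Type*} [Fintype ι] [DecidableEq ι]
    (E : Submodule ℂ (EuclideanSpace ℂ ι)) (A : ℕ → Finset ι) (s : ℕ → ℝ) :
    chain E A s 0 = E := by
  have : (mulD (fun _ : ι => (1 : ℝ))) = LinearMap.id := by
    ext v i
    simp
  simp [chain, this]

theorem chain_succ {ι : Type*} [Fintype ι] [DecidableEq ι]
    (E : Submodule ℂ (EuclideanSpace ℂ ι)) (A : ℕ → Finset ι) (s : ℕ → ℝ)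
    (j : ℕ) : chain E A s (j + 1) = (chain E A s j).map (scal (A j) (s j)) := by
  rw [chain, chain, scal, mulD_comp_map]
  congr 2
  funext m
  rw [Finset.sum_range_succ, neg_add, Real.exp_add]
  congr 1
  split_ifs <;> simp

theorem norm_mulD_le {ι : Type*} [Fintype ι] [DecidableEq ι] (d : ι → ℝ) (hd0 : ∀ i, 0 ≤ d i) {C : ℝ}
    (hd : ∀ i, d i ≤ C) (hC : 0 ≤ C) (v : EuclideanSpace ℂ ι) : ‖mulD d v‖ ≤ C * ‖v‖ := by
  rw [← Real.sqrt_sq hC, EuclideanSpace.norm_eq, EuclideanSpace.norm_eq,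
    ← Real.sqrt_mul (sq_nonneg _)]
  apply Real.sqrt_le_sqrt
  rw [Finset.mul_sum]
  refine Finset.sum_le_sum fun i _ => ?_
  rw [mulD_apply, norm_mul, mul_pow, Complex.norm_real, Real.norm_eq_abs, sq_abs]
  have h1 : d i ^ 2 ≤ C ^ 2 := pow_le_pow_left₀ (hd0 i) (hd i) 2
  exact mul_le_mul_of_nonneg_right h1 (sq_nonneg _)

theorem norm_mulD_ge {ι : Type*} [Fintype ι] [DecidableEq ι] (d : ι → ℝ) {C : ℝ} (hC : 0 ≤ C)
    (hd : ∀ i, C ≤ d i) (v : EuclideanSpace ℂ ι) : C * ‖v‖ ≤ ‖mulD d v‖ := by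
  rw [← Real.sqrt_sq hC, EuclideanSpace.norm_eq, EuclideanSpace.norm_eq,
    ← Real.sqrt_mul (sq_nonneg _)]
  apply Real.sqrt_le_sqrt
  rw [Finset.mul_sum]
  refine Finset.sum_le_sum fun i _ => ?_
  rw [mulD_apply, norm_mul, mul_pow, Complex.norm_real, Real.norm_eq_abs, sq_abs]
  have h1 : C ^ 2 ≤ d i ^ 2 := pow_le_pow_left₀ hC (hd i) 2
  exact mul_le_mul_of_nonneg_right h1 (sq_nonneg _)

theorem blockDiag_mulD {ι κ : Type*} [Fintype ι] [DecidableEq ι] [DecidableEq κ] (win : ι → κ)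
    (d : ι → ℝ) : BlockDiag win (mulD d) := by
  intro c v
  ext i
  simp only [mulD_apply, restr_apply]
  split_ifs <;> simp

/-- (SEQ) for a finite family of sets satisfying the window conditions -/
theorem seq_family {κ' : Type*} [DecidableEq κ'] {τ : Type*} [Fintype τ]
    (E : Submodule ℂ (EuclideanSpace ℂ (Fin q))) (u : ℤ → ℝ) (wn : Fin q → κ')
    (A : τ → Set ℤ) (n : τ → ℕ) (co : τ → ℝ) (hco : ∀ j, 0 ≤ co j) (hco1 : ∀ j, co j ≤ 1)
    (G : ℝ) (hG : ∑ j, co j ≤ G) {γ V β φ cs d s : ℝ}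
    (hγ : 0 < γ) (hd : 0 ≤ d) (hβ : 0 ≤ φ + (10 * Real.exp (-γ / 4) * q + d + β * q))
    (hcs : V + 5 * γ + 10 ≤ cs) (hs : 0 ≤ s) (hsγ : 8 * (s * G) ≤ γ) (hs4 : s ≤ γ / 4)
    (hBd : ∀ j, ∃ (Bd : Finset (Fin q)) (v0 : ℝ), 0 ≤ v0 ∧ v0 ≤ V ∧
      IsBd wn u (n j) (A j) v0 γ Bd ∧ (Bd.card : ℝ) ≤ β * q)
    (hE3 : ∀ j, ∃ E' : Submodule ℂ (EuclideanSpace ℂ (Fin q)),
      AppInv E E' u (n j) (Real.exp (-cs)) d)
    (hflux : ∀ j, flux (dg E) (A j) (n j) ≤ φ) :
    ∑ i, |dg (E.map (mulD (fun i : Fin q =>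
        Real.exp (-(s * ∑ j, co j * ind (A j) ((i : ℕ) : ℤ)))))) i - dg E i| ≤
      3 ^ (Fintype.card τ) * (φ + (10 * Real.exp (-γ / 4) * q + d + β * q)) := by
  classical
  set L := Fintype.card τ with hL
  let ee : τ ≃ Fin L := Fintype.equivFin τ
  -- enumeration
  let AA : ℕ → Finset (Fin q) := fun j => if h : j < L then fs q (A (ee.symm ⟨j, h⟩)) else ∅
  let BB : ℕ → Finset (Fin q) := fun j => if h : j < L then
    fs q {m : ℤ | m - n (ee.symm ⟨j, h⟩) ∈ A (ee.symm ⟨j, h⟩)} else ∅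
  let ss : ℕ → ℝ := fun j => if h : j < L then s * co (ee.symm ⟨j, h⟩) else 0
  have hss : ∀ j, 0 ≤ ss j := by
    intro j
    simp only [ss]
    split_ifs
    · exact mul_nonneg hs (hco _)
    · exact le_rfl
  -- partial sums
  have hsum_le : ∀ (j : ℕ) (m : Fin q), ∑ i ∈ range j, (if m ∈ AA i then ss i else 0) ≤ s * G := by
    intro j m
    have h1 : ∑ i ∈ range j, (if m ∈ AA i then ss i else 0) ≤ ∑ i ∈ range j, ss i := by
      refine Finset.sum_le_sum fun i _ => ?_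
      split_ifs
      · exact le_rfl
      · exact hss i
    have h2 : ∑ i ∈ range j, ss i ≤ ∑ i ∈ range L, ss i := by
      rcases le_total j L with h | h
      · exact Finset.sum_le_sum_of_subset_of_nonneg (Finset.range_mono h) fun i _ _ => hss i
      · rw [← Finset.sum_range_add_sum_Ico _ h]
        have : ∑ i ∈ Ico L j, ss i = 0 := by
          refine Finset.sum_eq_zero fun i hi => ?_
          have : ¬ i < L := by have := (mem_Ico.mp hi).1; omega
          simp only [ss, this, dif_neg, not_false_eq_true]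
        rw [this, add_zero]
    have h3 : ∑ i ∈ range L, ss i = s * ∑ j, co j := by
      rw [← Fin.sum_univ_eq_sum_range, Finset.mul_sum]
      rw [← Equiv.sum_comp ee]
      refine Finset.sum_congr rfl fun j _ => ?_
      simp [ss]
    calc _ ≤ _ := h1
      _ ≤ _ := h2
      _ = s * ∑ j, co j := h3
      _ ≤ s * G := mul_le_mul_of_nonneg_left hG hs
  have hsum_nonneg : ∀ (j : ℕ) (m : Fin q), 0 ≤ ∑ i ∈ range j, (if m ∈ AA i then ss i else 0) := by
    intro j m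
    refine Finset.sum_nonneg fun i _ => ?_
    split_ifs
    · exact hss i
    · exact le_rfl
  have hchainL : chain E AA ss L = E.map (mulD (fun i : Fin q =>
        Real.exp (-(s * ∑ j, co j * ind (A j) ((i : ℕ) : ℤ))))) := by
    rw [chain]
    congr 2
    funext m
    congr 2
    rw [← Fin.sum_univ_eq_sum_range (fun i => if m ∈ AA i then ss i else 0), Finset.mul_sum,
      ← Equiv.sum_comp ee]
    refine Finset.sum_congr rfl fun j _ => ?_
    have h1 : AA ((ee j : Fin L) : ℕ) = fs q (A j) := by simp [AA]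
    have h2 : ss ((ee j : Fin L) : ℕ) = s * co j := by simp [ss]
    rw [h1, h2]
    unfold ind
    by_cases hm : ((m : ℕ) : ℤ) ∈ A j
    · rw [if_pos ((Orb.mem_fs _ _).mpr hm), Set.indicator_of_mem hm, mul_one]
    · rw [if_neg (fun h => hm ((Orb.mem_fs _ _).mp h)), Set.indicator_of_notMem hm]
      simp
  rw [← hchainL]
  have h0 : chain E AA ss 0 = E := chain_zero E AA ss
  have main := seq_scal L (chain E AA ss) AA BB ss φ (10 * Real.exp (-γ / 4) * q + d + β * q) hβ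
    (fun j _ => hss j) (fun j _ => chain_succ E AA ss j) ?_ ?_
  · have := main.2.1
    rw [h0] at this
    exact this
  · intro j hj
    rw [h0]
    simp only [AA, BB, hj, dif_pos]
    have := Orb.flux_fs E (A (ee.symm ⟨j, hj⟩)) (n (ee.symm ⟨j, hj⟩))
    rw [this]
    exact hflux _
  · intro j hj
    set t : τ := ee.symm ⟨j, hj⟩ with ht
    obtain ⟨Bd, v0, hv0, hv0V, hIs, hBdc⟩ := hBd t
    obtain ⟨E', hE'⟩ := hE3 t
    have hfw := flux_window wn E E' u (n t) cs d hd hE'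
      (mulD (fun m => Real.exp (-(∑ i ∈ range j, if m ∈ AA i then ss i else 0))))
      (blockDiag_mulD _ _) (s * G) (mul_nonneg hs (le_trans (Finset.sum_nonneg fun j _ => hco j) hG))
      (fun v => by
        have := norm_mulD_le (fun m => Real.exp (-(∑ i ∈ range j, if m ∈ AA i then ss i else 0)))
          (fun i => (Real.exp_pos _).le) (C := 1)
          (fun i => Real.exp_le_one_iff.mpr (neg_nonpos.mpr (hsum_nonneg j i))) zero_le_one v
        rwa [one_mul] at this)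
      (fun v => norm_mulD_ge _ (Real.exp_pos _).le
        (fun i => Real.exp_le_exp.mpr (neg_le_neg (hsum_le j i))) v)
      (A t) Bd v0 γ hv0 hγ hsγ (by linarith) hIs.cutA hIs.cutB hIs.onA hIs.offA
    have h2 := hfw.2 (ss j) (hss j) ?_
    · have hAA : AA j = fs q (A t) := by simp [AA, hj, ht]
      have hBB : BB j = fs q {m : ℤ | m - n t ∈ A t} := by simp [BB, hj, ht]
      have h3 : chain E AA ss (j + 1) = (chain E AA ss j).map (scal (AA j) (ss j)) :=
        chain_succ E AA ss j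
      rw [h3, hAA, hBB]
      have h4 : chain E AA ss j = E.map
        (mulD (fun m => Real.exp (-(∑ i ∈ range j, if m ∈ AA i then ss i else 0)))) := rfl
      rw [h4]
      linarith
    · have : ss j = s * co t := by simp [ss, hj, ht]
      rw [this]
      calc s * co t ≤ s * 1 := mul_le_mul_of_nonneg_left (hco1 t) hs
        _ ≤ γ / 4 := by rw [mul_one]; exact hs4

end Seq

/-- the coefficients of the base sets sum up to `D + 1` -/
theorem sum_bcoef (hD : 1 ≤ D) (hK1 : 1 ≤ K) : ∑ j : BIdx D K, bcoef D K j = D + 1 := by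
  rw [Fintype.sum_sum_type]
  simp only [bcoef, Finset.sum_const, Finset.card_univ, Fintype.card_fin, Fintype.card_prod,
    Fintype.card_bool, nsmul_eq_mul, mul_one]
  have h1 : ((D - 1 : ℕ) : ℝ) = D - 1 := by
    rw [Nat.cast_sub hD]; simp
  have h2 : (K : ℝ) ≠ 0 := by exact_mod_cast (by omega : K ≠ 0)
  rw [h1]
  push_cast
  field_simp
  ring

/-- A2: the diagonals of `E` and `e^{-s g} E` are `ℓ¹`-close. -/
theorem seq_base (hlD : D * l = Mb b0) (hK1 : 1 ≤ K)
    (E : Submodule ℂ (EuclideanSpace ℂ (Fin q))) {V β φ cs d s : ℝ}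
    (hγ : 0 < c b0 - e b0) (hd : 0 ≤ d)
    (hβ : 0 ≤ φ + (10 * Real.exp (-(c b0 - e b0) / 4) * q + d + β * q))
    (hcs : V + 5 * (c b0 - e b0) + 10 ≤ cs) (hs : 0 ≤ s)
    (hsγ : 8 * (s * (D + 1)) ≤ c b0 - e b0)
    (hBd : ∀ j : BIdx D K, ∃ (Bd : Finset (Fin q)) (v0 : ℝ), 0 ≤ v0 ∧ v0 ≤ V ∧
      IsBd (fun i : Fin q => win lev b0 l ((i : ℕ) : ℤ)) u (bshift b0 l D K j)
        (bset w lev b0 l D K j) v0 (c b0 - e b0) Bd ∧ (Bd.card : ℝ) ≤ β * q)
    (hE3 : ∀ j : BIdx D K, ∃ E' : Submodule ℂ (EuclideanSpace ℂ (Fin q)),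
      AppInv E E' u (bshift b0 l D K j) (Real.exp (-cs)) d)
    (hflux : ∀ j : BIdx D K, flux (dg E) (bset w lev b0 l D K j) (bshift b0 l D K j) ≤ φ) :
    ∑ i, |dg (E.map (mulD (fun i : Fin q =>
        Real.exp (-(s * gfun w lev b0 l K ((i : ℕ) : ℤ)))))) i - dg E i| ≤
      3 ^ (Fintype.card (BIdx D K)) *
        (φ + (10 * Real.exp (-(c b0 - e b0) / 4) * q + d + β * q)) := by
  have hD : 1 ≤ D := Orb.D_pos hlD
  have hDr : (1 : ℝ) ≤ D := by exact_mod_cast hD
  have h1 := seq_family E u (fun i : Fin q => win lev b0 l ((i : ℕ) : ℤ))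
    (bset w lev b0 l D K) (bshift b0 l D K) (bcoef D K)
    (fun j => by
      rcases j with i | ks
      · exact zero_le_one
      · simp only [bcoef]; positivity)
    (fun j => by
      rcases j with i | ks
      · exact le_rfl
      · simp only [bcoef]
        rw [div_le_one (by exact_mod_cast hK1)]
        exact_mod_cast hK1)
    (D + 1) (sum_bcoef hD hK1).le hγ hd hβ hcs hs hsγ (by nlinarith) hBd hE3 hflux
  have h2 : (fun i : Fin q => Real.exp (-(s * gfun w lev b0 l K ((i : ℕ) : ℤ)))) =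
      (fun i : Fin q => Real.exp (-(s * ∑ j, bcoef D K j *
        ind (bset w lev b0 l D K j) ((i : ℕ) : ℤ)))) := by
    funext i
    rw [Orb.gfun_eq_sum hlD]
  rw [h2]
  exact h1

end Crest.Agent.R113.SeqApp
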