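import Crest.Agent.R113.FD.StructCore

/-!
R113 / T5 : the structure lemma (C), subspace form.
-/

set_option autoImplicit false
set_option linter.unusedSectionVars false

open scoped MatrixOrder ComplexOrder InnerProductSpace
open Matrix Module

namespace Crest.Agent.R113.FD.Struct

section abstract_part

variable {E : Type*} [NormedAddCommGroup E] [InnerProductSpace ℂ E] [FiniteDimensional ℂ E]

/-- compression of an operator to a subspace -/
noncomputable def cmp (X : Submodule ℂ E) (A : E →ₗ[ℂ] E) : X →ₗ[ℂ] X :=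
  (X.orthogonalProjectionOnto : E →ₗ[ℂ] X) ∘ₗ A ∘ₗ X.subtype

theorem inner_cmp (X : Submodule ℂ E) (A : E →ₗ[ℂ] E) (x y : X) :
    ⟪x, cmp X A y⟫_ℂ = ⟪(x : E), A y⟫_ℂ := by
  unfold cmp
  simp only [LinearMap.comp_apply, Submodule.subtype_apply, ContinuousLinearMap.coe_coe]
  rw [Submodule.coe_inner]
  have : ⟪(x : E), A y - (X.orthogonalProjectionOnto (A y) : E)⟫_ℂ = 0 := by
    have h := Submodule.sub_starProjection_mem_orthogonal (K := X) (A y)
    exact (Submodule.mem_orthogonal X _).1 h x x.2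
  rw [inner_sub_right, sub_eq_zero] at this
  exact this.symm

theorem cmp_symm (X : Submodule ℂ E) {A : E →ₗ[ℂ] E} (hA : A.IsSymmetric) :
    (cmp X A).IsSymmetric := by
  intro x y
  rw [inner_cmp, ← inner_conj_symm, inner_cmp, inner_conj_symm]
  exact hA x y

theorem trace_cmp (X : Submodule ℂ E) (A : E →ₗ[ℂ] E) :
    LinearMap.trace ℂ X (cmp X A) = LinearMap.trace ℂ E ((X.starProjection : E →ₗ[ℂ] E) ∘ₗ A) := by
  unfold cmp
  rw [LinearMap.trace_comp_comm']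
  rw [LinearMap.comp_assoc, LinearMap.trace_comp_comm' A]
  rfl

/-- spectral subspace of the compression, complementary form -/
theorem exists_sub_le (X : Submodule ℂ E) (A : E →ₗ[ℂ] E)
    (hA : ∀ x y, ⟪A x, y⟫_ℂ = ⟪x, A y⟫_ℂ) (hpos : ∀ v, 0 ≤ (⟪v, A v⟫_ℂ).re) :
    ∃ X' : Submodule ℂ E, X' ≤ X ∧
      (finrank ℂ X : ℝ) ≤ finrank ℂ X' +
        2 * (LinearMap.trace ℂ E ((X.starProjection : E →ₗ[ℂ] E) ∘ₗ A)).re ∧
      ∀ v ∈ X', (⟪v, A v⟫_ℂ).re ≤ 1 / 2 * ‖v‖ ^ 2 := by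
  classical
  set T := cmp X A with hT
  have hTs : T.IsSymmetric := cmp_symm X hA
  set n := finrank ℂ X with hn
  set b := hTs.eigenvectorBasis hn.symm with hb
  set lam := hTs.eigenvalues hn.symm with hlam
  have hTb : ∀ i, T (b i) = ((lam i : ℝ) : ℂ) • b i := fun i => hTs.apply_eigenvectorBasis hn.symm i
  have hlam0 : ∀ i, 0 ≤ lam i := by
    intro i
    have h1 := hpos (b i : E)
    rw [← inner_cmp X A (b i) (b i), ← hT, hTb i, inner_smul_right] at h1
    have h2 : ⟪b i, b i⟫_ℂ = 1 := by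
      rw [inner_self_eq_norm_sq_to_K, b.norm_eq_one]; simp
    rw [h2] at h1
    simpa using h1
  have hexp : ∀ x : X, (⟪x, T x⟫_ℂ).re = ∑ i, lam i * ‖b.repr x i‖ ^ 2 := by
    intro x
    have h1 : ⟪x, T x⟫_ℂ = ∑ i, ⟪x, b i⟫_ℂ * ⟪b i, T x⟫_ℂ := (b.sum_inner_mul_inner x (T x)).symm
    rw [h1, Complex.re_sum]
    refine Finset.sum_congr rfl fun i _ => ?_
    have h2 : ⟪b i, T x⟫_ℂ = (lam i : ℂ) * ⟪b i, x⟫_ℂ := by
      rw [← hTs (b i) x, hTb i, inner_smul_left]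
      simp
    rw [h2, b.repr_apply_apply]
    have h3 : ⟪x, b i⟫_ℂ * ((lam i : ℂ) * ⟪b i, x⟫_ℂ) = ((lam i * ‖⟪b i, x⟫_ℂ‖ ^ 2 : ℝ) : ℂ) := by
      rw [← inner_conj_symm x (b i)]
      have : (starRingEnd ℂ) ⟪b i, x⟫_ℂ * ⟪b i, x⟫_ℂ = ((‖⟪b i, x⟫_ℂ‖ ^ 2 : ℝ) : ℂ) := by
        rw [mul_comm, Complex.mul_conj, Complex.normSq_eq_norm_sq]
      calc (starRingEnd ℂ) ⟪b i, x⟫_ℂ * ((lam i : ℂ) * ⟪b i, x⟫_ℂ)
          = (lam i : ℂ) * ((starRingEnd ℂ) ⟪b i, x⟫_ℂ * ⟪b i, x⟫_ℂ) := by ring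
        _ = _ := by rw [this]; push_cast; ring
    rw [h3, Complex.ofReal_re]
  -- indices with large eigenvalue
  set I : Finset (Fin n) := Finset.univ.filter fun i => 1 / 2 < lam i with hI
  let φ : X →ₗ[ℂ] (I → ℂ) :=
    { toFun := fun x i => b.repr x i.1
      map_add' := by intro x y; ext i; simp
      map_smul' := by intro c x; ext i; simp }
  have hcard : (I.card : ℝ) ≤
      2 * (LinearMap.trace ℂ E ((X.starProjection : E →ₗ[ℂ] E) ∘ₗ A)).re := by
    rw [← trace_cmp, ← hT]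
    have h1 := hTs.re_trace_eq_sum_eigenvalues hn.symm
    have h2 : (LinearMap.trace ℂ X T).re = ∑ i, lam i := h1
    rw [h2]
    have h3 : ∑ i ∈ I, (1 / 2 : ℝ) ≤ ∑ i ∈ I, lam i :=
      Finset.sum_le_sum fun i hi => (Finset.mem_filter.1 hi).2.le
    have h4 : ∑ i ∈ I, lam i ≤ ∑ i, lam i :=
      Finset.sum_le_sum_of_subset_of_nonneg (Finset.subset_univ _) fun i _ _ => hlam0 i
    rw [Finset.sum_const, nsmul_eq_mul] at h3
    linarith
  refine ⟨(LinearMap.ker φ).map X.subtype, ?_, ?_, ?_⟩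
  · exact Submodule.map_subtype_le X _
  · have h1 := LinearMap.finrank_range_add_finrank_ker φ
    have h2 : finrank ℂ (LinearMap.range φ) ≤ I.card := by
      have := Submodule.finrank_le (LinearMap.range φ)
      simpa using this
    have h3 : finrank ℂ ((LinearMap.ker φ).map X.subtype) = finrank ℂ (LinearMap.ker φ) :=
      ((Submodule.equivMapOfInjective X.subtype (Submodule.injective_subtype X) _).finrank_eq).symm
    rw [h3]
    have h4 : (finrank ℂ X : ℝ) ≤ I.card + finrank ℂ (LinearMap.ker φ) := by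
      have : finrank ℂ X ≤ I.card + finrank ℂ (LinearMap.ker φ) := by omega
      exact_mod_cast this
    rw [← hn] at h4
    linarith
  · rintro v ⟨x, hx, rfl⟩
    have h1 : (⟪(x : E), A x⟫_ℂ).re = ∑ i, lam i * ‖b.repr x i‖ ^ 2 := by
      rw [← inner_cmp, ← hT, hexp]
    rw [Submodule.subtype_apply, h1]
    have h2 : ‖(x : E)‖ ^ 2 = ∑ i, ‖b.repr x i‖ ^ 2 := by
      have : ‖(x : E)‖ = ‖x‖ := rfl
      rw [this, ← b.repr.norm_map x, EuclideanSpace.norm_sq_eq]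
    rw [h2, Finset.mul_sum]
    refine Finset.sum_le_sum fun i _ => ?_
    by_cases hi : 1 / 2 < lam i
    · have h0 : b.repr x i = 0 := by
        have := congrFun (LinearMap.mem_ker.1 hx) ⟨i, Finset.mem_filter.2 ⟨Finset.mem_univ _, hi⟩⟩
        exact this
      rw [h0]; simp
    · push Not at hi
      exact mul_le_mul_of_nonneg_right hi (by positivity)

end abstract_part

variable {ι β : Type*} [Fintype ι] [DecidableEq ι] [DecidableEq β]

/-- the operator of a matrix -/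
noncomputable abbrev op (M : Matrix ι ι ℂ) : EuclideanSpace ℂ ι →L[ℂ] EuclideanSpace ℂ ι :=
  toEuclideanCLM (n := ι) (𝕜 := ℂ) M

theorem op_mul_apply (M N : Matrix ι ι ℂ) (v : EuclideanSpace ℂ ι) :
    op (M * N) v = op M (op N v) := by
  rw [op, map_mul]; rfl

theorem op_add_apply (M N : Matrix ι ι ℂ) (v : EuclideanSpace ℂ ι) :
    op (M + N) v = op M v + op N v := by
  rw [op, map_add]; rfl

theorem op_sub_apply (M N : Matrix ι ι ℂ) (v : EuclideanSpace ℂ ι) :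
    op (M - N) v = op M v - op N v := by
  rw [op, map_sub]; rfl

theorem op_one_apply (v : EuclideanSpace ℂ ι) : op (1 : Matrix ι ι ℂ) v = v := by
  rw [op, map_one]; rfl

theorem op_zero_apply (v : EuclideanSpace ℂ ι) : op (0 : Matrix ι ι ℂ) v = 0 := by
  rw [op, map_zero]; rfl

theorem op_smul_apply (c : ℂ) (M : Matrix ι ι ℂ) (v : EuclideanSpace ℂ ι) :
    op (c • M) v = c • op M v := by
  rw [op, map_smul]; rfl

theorem trace_op (M : Matrix ι ι ℂ) :
    LinearMap.trace ℂ (EuclideanSpace ℂ ι)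
      (op M : EuclideanSpace ℂ ι →ₗ[ℂ] EuclideanSpace ℂ ι) = M.trace := by
  have := Matrix.trace_toLin_eq M (EuclideanSpace.basisFun ι ℂ).toBasis
  rw [← this]
  congr 1

theorem finrank_of_proj {P : Matrix ι ι ℂ} {X : Submodule ℂ (EuclideanSpace ℂ ι)}
    (hX : op P = X.starProjection) : (finrank ℂ X : ℝ) = trR P := by
  have h1 : LinearMap.IsProj X
      (X.starProjection : EuclideanSpace ℂ ι →ₗ[ℂ] EuclideanSpace ℂ ι) := by
    constructor
    · intro x; exact Submodule.starProjection_apply_mem X x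
    · intro x hx; exact Submodule.starProjection_eq_self_iff.2 hx
  have h2 := h1.trace
  rw [← hX, trace_op] at h2
  rw [trR, h2]; simp

/-- a star projection matrix is the orthogonal projection on its range -/
theorem op_eq_starProjection {P : Matrix ι ι ℂ} (hP : IsStarProjection P) :
    op P = ((op P).range).starProjection := by
  have h : IsStarProjection (op P) := hP.map (toEuclideanCLM (n := ι) (𝕜 := ℂ))
  obtain ⟨_, h2⟩ := isStarProjection_iff_eq_starProjection_range.1 h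
  exact h2

/-- entries of the projection -/
theorem inner_op_single (M : Matrix ι ι ℂ) (i j : ι) :
    ⟪EuclideanSpace.single i (1 : ℂ), op M (EuclideanSpace.single j (1 : ℂ))⟫_ℂ = M i j := by
  rw [EuclideanSpace.inner_single_left]
  simp [op, ofLp_toEuclideanCLM]

theorem proj_symm {G : Matrix ι ι ℂ} (hG : IsStarProjection G) (x y : EuclideanSpace ℂ ι) :
    ⟪op G x, y⟫_ℂ = ⟪x, op G y⟫_ℂ := by
  have : IsStarProjection (op G) := hG.map (toEuclideanCLM (n := ι) (𝕜 := ℂ))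
  exact ContinuousLinearMap.isSelfAdjoint_iff_isSymmetric.1 this.isSelfAdjoint x y

theorem proj_inner {G : Matrix ι ι ℂ} (hG : IsStarProjection G) (v : EuclideanSpace ℂ ι) :
    ⟪v, op G v⟫_ℂ = ((‖op G v‖ ^ 2 : ℝ) : ℂ) := by
  have h3 := proj_symm hG v (op G v)
  rw [← op_mul_apply, hG.isIdempotentElem.eq] at h3
  rw [← h3, inner_self_eq_norm_sq_to_K]
  push_cast; rfl

/-- codimension of the kernel of a projection -/
theorem finrank_inf_ker {G : Matrix ι ι ℂ} (hG : IsStarProjection G)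
    (X : Submodule ℂ (EuclideanSpace ℂ ι)) :
    (finrank ℂ X : ℝ) ≤ finrank ℂ (X ⊓ LinearMap.ker
      (op G : EuclideanSpace ℂ ι →ₗ[ℂ] EuclideanSpace ℂ ι) : Submodule ℂ (EuclideanSpace ℂ ι)) +
        trR G := by
  set K : Submodule ℂ (EuclideanSpace ℂ ι) := LinearMap.ker
      (op G : EuclideanSpace ℂ ι →ₗ[ℂ] EuclideanSpace ℂ ι) with hK
  have hrk : (finrank ℂ (LinearMap.range (op G : EuclideanSpace ℂ ι →ₗ[ℂ] EuclideanSpace ℂ ι)) : ℝ)
      = trR G := finrank_of_proj (op_eq_starProjection hG)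
  have hrn := LinearMap.finrank_range_add_finrank_ker
    (op G : EuclideanSpace ℂ ι →ₗ[ℂ] EuclideanSpace ℂ ι)
  have hinf := Submodule.finrank_sup_add_finrank_inf_eq X K
  have hsupe : finrank ℂ (X ⊔ K : Submodule ℂ (EuclideanSpace ℂ ι)) ≤
      finrank ℂ (EuclideanSpace ℂ ι) := Submodule.finrank_le _
  rw [← hrk]
  have : finrank ℂ X ≤ finrank ℂ (X ⊓ K : Submodule ℂ (EuclideanSpace ℂ ι)) +
      finrank ℂ (LinearMap.range (op G : EuclideanSpace ℂ ι →ₗ[ℂ] EuclideanSpace ℂ ι)) := by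
    rw [← hK] at hrn
    omega
  exact_mod_cast this

/-- the vector computation -/
theorem vec_bound (w : ℝ) (S' F F0 Fm : Matrix ι ι ℂ)
    (hF : IsStarProjection F) (hsum : F + F0 + Fm = 1) (hFFm : F * Fm = 0)
    (hS'F : S' * F = (Real.exp w : ℂ) • F) (hS'Fm : S' * Fm = Fm)
    (XF : Submodule ℂ (EuclideanSpace ℂ ι)) (hXF : op F = XF.starProjection)
    (u : EuclideanSpace ℂ ι) (huK : op F0 u = 0)
    (hu : ‖op (1 - F) u‖ ^ 2 ≤ 1 / 2 * ‖u‖ ^ 2) :
    ‖op S' u - XF.starProjection (op S' u)‖ ≤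
      Real.exp (-w) * ‖XF.starProjection (op S' u)‖ := by
  have hdec : u = op F u + op Fm u := by
    have h3 : op (F + F0 + Fm) u = u := by rw [hsum, op_one_apply]
    rw [op_add_apply, op_add_apply, huK, add_zero] at h3
    exact h3.symm
  have hGu : op (1 - F) u = op Fm u := by
    rw [op_sub_apply, op_one_apply]
    nth_rewrite 1 [hdec]; abel
  have hnG : ‖op Fm u‖ ^ 2 ≤ 1 / 2 * ‖u‖ ^ 2 := by
    rw [hGu] at hu
    exact hu
  have hpyth : ‖u‖ ^ 2 = ‖op F u‖ ^ 2 + ‖op Fm u‖ ^ 2 := by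
    have h3 : ‖u‖ ^ 2 = ‖XF.starProjection u‖ ^ 2 + ‖XFᗮ.starProjection u‖ ^ 2 :=
      Submodule.norm_sq_eq_add_norm_sq_starProjection u XF
    have h4 : XFᗮ.starProjection u = op Fm u := by
      rw [← hGu, op_sub_apply, op_one_apply, hXF]
      exact Submodule.starProjection_orthogonal_val u
    rw [h4, ← hXF] at h3
    exact h3
  have hle : ‖op Fm u‖ ≤ ‖op F u‖ := by
    have h3 : ‖op Fm u‖ ^ 2 ≤ ‖op F u‖ ^ 2 := by linarith
    exact (sq_le_sq₀ (norm_nonneg _) (norm_nonneg _)).1 h3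
  have hv : op S' u = (Real.exp w : ℂ) • op F u + op Fm u := by
    conv_lhs => rw [hdec]
    rw [map_add, ← op_mul_apply, ← op_mul_apply, hS'F, hS'Fm, op_smul_apply]
  have hFv : op F (op S' u) = (Real.exp w : ℂ) • op F u := by
    rw [hv, map_add, map_smul, ← op_mul_apply, ← op_mul_apply, hF.isIdempotentElem.eq, hFFm,
      op_zero_apply, add_zero]
  rw [← hXF, hFv, hv, add_sub_cancel_left, norm_smul]
  have h3 : ‖(Real.exp w : ℂ)‖ = Real.exp w := by
    rw [Complex.norm_real, Real.norm_eq_abs, abs_of_pos (Real.exp_pos _)]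
  rw [h3, ← mul_assoc, ← Real.exp_add]
  simpa using hle

theorem trace_pj_comp (P G : Matrix ι ι ℂ) (X : Submodule ℂ (EuclideanSpace ℂ ι))
    (hX : op P = X.starProjection) :
    (LinearMap.trace ℂ (EuclideanSpace ℂ ι)
      ((X.starProjection : EuclideanSpace ℂ ι →ₗ[ℂ] EuclideanSpace ℂ ι) ∘ₗ
        (op G : EuclideanSpace ℂ ι →ₗ[ℂ] EuclideanSpace ℂ ι))).re = trR (P * G) := by
  have h : ((X.starProjection : EuclideanSpace ℂ ι →ₗ[ℂ] EuclideanSpace ℂ ι) ∘ₗ
        (op G : EuclideanSpace ℂ ι →ₗ[ℂ] EuclideanSpace ℂ ι)) =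
      (op (P * G) : EuclideanSpace ℂ ι →ₗ[ℂ] EuclideanSpace ℂ ι) := by
    ext v
    simp only [LinearMap.comp_apply, ContinuousLinearMap.coe_coe]
    rw [op_mul_apply, hX]
  rw [h, trace_op, trR]

/-- spectral subspace for a projection matrix `G` -/
theorem exists_sub_proj (P G : Matrix ι ι ℂ) (hG : IsStarProjection G)
    (X1 : Submodule ℂ (EuclideanSpace ℂ ι)) (hX1 : op P = X1.starProjection) :
    ∃ X' : Submodule ℂ (EuclideanSpace ℂ ι), X' ≤ X1 ∧
      (finrank ℂ X1 : ℝ) ≤ finrank ℂ X' + 2 * trR (P * G) ∧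
      ∀ u ∈ X', ‖op G u‖ ^ 2 ≤ 1 / 2 * ‖u‖ ^ 2 := by
  obtain ⟨X', hX'le, hX'dim, hX'⟩ := exists_sub_le X1
    (op G : EuclideanSpace ℂ ι →ₗ[ℂ] EuclideanSpace ℂ ι) (proj_symm hG) (by
      intro v
      have := proj_inner hG v
      rw [ContinuousLinearMap.coe_coe, this, Complex.ofReal_re]; positivity)
  rw [trace_pj_comp P G X1 hX1] at hX'dim
  refine ⟨X', hX'le, hX'dim, ?_⟩
  intro u hu
  have h := hX' u hu
  rw [ContinuousLinearMap.coe_coe, proj_inner hG u, Complex.ofReal_re] at h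
  exact h

/-- selection of the subspace `E2` (before applying `S'`) -/
theorem exists_good (win : ι → β) (P F F0 Fm : Matrix ι ι ℂ)
    (hP : IsStarProjection P) (hF : IsStarProjection F) (hF0 : IsStarProjection F0)
    (hFm : IsStarProjection Fm) (hsum : F + F0 + Fm = 1)
    (hwF : ∀ m m', win m ≠ win m' → F m m' = 0)
    (h1 : (1 / 2 : ℂ) • F ≤ F * comp win P) (h0 : F0 * comp win P = (1 / 2 : ℂ) • F0)
    (h2 : Fm * comp win P ≤ (1 / 2 : ℂ) • Fm)
    (X1 : Submodule ℂ (EuclideanSpace ℂ ι)) (hX1 : op P = X1.starProjection) :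
    ∃ Y : Submodule ℂ (EuclideanSpace ℂ ι), Y ≤ X1 ∧
      (finrank ℂ X1 : ℝ) ≤ finrank ℂ Y + 8 * offW win P ∧
      ∀ u ∈ Y, op F0 u = 0 ∧ ‖op (1 - F) u‖ ^ 2 ≤ 1 / 2 * ‖u‖ ^ 2 := by
  obtain ⟨c0, c1, c2, c3⟩ := core win P F F0 Fm hP hF hF0 hFm hsum hwF h1 h0 h2
  obtain ⟨X', hX'le, hX'dim, hX'⟩ := exists_sub_proj P (1 - F) hF.one_sub X1 hX1
  have hdimi := finrank_inf_ker hF0 X'
  refine ⟨X' ⊓ LinearMap.ker (op F0 : EuclideanSpace ℂ ι →ₗ[ℂ] EuclideanSpace ℂ ι),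
    inf_le_left.trans hX'le, by linarith, ?_⟩
  intro u hu
  exact ⟨LinearMap.mem_ker.1 hu.2, hX' u hu.1⟩

/-- The structure lemma (C). -/
theorem struct_matrix (win : ι → β) (w : ℝ) (S S' P F F0 Fm : Matrix ι ι ℂ)
    (hS'S : S' * S = 1)
    (hP : IsStarProjection P) (hF : IsStarProjection F) (hF0 : IsStarProjection F0)
    (hFm : IsStarProjection Fm) (hsum : F + F0 + Fm = 1) (hFFm : F * Fm = 0)
    (hwF : ∀ m m', win m ≠ win m' → F m m' = 0)
    (hSF : S * F = (Real.exp (-w) : ℂ) • F) (hSFm : S * Fm = Fm)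
    (h1 : (1 / 2 : ℂ) • F ≤ F * comp win P) (h0 : F0 * comp win P = (1 / 2 : ℂ) • F0)
    (h2 : Fm * comp win P ≤ (1 / 2 : ℂ) • Fm)
    (X1 XF : Submodule ℂ (EuclideanSpace ℂ ι)) (hX1 : op P = X1.starProjection)
    (hXF : op F = XF.starProjection) :
    (finrank ℂ XF : ℝ) ≤ finrank ℂ X1 + 2 * offW win P ∧
    (finrank ℂ X1 : ℝ) ≤ finrank ℂ XF + 2 * offW win P ∧
    ∃ E2 : Submodule ℂ (EuclideanSpace ℂ ι),
      E2 ≤ X1.map (op S' : EuclideanSpace ℂ ι →ₗ[ℂ] EuclideanSpace ℂ ι) ∧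
      (finrank ℂ X1 : ℝ) ≤ finrank ℂ E2 + 8 * offW win P ∧
      ∀ v ∈ E2, ‖v - XF.starProjection v‖ ≤ Real.exp (-w) * ‖XF.starProjection v‖ := by
  obtain ⟨c0, c1, c2, c3⟩ := core win P F F0 Fm hP hF hF0 hFm hsum hwF h1 h0 h2
  obtain ⟨Y, hYle, hYdim, hY⟩ := exists_good win P F F0 Fm hP hF hF0 hFm hsum hwF h1 h0 h2 X1 hX1
  -- injectivity of S'
  have hSS'0 : S * S' = 1 := mul_eq_one_comm.1 hS'S
  have hinj : Function.Injective (op S' : EuclideanSpace ℂ ι →ₗ[ℂ] EuclideanSpace ℂ ι) := by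
    intro x y hxy
    have h4 : op S' x = op S' y := hxy
    have h3 : op S (op S' x) = op S (op S' y) := by rw [h4]
    rwa [← op_mul_apply, ← op_mul_apply, hSS'0, op_one_apply, op_one_apply] at h3
  have hS'F : S' * F = (Real.exp w : ℂ) • F := by
    have h3 : S' * (S * F) = S' * ((Real.exp (-w) : ℂ) • F) := by rw [hSF]
    rw [← Matrix.mul_assoc, hS'S, one_mul, mul_smul_comm] at h3
    have h4 : (Real.exp w : ℂ) • F = (Real.exp w : ℂ) • ((Real.exp (-w) : ℂ) • (S' * F)) := by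
      rw [← h3]
    rw [h4, smul_smul, ← Complex.ofReal_mul, ← Real.exp_add]
    simp
  have hS'Fm : S' * Fm = Fm := by
    have h3 : S' * (S * Fm) = S' * Fm := by rw [hSFm]
    rw [← Matrix.mul_assoc, hS'S, one_mul] at h3
    exact h3.symm
  have hdim : (finrank ℂ X1 : ℝ) ≤
      finrank ℂ (Y.map (op S' : EuclideanSpace ℂ ι →ₗ[ℂ] EuclideanSpace ℂ ι)) +
        8 * offW win P := by
    have h3 : finrank ℂ (Y.map (op S' : EuclideanSpace ℂ ι →ₗ[ℂ] EuclideanSpace ℂ ι)) =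
        finrank ℂ Y := ((Submodule.equivMapOfInjective _ hinj _).finrank_eq).symm
    rw [h3]; exact hYdim
  refine ⟨?_, ?_, Y.map (op S' : EuclideanSpace ℂ ι →ₗ[ℂ] EuclideanSpace ℂ ι),
    Submodule.map_mono hYle, hdim, ?_⟩
  · rw [finrank_of_proj hX1, finrank_of_proj hXF]; linarith
  · rw [finrank_of_proj hX1, finrank_of_proj hXF]; linarith
  · intro v hv
    obtain ⟨u, hu, rfl⟩ := Submodule.mem_map.1 hv
    exact vec_bound w S' F F0 Fm hF hsum hFFm hS'F hS'Fm XF hXF u (hY u hu).1 (hY u hu).2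

end Crest.Agent.R113.FD.Struct
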