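import Mathlib

/-!
R113 / T5, part 1: the matrix core of the structure lemma (C).
`P` a projection matrix, `R` its window compression, `F, F0, Fm` the sign projections of `R - 1/2`.
-/

set_option autoImplicit false
set_option linter.unusedSectionVars false

open scoped MatrixOrder ComplexOrder
open Matrix

namespace Crest.Agent.R113.FD.Struct

variable {ι β : Type*} [Fintype ι] [DecidableEq ι] [DecidableEq β]

/-- real part of the trace -/
noncomputable def trR (A : Matrix ι ι ℂ) : ℝ := A.trace.re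

/-- the off-window mass of `P` -/
noncomputable def offW (win : ι → β) (P : Matrix ι ι ℂ) : ℝ :=
  ∑ m, ∑ m', if win m = win m' then 0 else ‖P m m'‖ ^ 2

theorem trR_add (A B : Matrix ι ι ℂ) : trR (A + B) = trR A + trR B := by
  simp [trR, Matrix.trace_add]

theorem trR_sub (A B : Matrix ι ι ℂ) : trR (A - B) = trR A - trR B := by
  simp [trR, Matrix.trace_sub]

theorem trR_smul (c : ℝ) (A : Matrix ι ι ℂ) : trR ((c : ℂ) • A) = c * trR A := by
  simp [trR, Matrix.trace_smul]

theorem trR_half (A : Matrix ι ι ℂ) : trR ((1 / 2 : ℂ) • A) = 1 / 2 * trR A := by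
  have : (1 / 2 : ℂ) = ((1 / 2 : ℝ) : ℂ) := by push_cast; ring
  rw [this, trR_smul]

/-- trace of a product of two positive semidefinite matrices is nonnegative -/
theorem trR_mul_nonneg {A B : Matrix ι ι ℂ} (hA : A.PosSemidef) (hB : B.PosSemidef) :
    0 ≤ trR (A * B) := by
  have hA' : 0 ≤ A := hA.nonneg
  set C := CFC.sqrt A with hCdef
  have hC : C * C = A := CFC.sqrt_mul_sqrt_self A hA'
  have hCh : Cᴴ = C := (CFC.sqrt_nonneg A).isSelfAdjoint
  have h1 : (A * B).trace = (C * B * Cᴴ).trace := by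
    rw [hCh, ← hC, Matrix.mul_assoc, Matrix.trace_mul_comm C, Matrix.mul_assoc]
  have h2 : (C * B * Cᴴ).PosSemidef := hB.mul_mul_conjTranspose_same C
  have h3 : 0 ≤ (C * B * Cᴴ).trace := h2.trace_nonneg
  unfold trR
  rw [h1]
  exact (Complex.le_def.1 h3).1

/-- the window compression -/
def comp (win : ι → β) (P : Matrix ι ι ℂ) : Matrix ι ι ℂ :=
  Matrix.of fun m m' => if win m = win m' then P m m' else 0

theorem comp_apply (win : ι → β) (P : Matrix ι ι ℂ) (m m' : ι) :
    comp win P m m' = if win m = win m' then P m m' else 0 := rfl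

theorem comp_eq_sum (win : ι → β) (P : Matrix ι ι ℂ) :
    comp win P = ∑ b ∈ Finset.univ.image win,
      (Matrix.diagonal fun m => if win m = b then (1 : ℂ) else 0)ᴴ * P *
        (Matrix.diagonal fun m => if win m = b then (1 : ℂ) else 0) := by
  ext m m'
  rw [Matrix.sum_apply]
  simp only [comp_apply, Matrix.diagonal_conjTranspose, Matrix.mul_diagonal, Matrix.diagonal_mul]
  have : ∀ b, star (fun m => if win m = b then (1 : ℂ) else 0) m * P m m' *
      (if win m' = b then (1 : ℂ) else 0) =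
      if b = win m then (if win m = win m' then P m m' else 0) else 0 := by
    intro b
    by_cases h1 : win m = b
    · subst h1
      by_cases h2 : win m' = win m
      · simp [h2, Pi.star_apply]
      · have h3 : ¬ (win m = win m') := fun h => h2 h.symm
        simp [h2, h3, Pi.star_apply]
    · have h2 : ¬ (b = win m) := fun h => h1 h.symm
      simp [h1, h2, Pi.star_apply]
  simp only [this]
  rw [Finset.sum_ite_eq' (Finset.univ.image win) (win m)]
  simp

theorem comp_posSemidef (win : ι → β) {P : Matrix ι ι ℂ} (hP : P.PosSemidef) :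
    (comp win P).PosSemidef := by
  rw [comp_eq_sum]
  exact Matrix.posSemidef_sum _ (fun b _ => hP.conjTranspose_mul_mul_same _)

theorem comp_one (win : ι → β) : comp win (1 : Matrix ι ι ℂ) = 1 := by
  ext m m'
  rw [comp_apply, Matrix.one_apply]
  by_cases h : m = m'
  · subst h; simp
  · simp [h]

theorem comp_sub (win : ι → β) (A B : Matrix ι ι ℂ) : comp win (A - B) = comp win A - comp win B := by
  ext m m'
  simp only [comp_apply, Matrix.sub_apply]
  split_ifs <;> simp

theorem trR_comp (win : ι → β) (P : Matrix ι ι ℂ) : trR (comp win P) = trR P := by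
  simp [trR, Matrix.trace, comp_apply]

/-- `tr (P G) = tr (R G)` for window-block-diagonal `G` -/
theorem trR_mul_win (win : ι → β) (P G : Matrix ι ι ℂ)
    (hG : ∀ m m', win m ≠ win m' → G m m' = 0) : trR (P * G) = trR (comp win P * G) := by
  unfold trR
  congr 1
  simp only [Matrix.trace, Matrix.diag_apply, Matrix.mul_apply]
  refine Finset.sum_congr rfl fun m _ => Finset.sum_congr rfl fun m' _ => ?_
  rw [comp_apply]
  split_ifs with h
  · rfl
  · rw [hG m' m (fun h' => h h'.symm)]; ring

theorem trR_sq_of_isHermitian {A : Matrix ι ι ℂ} (hA : A.IsHermitian) :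
    trR (A * A) = ∑ m, ∑ m', ‖A m m'‖ ^ 2 := by
  unfold trR
  simp only [Matrix.trace, Matrix.diag_apply, Matrix.mul_apply, Complex.re_sum]
  refine Finset.sum_congr rfl fun m _ => Finset.sum_congr rfl fun m' _ => ?_
  have : A m' m = star (A m m') := by
    rw [← Matrix.conjTranspose_apply, hA.eq]
  rw [this]
  rw [Complex.star_def, Complex.mul_conj, Complex.ofReal_re, Complex.normSq_eq_norm_sq]

/-- `tr (R - R²) = Off(P)` -/
theorem trR_comp_sub_sq (win : ι → β) {P : Matrix ι ι ℂ} (hP : IsStarProjection P) :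
    trR (comp win P - comp win P * comp win P) = offW win P := by
  have hPh : P.IsHermitian := hP.isSelfAdjoint
  have hRh : (comp win P).IsHermitian := by
    ext m m'
    rw [Matrix.conjTranspose_apply, comp_apply, comp_apply]
    by_cases h : win m = win m'
    · rw [if_pos h, if_pos h.symm, ← Matrix.conjTranspose_apply, hPh.eq]
    · rw [if_neg h, if_neg (fun h' => h h'.symm)]; simp
  have h1 : trR (comp win P) = ∑ m, ∑ m', ‖P m m'‖ ^ 2 := by
    rw [trR_comp, ← trR_sq_of_isHermitian hPh]
    congr 1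
    exact hP.isIdempotentElem.symm
  rw [trR_sub, h1, trR_sq_of_isHermitian hRh, ← Finset.sum_sub_distrib]
  unfold offW
  refine Finset.sum_congr rfl fun m _ => ?_
  rw [← Finset.sum_sub_distrib]
  refine Finset.sum_congr rfl fun m' _ => ?_
  rw [comp_apply]
  split_ifs <;> simp

theorem psd_of_proj {P : Matrix ι ι ℂ} (hP : IsStarProjection P) : P.PosSemidef := by
  have h : P = Pᴴ * P := by
    have h1 : Pᴴ = P := hP.isSelfAdjoint
    rw [h1]; exact hP.isIdempotentElem.symm
  rw [h]
  exact Matrix.posSemidef_conjTranspose_mul_self P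

theorem psd_one_sub_of_proj {P : Matrix ι ι ℂ} (hP : IsStarProjection P) : (1 - P).PosSemidef :=
  psd_of_proj hP.one_sub

/-- the matrix core of (C). -/
theorem core (win : ι → β) (P F F0 Fm : Matrix ι ι ℂ) (hP : IsStarProjection P)
    (hF : IsStarProjection F) (hF0 : IsStarProjection F0) (hFm : IsStarProjection Fm)
    (hsum : F + F0 + Fm = 1)
    (hwF : ∀ m m', win m ≠ win m' → F m m' = 0)
    (h1 : (1 / 2 : ℂ) • F ≤ F * comp win P) (h0 : F0 * comp win P = (1 / 2 : ℂ) • F0)
    (h2 : Fm * comp win P ≤ (1 / 2 : ℂ) • Fm) :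
    trR F0 ≤ 4 * offW win P ∧ trR (P * (1 - F)) ≤ 2 * offW win P ∧
      trR F - trR P ≤ 2 * offW win P ∧ trR P - trR F ≤ 2 * offW win P := by
  set R := comp win P with hR
  have hRp : R.PosSemidef := comp_posSemidef win (psd_of_proj hP)
  have hR1 : (1 - R).PosSemidef := by
    have : 1 - R = comp win (1 - P) := by rw [comp_sub, comp_one]
    rw [this]; exact comp_posSemidef win (psd_one_sub_of_proj hP)
  have a1 : (F * R - (1 / 2 : ℂ) • F).PosSemidef := h1
  have a2 : ((1 / 2 : ℂ) • Fm - Fm * R).PosSemidef := h2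
  have t1 : 0 ≤ trR ((F * R - (1 / 2 : ℂ) • F) * (1 - R)) := trR_mul_nonneg a1 hR1
  have t2 : 0 ≤ trR (((1 / 2 : ℂ) • Fm - Fm * R) * R) := trR_mul_nonneg a2 hRp
  have e1 : (F * R - (1 / 2 : ℂ) • F) * (1 - R) = F * (R - R * R) - (1 / 2 : ℂ) • (F * (1 - R)) := by
    simp only [sub_mul, mul_sub, mul_one, smul_mul_assoc, smul_sub, Matrix.mul_assoc]
    abel
  have e2 : ((1 / 2 : ℂ) • Fm - Fm * R) * R = Fm * (R - R * R) - (1 / 2 : ℂ) • (Fm * R) := by
    have : (Fm * R : Matrix ι ι ℂ) = (1 / 2 : ℂ) • (Fm * R) + (1 / 2 : ℂ) • (Fm * R) := by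
      rw [← add_smul]; norm_num
    simp only [sub_mul, mul_sub, smul_mul_assoc, Matrix.mul_assoc]
    nth_rewrite 2 [this]
    abel
  have e0 : F0 * (R - R * R) = (1 / 2 : ℂ) • ((1 / 2 : ℂ) • F0) := by
    rw [mul_sub, ← Matrix.mul_assoc, h0, smul_mul_assoc, h0, ← sub_eq_zero]
    rw [smul_smul]
    have : (1 / 2 : ℂ) • F0 = (1 / 2 * (1 / 2) : ℂ) • F0 + (1 / 2 * (1 / 2) : ℂ) • F0 := by
      rw [← add_smul]; norm_num
    nth_rewrite 1 [this]
    abel
  rw [e1, trR_sub, trR_half] at t1
  rw [e2, trR_sub, trR_half] at t2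
  have t0 : trR (F0 * (R - R * R)) = 1 / 4 * trR F0 := by
    rw [e0, trR_half, trR_half]; ring
  have p0 : 0 ≤ trR F0 := by
    have := trR_mul_nonneg (psd_of_proj hF0) (psd_of_proj hF0)
    rwa [hF0.isIdempotentElem.eq] at this
  have p1 : 0 ≤ trR (F * (1 - R)) := trR_mul_nonneg (psd_of_proj hF) hR1
  have p2 : 0 ≤ trR (Fm * R) := trR_mul_nonneg (psd_of_proj hFm) hRp
  have hoff : offW win P = trR (F * (R - R * R)) + trR (F0 * (R - R * R)) +
      trR (Fm * (R - R * R)) := by
    rw [← trR_comp_sub_sq win hP, ← trR_add, ← trR_add, ← add_mul, ← add_mul, hsum, one_mul]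
  have q0 : trR (F0 * R) = 1 / 2 * trR F0 := by rw [h0, trR_half]
  have hw1 : ∀ m m', win m ≠ win m' → (1 - F) m m' = 0 := by
    intro m m' h
    have : m ≠ m' := fun h' => h (by rw [h'])
    rw [Matrix.sub_apply, hwF m m' h, Matrix.one_apply_ne this, sub_zero]
  have q1 : trR (P * (1 - F)) = trR (F0 * R) + trR (Fm * R) := by
    rw [trR_mul_win win P (1 - F) hw1, ← trR_add]
    unfold trR
    rw [Matrix.trace_mul_comm, ← add_mul]
    congr 3
    rw [← hsum]; abel
  have q2 : trR F - trR P = trR (F * (1 - R)) - trR (P * (1 - F)) := by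
    have hc : trR (P * F) = trR (F * R) := by
      rw [trR_mul_win win P F hwF]
      unfold trR
      rw [Matrix.trace_mul_comm]
    rw [mul_sub, mul_sub, mul_one, mul_one, trR_sub, trR_sub, hc]
    ring
  refine ⟨?_, ?_, ?_, ?_⟩ <;> nlinarith

end Crest.Agent.R113.FD.Struct
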