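import Crest.Agent.R113.Basic
import Crest.Agent.R113.FD.Mono

/-!
# Row 113 (T7): window lemma (helper600)
-/

set_option autoImplicit false
set_option linter.unusedSectionVars false

namespace Crest.Agent.R113.FD

open Finset
open scoped InnerProductSpace

section general
variable {ι : Type*} [Fintype ι] [DecidableEq ι]

lemma norm_sq_le_hs (T : Op ι) (v : Ev ι) : ‖T v‖ ^ 2 ≤ hs T * ‖v‖ ^ 2 := by
  have hv : v = ∑ m, v m • (dl m : Ev ι) := by
    ext m'
    simp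
  have h1 : T v = ∑ m, v m • T (dl m) := by
    conv_lhs => rw [hv]
    rw [map_sum]
    exact Finset.sum_congr rfl fun m _ => map_smul _ _ _
  have h2 : ‖T v‖ ≤ ∑ m, ‖v m‖ * ‖T (dl m)‖ := by
    rw [h1]
    refine (norm_sum_le _ _).trans (Finset.sum_le_sum fun m _ => ?_)
    rw [norm_smul]
  calc ‖T v‖ ^ 2 ≤ (∑ m, ‖v m‖ * ‖T (dl m)‖) ^ 2 := by gcongr
    _ ≤ (∑ m, ‖v m‖ ^ 2) * ∑ m, ‖T (dl m)‖ ^ 2 := Finset.sum_mul_sq_le_sq_mul_sq _ _ _
    _ = hs T * ‖v‖ ^ 2 := by rw [norm_sq_eq_sum v, mul_comm]; rfl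

/-- an almost 0/1 diagonal forces the projection to be near a coordinate projection. -/
lemma near_coord (X : Submodule ℂ (Ev ι)) (h : ∑ m, hh X m * (1 - hh X m) ≤ 1 / 16) :
    ∃ G : Finset ι, G.card = Module.finrank ℂ X ∧ hs (pj X - cp G) ≤ 1 / 8 ∧
      ∑ m ∈ G, (1 - hh X m) ≤ 1 / 8 := by
  classical
  set G : Finset ι := Finset.univ.filter (fun m => 1 / 2 < hh X m) with hGdef
  have hG : ∀ m ∈ G, 1 - hh X m ≤ 2 * (hh X m * (1 - hh X m)) := by
    intro m hm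
    have h1 : 1 / 2 < hh X m := (Finset.mem_filter.1 hm).2
    have h2 := hh_le_one X m
    nlinarith
  have hG' : ∀ m ∈ Gᶜ, hh X m ≤ 2 * (hh X m * (1 - hh X m)) := by
    intro m hm
    have h1 : ¬ 1 / 2 < hh X m := fun hc =>
      (Finset.mem_compl.1 hm) (Finset.mem_filter.2 ⟨Finset.mem_univ _, hc⟩)
    have h2 := hh_nonneg X m
    rw [not_lt] at h1
    nlinarith
  have hsum : ∑ m ∈ G, (1 - hh X m) + ∑ m ∈ Gᶜ, hh X m ≤ 1 / 8 := by
    have h1 := Finset.sum_le_sum hG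
    have h2 := Finset.sum_le_sum hG'
    have h3 : ∑ m ∈ G, 2 * (hh X m * (1 - hh X m)) + ∑ m ∈ Gᶜ, 2 * (hh X m * (1 - hh X m))
        = 2 * ∑ m, hh X m * (1 - hh X m) := by
      rw [Finset.sum_add_sum_compl, Finset.mul_sum]
    linarith
  have hn1 : 0 ≤ ∑ m ∈ G, (1 - hh X m) :=
    Finset.sum_nonneg fun m _ => sub_nonneg.2 (hh_le_one X m)
  have hn2 : 0 ≤ ∑ m ∈ Gᶜ, hh X m := Finset.sum_nonneg fun m _ => hh_nonneg X m
  refine ⟨G, ?_, ?_, by linarith⟩
  · have h1 : (G.card : ℝ) - Module.finrank ℂ X = ∑ m ∈ G, (1 - hh X m) - ∑ m ∈ Gᶜ, hh X m := by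
      rw [Finset.sum_sub_distrib, ← trA_univ X]
      have : trA X Finset.univ = ∑ m ∈ G, hh X m + ∑ m ∈ Gᶜ, hh X m := by
        rw [Finset.sum_add_sum_compl]; rfl
      rw [this]; simp; ring
    have h2 : (G.card : ℝ) < Module.finrank ℂ X + 1 := by linarith
    have h3 : (Module.finrank ℂ X : ℝ) < G.card + 1 := by linarith
    have h4 : G.card < Module.finrank ℂ X + 1 := by exact_mod_cast h2
    have h5 : Module.finrank ℂ X < G.card + 1 := by exact_mod_cast h3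
    omega
  · refine le_trans (le_of_eq ?_) hsum
    unfold hs
    rw [← Finset.sum_add_sum_compl G]
    congr 1
    · refine Finset.sum_congr rfl fun m hm => ?_
      show ‖pj X (dl m) - cp G (dl m)‖ ^ 2 = _
      rw [cp_dl, if_pos hm, norm_sub_rev]
      have := norm_sq_pj_add X (dl m)
      rw [norm_dl] at this
      unfold hh; linarith
    · refine Finset.sum_congr rfl fun m hm => ?_
      show ‖pj X (dl m) - cp G (dl m)‖ ^ 2 = _
      rw [cp_dl, if_neg (Finset.mem_compl.1 hm), sub_zero]; rfl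

/-- coordinates that are moved out of `G` by an approximately invariant map are few. -/
lemma card_le_of_inv {X Y : Submodule ℂ (Ev ι)} (hY : Y ≤ X) {r : ℕ}
    (hcod : Module.finrank ℂ X ≤ Module.finrank ℂ Y + r) {G B : Finset ι} (hBG : B ⊆ G)
    (hG : hs (pj X - cp G) ≤ 1 / 8) (S : Ev ι →ₗ[ℂ] Ev ι) (hSn : ∀ v, ‖S v‖ ≤ ‖v‖)
    (hSB : ∀ b ∈ coordSub B, ‖b‖ ≤ ‖S b‖ ∧ cp G (S b) = 0)
    (hS : ∀ f ∈ Y, ‖S f - pj X (S f)‖ ≤ (1 / 4) * ‖f‖) : B.card ≤ r := by
  classical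
  by_contra hcon
  rw [not_le] at hcon
  have hD : ∀ v, ‖pj X v - cp G v‖ ≤ (9 / 25) * ‖v‖ := by
    intro v
    have h1 := norm_sq_le_hs (pj X - cp G) v
    have h2 : ‖(pj X - cp G) v‖ = ‖pj X v - cp G v‖ := rfl
    rw [h2] at h1
    have h3 : ‖pj X v - cp G v‖ ^ 2 ≤ ((9 / 25) * ‖v‖) ^ 2 := by
      nlinarith [sq_nonneg ‖v‖]
    exact abs_le_of_sq_le_sq' h3 (by positivity) |>.2
  have hcpb : ∀ b ∈ coordSub B, cp G b = b := by
    intro b hb
    ext m
    rw [cp_apply]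
    split_ifs with h
    · rfl
    · exact ((mem_coordSub B b).1 hb m (fun hm => h (hBG hm))).symm
  -- the image of `ℂ^B` under the projection
  let L : coordSub B →ₗ[ℂ] Ev ι := (pj X : Ev ι →ₗ[ℂ] Ev ι) ∘ₗ (coordSub B).subtype
  have hLinj : Function.Injective L := by
    rw [← LinearMap.ker_eq_bot, LinearMap.ker_eq_bot']
    intro b hb
    have h1 : pj X (b : Ev ι) = 0 := hb
    have h2 := hD (b : Ev ι)
    rw [h1, hcpb _ b.2, zero_sub, norm_neg] at h2
    have h3 : ‖(b : Ev ι)‖ = 0 := by nlinarith [norm_nonneg (b : Ev ι)]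
    exact Subtype.ext (norm_eq_zero.1 h3)
  have hfr : Module.finrank ℂ (LinearMap.range L) = B.card := by
    rw [LinearMap.finrank_range_of_inj hLinj]
    exact finrank_coordSub B
  have hsup : LinearMap.range L ⊔ Y ≤ X := by
    refine sup_le ?_ hY
    rintro _ ⟨b, rfl⟩
    exact pj_mem X _
  have h1 := Submodule.finrank_sup_add_finrank_inf_eq (LinearMap.range L) Y
  have h2 := Submodule.finrank_mono hsup
  rw [hfr] at h1
  have h3 : 0 < Module.finrank ℂ ((LinearMap.range L ⊓ Y : Submodule ℂ (Ev ι))) := by omega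
  have h4 : (LinearMap.range L ⊓ Y : Submodule ℂ (Ev ι)) ≠ ⊥ := by
    intro h; rw [h, finrank_bot] at h3; exact lt_irrefl _ h3
  obtain ⟨f, ⟨⟨b, hb⟩, hfY⟩, hf0⟩ := Submodule.exists_mem_ne_zero_of_ne_bot h4
  have hfb : f = pj X (b : Ev ι) := hb.symm
  have hb0 : 0 < ‖(b : Ev ι)‖ := by
    rw [norm_pos_iff]
    intro h; apply hf0; rw [hfb, h, map_zero]
  obtain ⟨hSb1, hSb2⟩ := hSB _ b.2
  have e1 : ‖f - (b : Ev ι)‖ ≤ (9 / 25) * ‖(b : Ev ι)‖ := by
    have := hD (b : Ev ι)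
    rwa [hcpb _ b.2, ← hfb] at this
  have e2 : ‖pj X (S b)‖ ≤ (9 / 25) * ‖(b : Ev ι)‖ := by
    have := hD (S (b : Ev ι))
    rw [hSb2, sub_zero] at this
    have h5 := hSn (b : Ev ι)
    nlinarith
  have e3 : ‖f‖ ≤ ‖(b : Ev ι)‖ := by rw [hfb]; exact norm_pj_le X _
  have e4 := hS f hfY
  have e5 : S (b : Ev ι) = (S f - pj X (S f)) + pj X (S (b : Ev ι))
      - ((S (f - b)) - pj X (S (f - b))) := by
    rw [map_sub, map_sub]; abel
  have e6 : ‖S (f - b) - pj X (S (f - b))‖ ≤ ‖S (f - (b : Ev ι))‖ := by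
    have := norm_sq_pj_add X (S (f - (b : Ev ι)))
    exact abs_le_of_sq_le_sq' (by nlinarith [sq_nonneg ‖pj X (S (f - (b : Ev ι)))‖])
      (norm_nonneg _) |>.2
  have e7 := hSn (f - (b : Ev ι))
  have e8 : ‖S (b : Ev ι)‖ ≤ ‖S f - pj X (S f)‖ + ‖pj X (S (b : Ev ι))‖
      + ‖S (f - b) - pj X (S (f - b))‖ := by
    conv_lhs => rw [e5]
    exact (norm_sub_le _ _).trans (add_le_add_left (norm_add_le _ _) _)
  nlinarith

end general

section window
variable {l : ℕ}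

/-- partial sums of the costs -/
noncomputable def WW (a : ℤ → ℝ) (m : ℕ) : ℝ := ∑ i ∈ Finset.range m, a i

lemma WW_succ (a : ℤ → ℝ) (m : ℕ) : WW a (m + 1) = WW a m + a m := by
  unfold WW; rw [Finset.sum_range_succ]

lemma WW_nonneg {a : ℤ → ℝ} (ha0 : ∀ m : ℤ, 0 ≤ m → m < l → 0 ≤ a m) {m : ℕ} (hm : m ≤ l) :
    0 ≤ WW a m :=
  Finset.sum_nonneg fun i hi => ha0 i (by positivity) (by
    have := Finset.mem_range.1 hi; exact_mod_cast (by omega : i < l))

lemma WW_le {a : ℤ → ℝ} {k0 : ℝ} (ha1 : ∀ m : ℤ, 0 ≤ m → m < l → a m ≤ k0) {m : ℕ} (hm : m ≤ l) :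
    WW a m ≤ k0 * m := by
  unfold WW
  calc ∑ i ∈ Finset.range m, a i ≤ ∑ _i ∈ Finset.range m, k0 :=
        Finset.sum_le_sum fun i hi => ha1 i (by positivity) (by
          have := Finset.mem_range.1 hi; exact_mod_cast (by omega : i < l))
    _ = k0 * m := by simp [mul_comm]

lemma wsum_eq_WW (a : ℤ → ℝ) {j n : ℕ} (h : n ≤ j) :
    wsum a ((j : ℤ) - n) n = WW a j - WW a (j - n) := by
  unfold wsum WW
  obtain ⟨k, rfl⟩ := Nat.exists_eq_add_of_le h
  have e : n + k - n = k := by omega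
  rw [e, add_comm n k, Finset.sum_range_add]
  rw [add_sub_cancel_left]
  refine Finset.sum_congr rfl fun i _ => ?_
  congr 1; push_cast; ring

/-- the diagonals `D_i` -/
noncomputable def dd (a : ℤ → ℝ) (y : ℝ) : Fin l → ℝ := fun m => Real.exp (-(y * m.val) + WW a m.val)

lemma dd_pos (a : ℤ → ℝ) (y : ℝ) (m : Fin l) : 0 < dd a y m := Real.exp_pos _

lemma dd_anti {a : ℤ → ℝ} {k0 y : ℝ} (ha1 : ∀ m : ℤ, 0 ≤ m → m < l → a m ≤ k0) (hy : k0 ≤ y) :
    Antitone (dd a y : Fin l → ℝ) := by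
  have key : ∀ (p r : ℕ), p + r < l → -(y * (p + r : ℕ)) + WW a (p + r) ≤ -(y * p) + WW a p := by
    intro p r
    induction r with
    | zero => intro _; simp
    | succ r ih =>
      intro h
      have h1 := ih (by omega)
      have h2 : a ((p + r : ℕ) : ℤ) ≤ k0 := ha1 _ (by positivity) (by exact_mod_cast (by omega : p + r < l))
      have h3 : WW a (p + (r + 1)) = WW a (p + r) + a ((p + r : ℕ) : ℤ) := WW_succ a (p + r)
      rw [h3]
      push_cast at h1 h2 ⊢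
      nlinarith
  intro p r hpr
  simp only [dd]
  apply Real.exp_le_exp.2
  have h1 : p.val ≤ r.val := hpr
  have h2 := key p.val (r.val - p.val) (by have := r.2; omega)
  have e : p.val + (r.val - p.val) = r.val := by omega
  rw [e] at h2
  exact h2

lemma sc_eJ_dd (a : ℤ → ℝ) (y : ℝ) (F : Submodule ℂ (Ev (Fin l))) :
    sc (eJ l) (sc (dd a y) F) = sc (dd a (y + 1)) F := by
  rw [sc_sc]
  congr 1
  funext m
  simp only [eJ, dd]
  rw [← Real.exp_add]
  congr 1; ring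

/-- `∑ m h_m ≤ l²`. -/
lemma pot_le (X : Submodule ℂ (Ev (Fin l))) : ∑ m, hh X m * (m.val : ℝ) ≤ (l : ℝ) ^ 2 := by
  calc ∑ m, hh X m * (m.val : ℝ) ≤ ∑ _m : Fin l, (1 : ℝ) * l := by
        refine Finset.sum_le_sum fun m _ => ?_
        have h1 := hh_le_one X m
        have h2 := hh_nonneg X m
        have h3 : (m.val : ℝ) ≤ l := by exact_mod_cast m.2.le
        have h4 : (0 : ℝ) ≤ m.val := by positivity
        exact mul_le_mul h1 h3 h4 zero_le_one
    _ = (l : ℝ) ^ 2 := by simp [sq]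

lemma pot_nonneg (X : Submodule ℂ (Ev (Fin l))) : 0 ≤ ∑ m, hh X m * (m.val : ℝ) :=
  Finset.sum_nonneg fun m _ => mul_nonneg (hh_nonneg X m) (by positivity)

/-- pigeonhole: some `y = k0 + i`, `i < 48 l²`, makes the diagonal almost 0/1. -/
lemma exists_scale (hl : 1 ≤ l) (a : ℤ → ℝ) (k0 : ℝ) (F : Submodule ℂ (Ev (Fin l))) :
    ∃ i : ℕ, i < 48 * l ^ 2 ∧
      ∑ m, hh (sc (dd a (k0 + i)) F) m * (1 - hh (sc (dd a (k0 + i)) F) m) ≤ 1 / 16 := by
  by_contra hcon
  push Not at hcon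
  set X : ℕ → Submodule ℂ (Ev (Fin l)) := fun i => sc (dd a (k0 + i)) F with hX
  set pot : ℕ → ℝ := fun i => ∑ m, hh (X i) m * (m.val : ℝ) with hpot
  have hstep : ∀ i, i < 48 * l ^ 2 → 3 / 128 ≤ pot i - pot (i + 1) := by
    intro i hi
    have h1 := hcon i hi
    have h2 := off_le_cuts (X i)
    have h3 := drop_sum (X i)
    have h4 : sc (eJ l) (X i) = X (i + 1) := by
      simp only [hX]
      rw [sc_eJ_dd]
      congr 2; push_cast; ring
    rw [h4] at h3
    have h5 : Real.exp (-2) ≤ 1 / 4 := by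
      have h6 : (2 : ℝ) ≤ Real.exp 1 := by
        have := Real.add_one_le_exp (1 : ℝ); linarith
      have h7 : Real.exp (-2) = (Real.exp 1 ^ 2)⁻¹ := by
        rw [← Real.exp_nat_mul, Real.exp_neg]; norm_num
      rw [h7, inv_le_comm₀ (by positivity) (by norm_num)]
      nlinarith
    have h8 : 1 / 32 ≤ ∑ k ∈ Finset.Ico 1 l, cut (X i) (tl l k) := by
      have : 1 / 16 < ∑ m, hh (X i) m * (1 - hh (X i) m) := h1
      linarith
    simp only [hpot]
    nlinarith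
  have htel : ∀ N, N ≤ 48 * l ^ 2 → (3 / 128 : ℝ) * N ≤ pot 0 - pot N := by
    intro N
    induction N with
    | zero => intro _; simp
    | succ N ih =>
      intro hN
      have h1 := ih (by omega)
      have h2 := hstep N (by omega)
      push_cast
      linarith
  have h1 := htel (48 * l ^ 2) le_rfl
  have h2 : pot 0 ≤ (l : ℝ) ^ 2 := pot_le _
  have h3 : 0 ≤ pot (48 * l ^ 2) := pot_nonneg _
  push_cast at h1
  have h4 : (0 : ℝ) < (l : ℝ) ^ 2 := by
    have : (1 : ℝ) ≤ l := by exact_mod_cast hl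
    positivity
  nlinarith

/-- plain truncated shift -/
lemma shift0_apply (n : ℕ) (v : Ev (Fin l)) (j : Fin l) :
    (shiftN (q := l) (fun _ => (0 : ℝ)) n v) j = if h : n ≤ (j : ℕ) then
      v ⟨(j : ℕ) - n, lt_of_le_of_lt (Nat.sub_le _ _) j.2⟩ else 0 := by
  rw [shiftN_apply]
  by_cases h : n ≤ (j : ℕ)
  · simp [h, wsum]
  · simp [h]

/-- squared coordinates as a function on `ℕ` -/
noncomputable def gq (v : Ev (Fin l)) (i : ℕ) : ℝ := if h : i < l then ‖v ⟨i, h⟩‖ ^ 2 else 0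

lemma gq_nonneg (v : Ev (Fin l)) (i : ℕ) : 0 ≤ gq v i := by
  unfold gq; split_ifs <;> positivity

lemma norm_sq_gq (v : Ev (Fin l)) : ‖v‖ ^ 2 = ∑ i ∈ Finset.range l, gq v i := by
  rw [norm_sq_eq_sum, ← Fin.sum_univ_eq_sum_range (fun i => gq v i)]
  refine Finset.sum_congr rfl fun i _ => ?_
  simp [gq]

lemma norm_sq_shift0 {n : ℕ} (hn : n ≤ l) (v : Ev (Fin l)) :
    ‖shiftN (q := l) (fun _ => (0 : ℝ)) n v‖ ^ 2 = ∑ i ∈ Finset.range (l - n), gq v i := by
  rw [norm_sq_eq_sum]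
  have h2 : ∀ j : Fin l, ‖(shiftN (q := l) (fun _ => (0 : ℝ)) n v) j‖ ^ 2
      = (fun j : ℕ => if n ≤ j then gq v (j - n) else 0) (j : ℕ) := by
    intro j; rw [shift0_apply]
    by_cases h : n ≤ (j : ℕ)
    · have h' : (j : ℕ) - n < l := lt_of_le_of_lt (Nat.sub_le _ _) j.2
      simp [h, gq, h']
    · simp [h]
  simp_rw [h2]
  rw [Fin.sum_univ_eq_sum_range (fun j : ℕ => if n ≤ j then gq v (j - n) else 0) l,
    ← Finset.sum_filter]
  have h3 : ((Finset.range l).filter fun j => n ≤ j) = Finset.Ico n l := by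
    ext j; simp only [Finset.mem_filter, Finset.mem_range, Finset.mem_Ico]; omega
  rw [h3, Finset.sum_Ico_eq_sum_range]
  refine Finset.sum_congr rfl fun i _ => ?_
  rw [Nat.add_sub_cancel_left]

lemma norm_shift0_le {n : ℕ} (hn : n ≤ l) (v : Ev (Fin l)) :
    ‖shiftN (q := l) (fun _ => (0 : ℝ)) n v‖ ≤ ‖v‖ := by
  have h1 : ‖shiftN (q := l) (fun _ => (0 : ℝ)) n v‖ ^ 2 ≤ ‖v‖ ^ 2 := by
    rw [norm_sq_shift0 hn, norm_sq_gq v]
    exact Finset.sum_le_sum_of_subset_of_nonneg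
      (Finset.range_subset_range.2 (Nat.sub_le _ _)) fun i _ _ => gq_nonneg v i
  exact abs_le_of_sq_le_sq' h1 (norm_nonneg _) |>.2

/-- inversions at distance `n` -/
def BB (G : Finset (Fin l)) (n : ℕ) : Finset (Fin l) :=
  G.filter (fun j => ∃ h : j.val + n < l, (⟨j.val + n, h⟩ : Fin l) ∉ G)

lemma shift0_BB {n : ℕ} (hn : n ≤ l) (G : Finset (Fin l)) :
    ∀ b ∈ coordSub (BB G n), ‖b‖ ≤ ‖shiftN (q := l) (fun _ => (0 : ℝ)) n b‖ ∧
      cp G (shiftN (q := l) (fun _ => (0 : ℝ)) n b) = 0 := by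
  intro b hb
  rw [mem_coordSub] at hb
  constructor
  · have h1 : ‖b‖ ^ 2 ≤ ‖shiftN (q := l) (fun _ => (0 : ℝ)) n b‖ ^ 2 := by
      rw [norm_sq_shift0 hn, norm_sq_gq b]
      refine le_of_eq (Finset.sum_subset (Finset.range_subset_range.2 (Nat.sub_le _ _)) ?_).symm
      intro i hi hi'
      have h2 : i < l := Finset.mem_range.1 hi
      have h3 : ¬ i < l - n := fun h => hi' (Finset.mem_range.2 h)
      have h4 : b ⟨i, h2⟩ = 0 := by
        apply hb
        intro h5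
        obtain ⟨h6, -⟩ := (Finset.mem_filter.1 h5).2
        simp only at h6
        omega
      simp [gq, h2, h4]
    exact abs_le_of_sq_le_sq' h1 (norm_nonneg _) |>.2
  · ext j
    rw [cp_apply, PiLp.zero_apply]
    split_ifs with h
    · rw [shift0_apply]
      split_ifs with h'
      · apply hb
        intro h5
        obtain ⟨h6, h7⟩ := (Finset.mem_filter.1 h5).2
        apply h7
        convert h using 2
        simp only; omega
      · rfl
    · rfl

/-- counting inversions: `|G ∖ tail|² ≤ ∑ |B_n|`. -/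
lemma sq_le_inversions (G : Finset (Fin l)) :
    ((G \ tl l (l - G.card)).card) ^ 2 ≤ ∑ n ∈ Finset.Ico 1 l, (BB G n).card := by
  have hGl : G.card ≤ l := by simpa using Finset.card_le_univ G
  have hcard : (tl l (l - G.card)).card = G.card := by
    have h1 : (tl l (l - G.card)).card = ((Finset.range l).filter fun j => l - G.card ≤ j).card := by
      refine Finset.card_bij (fun j _ => j.val) ?_ ?_ ?_
      · intro j hj
        simp only [Finset.mem_filter, Finset.mem_univ, true_and, Finset.mem_range] at hj ⊢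
        exact ⟨j.2, hj⟩
      · intro j _ j' _ h; exact Fin.ext h
      · intro j hj
        simp only [Finset.mem_filter, Finset.mem_range] at hj
        exact ⟨⟨j, hj.1⟩, by simp [hj.2], rfl⟩
    have h3 : ((Finset.range l).filter fun j => l - G.card ≤ j) = Finset.Ico (l - G.card) l := by
      ext j; simp only [Finset.mem_filter, Finset.mem_range, Finset.mem_Ico]; omega
    rw [h1, h3, Nat.card_Ico]; omega
  have h1 := Finset.card_sdiff_add_card_inter G (tl l (l - G.card))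
  have h2 := Finset.card_sdiff_add_card_inter (tl l (l - G.card)) G
  rw [Finset.inter_comm] at h2
  have h3 : (tl l (l - G.card) \ G).card = (G \ tl l (l - G.card)).card := by omega
  have h4 : ((G \ tl l (l - G.card)) ×ˢ (tl l (l - G.card) \ G)).card
      ≤ ((Finset.Ico 1 l).sigma (fun n => BB G n)).card := by
    refine Finset.card_le_card_of_injOn
      (fun p : Fin l × Fin l => (⟨p.2.val - p.1.val, p.1⟩ : (Σ _ : ℕ, Fin l))) ?_ ?_
    · rintro ⟨j, j'⟩ hj
      simp only [Finset.coe_product, Set.mem_prod, Finset.mem_coe, Finset.mem_sdiff,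
        Finset.mem_filter, Finset.mem_univ, true_and] at hj
      obtain ⟨⟨hj1, hj2⟩, hj3, hj4⟩ := hj
      have hlt : j.val < j'.val := by omega
      simp only [Finset.coe_sigma, Set.mem_sigma_iff, Finset.mem_coe, Finset.mem_Ico]
      refine ⟨⟨by omega, by have := j'.2; omega⟩, ?_⟩
      unfold BB
      rw [Finset.mem_filter]
      refine ⟨hj1, by have := j'.2; omega, ?_⟩
      convert hj4 using 2
      ext; simp only; omega
    · rintro ⟨j, j'⟩ hj ⟨i, i'⟩ hi h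
      simp only [Finset.coe_product, Set.mem_prod, Finset.mem_coe, Finset.mem_sdiff,
        Finset.mem_filter, Finset.mem_univ, true_and] at hj hi
      simp only [Sigma.mk.injEq, heq_eq_eq] at h
      obtain ⟨h5, h6⟩ := h
      subst h6
      have : j' = i' := by
        ext; omega
      rw [this]
  rw [Finset.card_product, h3, Finset.card_sigma] at h4
  rw [sq]; exact h4

lemma norm_dg_le {ι : Type*} [Fintype ι] [DecidableEq ι] {d : ι → ℂ} {c : ℝ} (hc : 0 ≤ c)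
    (hd : ∀ m, ‖d m‖ ≤ c) (v : Ev ι) : ‖dg d v‖ ≤ c * ‖v‖ := by
  have h1 : ‖dg d v‖ ^ 2 ≤ (c * ‖v‖) ^ 2 := by
    rw [mul_pow, norm_sq_eq_sum, norm_sq_eq_sum v, Finset.mul_sum]
    refine Finset.sum_le_sum fun m _ => ?_
    rw [dg_apply, norm_mul, mul_pow]
    have := hd m
    gcongr
  exact abs_le_of_sq_le_sq' h1 (by positivity) |>.2

lemma le_norm_dg {ι : Type*} [Fintype ι] [DecidableEq ι] {d : ι → ℂ} {c : ℝ} (hc : 0 ≤ c)
    (hd : ∀ m, c ≤ ‖d m‖) (v : Ev ι) : c * ‖v‖ ≤ ‖dg d v‖ := by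
  have h1 : (c * ‖v‖) ^ 2 ≤ ‖dg d v‖ ^ 2 := by
    rw [mul_pow, norm_sq_eq_sum v, norm_sq_eq_sum (dg d v), Finset.mul_sum]
    refine Finset.sum_le_sum fun m _ => ?_
    rw [dg_apply, norm_mul, mul_pow]
    have := hd m
    gcongr
  exact abs_le_of_sq_le_sq' h1 (by positivity) |>.2

/-- intertwining: `D N^n = e^{-ny} S^n D`. -/
lemma dg_shiftN (a : ℤ → ℝ) (y : ℝ) (n : ℕ) (g : Ev (Fin l)) :
    dg (fun m => ((dd a y m : ℝ) : ℂ)) (shiftN a n g)
      = ((Real.exp (-(n * y)) : ℝ) : ℂ) •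
        shiftN (fun _ => (0 : ℝ)) n (dg (fun m => ((dd a y m : ℝ) : ℂ)) g) := by
  ext j
  rw [dg_apply, PiLp.smul_apply, shift0_apply, shiftN_apply]
  by_cases h : n ≤ (j : ℕ)
  · rw [dif_pos h, dif_pos h, dg_apply, smul_eq_mul, ← mul_assoc, ← mul_assoc,
      ← Complex.ofReal_mul, ← Complex.ofReal_mul]
    congr 2
    simp only [dd]
    rw [wsum_eq_WW a h, ← Real.exp_add, ← Real.exp_add]
    congr 1
    have e : (((j : ℕ) - n : ℕ) : ℝ) = (j : ℕ) - n := by
      rw [Nat.cast_sub h]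
    rw [e]; ring
  · rw [dif_neg h, dif_neg h]; simp

/-- **(WL)** -/
theorem window_main {l : ℕ} (hl : 1 ≤ l) (a : ℤ → ℝ) (k0 : ℝ)
    (ha0 : ∀ m : ℤ, 0 ≤ m → m < l → 0 ≤ a m) (ha1 : ∀ m : ℤ, 0 ≤ m → m < l → a m ≤ k0)
    (F : Submodule ℂ (Ev (Fin l)))
    (F' : ℕ → Submodule ℂ (Ev (Fin l))) (r : ℕ → ℕ) (δ : ℝ)
    (hδ : δ ≤ Real.exp (-(10 * l * (k0 + 100 * (l : ℝ) ^ 3))))
    (hF' : ∀ n, 1 ≤ n → n < l → F' n ≤ F)
    (hcod : ∀ n, 1 ≤ n → n < l → Module.finrank ℂ F ≤ Module.finrank ℂ (F' n) + r n)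
    (hinv : ∀ n, 1 ≤ n → n < l → ∀ v ∈ F' n,
      ‖shiftN a n v - F.starProjection (shiftN a n v)‖ ≤ δ * ‖v‖) :
    (Module.finrank ℂ F : ℝ) - trA F (tl l (l - Module.finrank ℂ F)) ≤
      Real.sqrt (∑ n ∈ Finset.Ico 1 l, (r n : ℝ)) + 1 / 8 := by
  have hl' : (0 : ℤ) < l := by exact_mod_cast hl
  have hk0 : 0 ≤ k0 := (ha0 0 le_rfl hl').trans (ha1 0 le_rfl hl')
  obtain ⟨i, hi, hsum⟩ := exists_scale hl a k0 F
  set y : ℝ := k0 + i with hydef
  set X := sc (dd a y) F with hX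
  have hy : k0 ≤ y := by rw [hydef]; have : (0 : ℝ) ≤ i := by positivity
                         linarith
  have hy0 : 0 ≤ y := hk0.trans hy
  have hyle : y ≤ k0 + 48 * (l : ℝ) ^ 2 := by
    have : (i : ℝ) ≤ 48 * (l : ℝ) ^ 2 := by exact_mod_cast hi.le
    linarith
  obtain ⟨G, hGc, hGhs, hGsum⟩ := near_coord X hsum
  have hfr : Module.finrank ℂ X = Module.finrank ℂ F := finrank_sc (fun m => (dd_pos a y m).ne') F
  have hl1 : (1 : ℝ) ≤ l := by exact_mod_cast hl
  have hdd1 : ∀ m : Fin l, dd a y m ≤ 1 := by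
    intro m
    unfold dd
    rw [Real.exp_le_one_iff]
    have h1 := WW_le ha1 m.2.le
    have h2 : (0 : ℝ) ≤ m.val := by positivity
    nlinarith
  have hdd0 : ∀ m : Fin l, Real.exp (-(y * l)) ≤ dd a y m := by
    intro m
    unfold dd
    apply Real.exp_le_exp.2
    have h1 := WW_nonneg ha0 m.2.le
    have h2 : (m.val : ℝ) ≤ l := by exact_mod_cast m.2.le
    nlinarith
  have hnorm : ∀ m : Fin l, ‖((dd a y m : ℝ) : ℂ)‖ = dd a y m := by
    intro m
    rw [Complex.norm_real, Real.norm_eq_abs, abs_of_pos (dd_pos a y m)]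
  have hB : ∀ n ∈ Finset.Ico 1 l, (BB G n).card ≤ r n := by
    intro n hn
    rw [Finset.mem_Ico] at hn
    refine card_le_of_inv (X := X) (Y := sc (dd a y) (F' n)) (Submodule.map_mono (hF' n hn.1 hn.2)) ?_
      (Finset.filter_subset _ _) hGhs (shiftN (fun _ => (0 : ℝ)) n) (norm_shift0_le hn.2.le)
      (shift0_BB hn.2.le G) ?_
    · rw [hfr, finrank_sc (fun m => (dd_pos a y m).ne')]
      exact hcod n hn.1 hn.2
    · rintro _ ⟨g, hg, rfl⟩
      show ‖shiftN (fun _ => (0 : ℝ)) n (dg (fun m => ((dd a y m : ℝ) : ℂ)) g)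
          - pj X (shiftN (fun _ => (0 : ℝ)) n (dg (fun m => ((dd a y m : ℝ) : ℂ)) g))‖
        ≤ (1 / 4) * ‖dg (fun m => ((dd a y m : ℝ) : ℂ)) g‖
      set f : Ev (Fin l) := dg (fun m => ((dd a y m : ℝ) : ℂ)) g with hf
      set z : Ev (Fin l) := shiftN a n g - pj F (shiftN a n g) with hz
      have hzle : ‖z‖ ≤ Real.exp (-(10 * l * (k0 + 100 * (l : ℝ) ^ 3))) * ‖g‖ :=
        (hinv n hn.1 hn.2 g hg).trans (mul_le_mul_of_nonneg_right hδ (norm_nonneg _))
      have hDz : dg (fun m => ((dd a y m : ℝ) : ℂ)) z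
          = ((Real.exp (-(n * y)) : ℝ) : ℂ) • shiftN (fun _ => (0 : ℝ)) n f
            - dg (fun m => ((dd a y m : ℝ) : ℂ)) (pj F (shiftN a n g)) := by
        rw [hz, map_sub, dg_shiftN]
      have hmem : dg (fun m => ((dd a y m : ℝ) : ℂ)) (pj F (shiftN a n g)) ∈ X :=
        dg_mem_sc (pj_mem F _)
      have hdiff : dg (fun m => ((dd a y m : ℝ) : ℂ)) z - pj X (dg (fun m => ((dd a y m : ℝ) : ℂ)) z)
          = ((Real.exp (-(n * y)) : ℝ) : ℂ) •
            (shiftN (fun _ => (0 : ℝ)) n f - pj X (shiftN (fun _ => (0 : ℝ)) n f)) := by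
        rw [hDz, map_sub, map_smul, pj_eq_self hmem, smul_sub]; abel
      have hn1 : ‖dg (fun m => ((dd a y m : ℝ) : ℂ)) z
          - pj X (dg (fun m => ((dd a y m : ℝ) : ℂ)) z)‖ ≤ ‖z‖ := by
        have h1 := norm_sq_pj_add X (dg (fun m => ((dd a y m : ℝ) : ℂ)) z)
        have h2 : ‖dg (fun m => ((dd a y m : ℝ) : ℂ)) z‖ ≤ 1 * ‖z‖ :=
          norm_dg_le zero_le_one (fun m => by rw [hnorm]; exact hdd1 m) z
        rw [one_mul] at h2
        refine le_trans ?_ h2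
        have h3 : 0 ≤ ‖pj X (dg (fun m => ((dd a y m : ℝ) : ℂ)) z)‖ ^ 2 := sq_nonneg _
        exact abs_le_of_sq_le_sq' (by linarith) (norm_nonneg _) |>.2
      rw [hdiff, norm_smul, Complex.norm_real, Real.norm_eq_abs, abs_of_pos (Real.exp_pos _)] at hn1
      have hg1 : Real.exp (-(y * l)) * ‖g‖ ≤ ‖f‖ :=
        le_norm_dg (Real.exp_pos _).le (fun m => by rw [hnorm]; exact hdd0 m) g
      -- numerical
      have hnl : (n : ℝ) ≤ l := by exact_mod_cast hn.2.le
      have hexp : Real.exp (-(10 * l * (k0 + 100 * (l : ℝ) ^ 3)))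
          ≤ (1 / 4) * (Real.exp (-(n * y)) * Real.exp (-(y * l))) := by
        have h4 : Real.exp (-2) ≤ 1 / 4 := by
          have h6 : (2 : ℝ) ≤ Real.exp 1 := by
            have := Real.add_one_le_exp (1 : ℝ); linarith
          have h7 : Real.exp (-2) = (Real.exp 1 ^ 2)⁻¹ := by
            rw [← Real.exp_nat_mul, Real.exp_neg]; norm_num
          rw [h7, inv_le_comm₀ (by positivity) (by norm_num)]
          nlinarith
        have h5 : -(10 * l * (k0 + 100 * (l : ℝ) ^ 3)) ≤ -2 + (-(n * y) + -(y * l)) := by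
          have h8 : n * y ≤ l * y := mul_le_mul_of_nonneg_right hnl hy0
          have h9 : y * l ≤ (k0 + 48 * (l : ℝ) ^ 2) * l :=
            mul_le_mul_of_nonneg_right hyle (by linarith)
          have h10 : (l : ℝ) ^ 3 ≤ l * (l : ℝ) ^ 3 := by
            have : 0 ≤ (l : ℝ) ^ 3 := by positivity
            nlinarith
          have h11 : (1 : ℝ) ≤ (l : ℝ) ^ 3 := one_le_pow₀ hl1
          have h12 : 0 ≤ l * k0 := by positivity
          nlinarith
        calc Real.exp (-(10 * l * (k0 + 100 * (l : ℝ) ^ 3)))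
            ≤ Real.exp (-2 + (-(n * y) + -(y * l))) := Real.exp_le_exp.2 h5
          _ = Real.exp (-2) * (Real.exp (-(n * y)) * Real.exp (-(y * l))) := by
              rw [Real.exp_add, Real.exp_add]
          _ ≤ _ := by gcongr
      have hfin : Real.exp (-(n * y)) * ‖shiftN (fun _ => (0 : ℝ)) n f
          - pj X (shiftN (fun _ => (0 : ℝ)) n f)‖
          ≤ Real.exp (-(n * y)) * ((1 / 4) * ‖f‖) := by
        calc Real.exp (-(n * y)) * ‖shiftN (fun _ => (0 : ℝ)) n f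
              - pj X (shiftN (fun _ => (0 : ℝ)) n f)‖ ≤ ‖z‖ := hn1
          _ ≤ Real.exp (-(10 * l * (k0 + 100 * (l : ℝ) ^ 3))) * ‖g‖ := hzle
          _ ≤ ((1 / 4) * (Real.exp (-(n * y)) * Real.exp (-(y * l)))) * ‖g‖ := by gcongr
          _ = Real.exp (-(n * y)) * ((1 / 4) * (Real.exp (-(y * l)) * ‖g‖)) := by ring
          _ ≤ _ := by gcongr
      exact le_of_mul_le_mul_left hfin (Real.exp_pos _)
  -- counting
  have hcount := sq_le_inversions G
  rw [hGc, hfr] at hcount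
  set T := tl l (l - Module.finrank ℂ F) with hT
  have hI : ((G \ T).card : ℝ) ≤ Real.sqrt (∑ n ∈ Finset.Ico 1 l, (r n : ℝ)) := by
    apply Real.le_sqrt_of_sq_le
    calc ((G \ T).card : ℝ) ^ 2 ≤ ((∑ n ∈ Finset.Ico 1 l, (BB G n).card : ℕ) : ℝ) := by
          exact_mod_cast hcount
      _ = ∑ n ∈ Finset.Ico 1 l, ((BB G n).card : ℝ) := by push_cast; rfl
      _ ≤ _ := Finset.sum_le_sum fun n hn => by exact_mod_cast hB n hn
  have hlow : (Module.finrank ℂ F : ℝ) - (G \ T).card - 1 / 8 ≤ trA X T := by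
    have h1 : ∑ m ∈ G ∩ T, hh X m ≤ trA X T :=
      Finset.sum_le_sum_of_subset_of_nonneg Finset.inter_subset_right fun m _ _ => hh_nonneg X m
    have h2 : ∑ m ∈ G ∩ T, (1 - hh X m) ≤ 1 / 8 :=
      (Finset.sum_le_sum_of_subset_of_nonneg Finset.inter_subset_left
        fun m _ _ => sub_nonneg.2 (hh_le_one X m)).trans hGsum
    rw [Finset.sum_sub_distrib] at h2
    have h3 : ∑ _m ∈ G ∩ T, (1 : ℝ) = (G ∩ T).card := by simp
    rw [h3] at h2
    have h4 : (G.card : ℝ) = (G \ T).card + (G ∩ T).card := by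
      exact_mod_cast (Finset.card_sdiff_add_card_inter G T).symm
    rw [hGc, hfr] at h4
    linarith
  have hmono : trA X T ≤ trA F T := anti_tail (dd_pos a y) (dd_anti ha1 hy) F _
  linarith

end window

end Crest.Agent.R113.FD
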